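import Vale.Agent.P123.Geometry

/-! B1: domains with smooth boundary approximate compact convex sets from outside. -/

noncomputable section

namespace Vale.Agent.P123

open Complex MeasureTheory Filter Set
open scoped ComplexConjugate Real Topology Pointwise Convolution

/-- B1, with a smooth boundary and the convexity of the gauge. -/
theorem exists_dom_smooth {S : Set ℂ} (hS : IsCompact S) (hc : Convex ℝ S) (h0 : (0 : ℂ) ∈ S)
    {ε : ℝ} (hε : 0 < ε) : ∃ D : Dom, S ⊆ D.Ω ∧ D.Ω ⊆ Metric.thickening ε S ∧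
      ContDiff ℝ 3 D.radius ∧ ConvexOn ℝ univ (fun z : ℂ => ‖z‖ / D.radius z.arg) := by
  set T := Metric.cthickening (ε / 2) S
  have hTc : Convex ℝ T := hc.cthickening _
  have hTk : IsCompact T := hS.cthickening
  have hT0 : T ∈ 𝓝 (0 : ℂ) :=
    mem_of_superset (Metric.ball_mem_nhds 0 (half_pos hε)) fun z hz =>
      Metric.mem_cthickening_of_dist_le z 0 _ S h0 (le_of_lt hz)
  set G := gauge T
  have hG : Continuous G := continuous_gauge hTc hT0
  have habs : Absorbent ℝ T := absorbent_nhds_zero hT0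
  obtain ⟨R, hR, hTR⟩ := hTk.isBounded.subset_closedBall_lt 0 0
  have hGlow : ∀ z : ℂ, ‖z‖ / R ≤ G z := fun z =>
    le_gauge_of_subset_closedBall habs hR.le hTR
  have hGsmul : ∀ {t : ℝ}, 0 ≤ t → ∀ z : ℂ, G ((t : ℂ) * z) = t * G z := by
    intro t ht z
    rw [← Complex.real_smul]
    exact gauge_smul_of_nonneg ht z
  -- the gauge on the circle
  set g : ℝ → ℝ := fun θ => G (exp (θ * I))
  have hg : Continuous g := hG.comp (by fun_prop)
  have hgp : Function.Periodic g (2 * π) := fun θ => by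
    have h1 : (((θ + 2 * π : ℝ) : ℂ) * I) = (θ : ℂ) * I + 2 * π * I := by push_cast; ring
    simp only [g, h1, Complex.exp_periodic _]
  -- points of `S` are strictly inside
  obtain ⟨κ, hκ, hκS⟩ : ∃ κ > 0, ∀ z ∈ S, G z ≤ 1 - 2 * κ := by
    have hlt : ∀ z ∈ S, G z < 1 := fun z hz => by
      rw [gauge_lt_one_iff_mem_interior hTc hT0]
      exact interior_mono (Metric.thickening_subset_cthickening _ _)
        (by rw [Metric.isOpen_thickening.interior_eq]
            exact Metric.self_subset_thickening (half_pos hε) S hz)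
    obtain ⟨z0, hz0, hmax⟩ := hS.exists_isMaxOn ⟨0, h0⟩ hG.continuousOn
    exact ⟨(1 - G z0) / 2, by linarith [hlt z0 hz0], fun z hz => by
      have : G z ≤ G z0 := hmax hz
      linarith⟩
  obtain ⟨M, hM, hSM⟩ := hS.isBounded.subset_closedBall_lt 0 0
  have hcone : ∀ z : ℂ, G z = ‖z‖ * g z.arg := fun z => by
    rw [show g z.arg = G (exp (z.arg * I)) from rfl, ← hGsmul (norm_nonneg z),
      Complex.norm_mul_exp_arg_mul_I]
  -- smallness of the mollification
  obtain ⟨R', hR', hRR'⟩ : ∃ R', 0 < R' ∧ R + ε ≤ R' := ⟨R + ε, by linarith, le_rfl⟩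
  set η : ℝ := min (min (κ / (2 * M)) (ε / (4 * (2 * R) ^ 2))) (1 / (2 * R))
  have hη : 0 < η := by positivity
  have hR1 : ∀ θ, 1 / R ≤ g θ := fun θ => by simpa [g] using hGlow (exp (θ * I))
  obtain ⟨δ, hδ, hδg⟩ : ∃ δ > 0, ∀ ⦃x y : ℝ⦄, dist x y < δ → dist (g x) (g y) < η := by
    obtain ⟨δ, hδ, h⟩ := Metric.uniformContinuousOn_iff.1
      ((isCompact_Icc (a := -(2 * π)) (b := 4 * π)).uniformContinuousOn_of_continuous hg.continuousOn)
      η hη
    refine ⟨min δ π, by positivity, fun x y hxy => ?_⟩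
    obtain ⟨n, hn⟩ : ∃ n : ℤ, x - n * (2 * π) ∈ Icc 0 (2 * π) := by
      refine ⟨⌊x / (2 * π)⌋, ?_⟩
      have hp : (0:ℝ) < 2 * π := by positivity
      have h1 := Int.floor_le (x / (2 * π))
      have h2 := Int.lt_floor_add_one (x / (2 * π))
      rw [le_div_iff₀ hp] at h1
      rw [div_lt_iff₀ hp] at h2
      constructor <;> linarith
    rw [← hgp.sub_int_mul_eq n (x := x), ← hgp.sub_int_mul_eq n (x := y)]
    rw [Real.dist_eq, abs_lt] at hxy
    have hmin : min δ π ≤ π := min_le_right _ _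
    refine h _ ⟨by linarith [hn.1, Real.pi_pos], by linarith [hn.2, Real.pi_pos]⟩ _
      ⟨by linarith [hn.1, hxy.1, hxy.2], by linarith [hn.2, hxy.1, hxy.2]⟩ ?_
    rw [Real.dist_eq, show x - n * (2 * π) - (y - n * (2 * π)) = x - y by ring, abs_lt]
    exact ⟨by linarith [hxy.1, min_le_left δ π], by linarith [hxy.2, min_le_left δ π]⟩
  let φ : ContDiffBump (0 : ℝ) := ⟨δ / 2, δ, half_pos hδ, half_lt_self hδ⟩
  set ρ : ℝ → ℝ := (φ.normed volume ⋆[ContinuousLinearMap.lsmul ℝ ℝ, volume] g)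
  have hρ : ∀ θ, |ρ θ - g θ| ≤ η := fun θ => by
    rw [← Real.dist_eq]
    exact φ.dist_normed_convolution_le hg.aestronglyMeasurable fun y hy =>
      (hδg hy).le
  have hρpos : ∀ θ, 1 / (2 * R) ≤ ρ θ := fun θ => by
    have := (abs_le.1 (hρ θ)).1
    have : η ≤ 1 / (2 * R) := min_le_right _ _
    have : 1 / R = 1 / (2 * R) + 1 / (2 * R) := by ring
    linarith [hR1 θ]
  have hρ0 : ∀ θ, 0 < ρ θ := fun θ => lt_of_lt_of_le (by positivity) (hρpos θ)
  have hρc : ContDiff ℝ 3 ρ :=
    φ.hasCompactSupport_normed.contDiff_convolution_left _ φ.contDiff_normed hg.locallyIntegrable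
  have hρint : ∀ θ, ρ θ = ∫ s, φ.normed volume s * g (θ - s) := fun θ => rfl
  have hρp : Function.Periodic ρ (2 * π) := fun θ => by
    rw [hρint, hρint]
    refine integral_congr_ae (ae_of_all _ fun s => ?_)
    show φ.normed volume s * g (θ + 2 * π - s) = φ.normed volume s * g (θ - s)
    rw [show θ + 2 * π - s = θ - s + 2 * π by ring, hgp]
  -- the mollified gauge
  set G' : ℂ → ℝ := fun z => ∫ s, φ.normed volume s * G (exp ((-s : ℝ) * I) * z)
  have hG'i : ∀ z, Integrable fun s => φ.normed volume s * G (exp ((-s : ℝ) * I) * z) := fun z =>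
    (φ.continuous_normed.mul (hG.comp (by fun_prop))).integrable_of_hasCompactSupport
      (φ.hasCompactSupport_normed.mul_right)
  have hG'eq : ∀ z, G' z = ‖z‖ * ρ z.arg := fun z => by
    rw [hρint, ← integral_const_mul]
    refine integral_congr_ae (ae_of_all _ fun s => ?_)
    show φ.normed volume s * G (exp ((-s : ℝ) * I) * z) = ‖z‖ * (φ.normed volume s * g (z.arg - s))
    have : exp ((-s : ℝ) * I) * z = (‖z‖ : ℂ) * exp (((z.arg - s : ℝ) : ℂ) * I) := by
      conv_lhs => rw [← Complex.norm_mul_exp_arg_mul_I z]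
      rw [show ((z.arg - s : ℝ) : ℂ) * I = ((-s : ℝ) : ℂ) * I + (z.arg : ℂ) * I by push_cast; ring,
        Complex.exp_add]
      ring
    rw [this, hGsmul (norm_nonneg z)]
    ring
  have hG'conv : ConvexOn ℝ univ G' := by
    refine ⟨convex_univ, fun x _ y _ a b ha hb hab => ?_⟩
    simp only [G', smul_eq_mul]
    rw [← integral_const_mul, ← integral_const_mul, ← integral_add ((hG'i x).const_mul a)
      ((hG'i y).const_mul b)]
    refine integral_mono (hG'i _) (((hG'i x).const_mul a).add ((hG'i y).const_mul b)) fun s => ?_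
    show φ.normed volume s * G (exp ((-s : ℝ) * I) * (a • x + b • y)) ≤
      a * (φ.normed volume s * G (exp ((-s : ℝ) * I) * x)) +
        b * (φ.normed volume s * G (exp ((-s : ℝ) * I) * y))
    have h1 : G (exp ((-s : ℝ) * I) * (a • x + b • y)) ≤
        a * G (exp ((-s : ℝ) * I) * x) + b * G (exp ((-s : ℝ) * I) * y) := by
      rw [mul_add, mul_smul_comm, mul_smul_comm]
      refine (gauge_add_le hTc habs _ _).trans (le_of_eq ?_)
      rw [gauge_smul_of_nonneg ha, gauge_smul_of_nonneg hb]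
      rfl
    nlinarith [mul_le_mul_of_nonneg_left h1 (φ.nonneg_normed (μ := volume) s)]
  have hset : ∀ z : ℂ, ‖z‖ < (ρ z.arg)⁻¹ ↔ G' z < 1 := fun z => by
    rw [hG'eq, ← one_div, lt_div_iff₀ (hρ0 _)]
  let D : Dom :=
    { radius := fun θ => (ρ θ)⁻¹
      pos := fun θ => inv_pos.2 (hρ0 θ)
      periodic := fun θ => congrArg _ (hρp θ)
      contDiff := (hρc.inv fun θ => (hρ0 θ).ne').of_le (by norm_num)
      convex := by
        have : {z : ℂ | ‖z‖ < (ρ z.arg)⁻¹} = {z ∈ univ | G' z < 1} := by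
          ext z; simp [hset]
        rw [this]; exact hG'conv.convex_lt 1 }
  have hdiff : ∀ z : ℂ, |G' z - G z| ≤ η * ‖z‖ := fun z => by
    rw [hG'eq, hcone, ← mul_sub, abs_mul, abs_norm, mul_comm]
    exact mul_le_mul_of_nonneg_right (hρ _) (norm_nonneg _)
  refine ⟨D, fun z hz => ?_, fun z hz => ?_, hρc.inv fun θ => (hρ0 θ).ne',
    hG'conv.congr fun z _ => by simp [D, hG'eq, div_inv_eq_mul]⟩
  · show ‖z‖ < (ρ z.arg)⁻¹
    rw [hset]
    have h1 : η * ‖z‖ ≤ κ / (2 * M) * M := mul_le_mul ((min_le_left _ _).trans (min_le_left _ _))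
      (mem_closedBall_zero_iff.1 (hSM hz)) (norm_nonneg _) (by positivity)
    have h2 : κ / (2 * M) * M = κ / 2 := by field_simp
    linarith [(abs_le.1 (hdiff z)).2, hκS z hz]
  · have hz' : ‖z‖ < (ρ z.arg)⁻¹ := hz
    have hn : ‖z‖ ≤ 2 * R := by
      refine hz'.le.trans ?_
      rw [inv_le_comm₀ (hρ0 _) (by positivity), ← one_div]
      exact hρpos _
    have hGz : G z < 1 + ε / (4 * (2 * R)) := by
      have h1 : η * ‖z‖ ≤ ε / (4 * (2 * R) ^ 2) * (2 * R) :=
        mul_le_mul ((min_le_left _ _).trans (min_le_right _ _)) hn (norm_nonneg _) (by positivity)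
      have h2 : ε / (4 * (2 * R) ^ 2) * (2 * R) = ε / (4 * (2 * R)) := by field_simp
      linarith [(abs_le.1 (hdiff z)).1, (hset z).1 hz']
    set a := ε / (4 * (2 * R))
    have ha : 0 < a := by positivity
    set w : ℂ := ((1 / (1 + a) : ℝ) : ℂ) * z
    have hwT : w ∈ T := by
      have : G w < 1 := by
        rw [hGsmul (by positivity), div_mul_eq_mul_div, one_mul, div_lt_one (by positivity)]
        exact hGz
      exact interior_subset ((gauge_lt_one_iff_mem_interior hTc hT0).1 this)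
    rw [show T = ⋃ x ∈ closure S, Metric.closedBall x (ε / 2) from
      Metric.cthickening_eq_biUnion_closedBall S (half_pos hε).le, hS.isClosed.closure_eq,
      mem_iUnion₂] at hwT
    obtain ⟨s, hs, hws⟩ := hwT
    rw [Metric.mem_thickening_iff]
    refine ⟨s, hs, ?_⟩
    rw [dist_eq_norm]
    calc ‖z - s‖ ≤ ‖z - w‖ + ‖w - s‖ := norm_sub_le_norm_sub_add_norm_sub z w s
      _ ≤ a * (2 * R) + ε / 2 := by
          refine add_le_add ?_ ?_
          · have : z - w = ((a / (1 + a) : ℝ) : ℂ) * z := by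
              have h1 : (1 / (1 + a) : ℝ) + a / (1 + a) = 1 := by field_simp
              calc z - w = (((1 / (1 + a) : ℝ) + a / (1 + a) : ℝ) : ℂ) * z - w := by rw [h1]; simp
                _ = _ := by simp only [w, Complex.ofReal_add]; ring
            rw [this, norm_mul, Complex.norm_real, Real.norm_of_nonneg (by positivity)]
            refine mul_le_mul ?_ hn (norm_nonneg _) ha.le
            exact div_le_self ha.le (by linarith)
          · rw [← dist_eq_norm]; exact hws
      _ < ε := by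
          have : a * (2 * R) = ε / 4 := by simp only [a]; field_simp
          linarith

/-- B1. -/
theorem exists_dom {S : Set ℂ} (hS : IsCompact S) (hc : Convex ℝ S) (h0 : (0 : ℂ) ∈ S)
    {ε : ℝ} (hε : 0 < ε) : ∃ D : Dom, S ⊆ D.Ω ∧ D.Ω ⊆ Metric.thickening ε S :=
  let ⟨D, h1, h2, _⟩ := exists_dom_smooth hS hc h0 hε
  ⟨D, h1, h2⟩

end Vale.Agent.P123
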