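import Vale.Agent.P123.Geometry

/-! B5: the double-layer kernel is a probability density. -/

noncomputable section

namespace Vale.Agent.P123

open Complex MeasureTheory Filter Set
open scoped ComplexConjugate Real Topology

namespace Dom

variable (D : Dom)

theorem kernel_nonneg (θ₀ θ : ℝ) : 0 ≤ D.kernel θ₀ θ := by
  refine mul_nonneg (by positivity) ?_
  have h := D.side (D.σ_mem_closure θ₀) θ
  rw [Complex.div_im]
  have e : (D.dσ θ).im * (D.σ θ - D.σ θ₀).re / normSq (D.σ θ - D.σ θ₀) -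
      (D.dσ θ).re * (D.σ θ - D.σ θ₀).im / normSq (D.σ θ - D.σ θ₀) =
      (conj (D.dσ θ) * (D.σ θ₀ - D.σ θ)).im / normSq (D.σ θ - D.σ θ₀) := by
    simp only [Complex.mul_im, Complex.conj_re, Complex.conj_im, Complex.sub_re, Complex.sub_im]
    ring
  rw [e]
  exact div_nonneg h (Complex.normSq_nonneg _)

lemma kernel_periodic (θ₀ : ℝ) : Function.Periodic (D.kernel θ₀) (2 * π) := fun θ => by
  simp only [kernel, D.σ_periodic θ, D.dσ_periodic θ]

lemma σ_inj {θ₀ θ : ℝ} (h : D.σ θ = D.σ θ₀) : ∃ n : ℤ, θ - θ₀ = 2 * π * n := by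
  have h1 := D.arg_smul_σ one_pos θ
  have h2 := D.arg_smul_σ one_pos θ₀
  rw [h] at h1
  exact Real.Angle.angle_eq_iff_two_pi_dvd_sub.1 (h1.symm.trans h2)

lemma σ_ne_of_mem_Ioo {θ₀ θ : ℝ} (h : θ ∈ Ioo θ₀ (θ₀ + 2 * π)) : D.σ θ - D.σ θ₀ ≠ 0 := by
  intro h0
  obtain ⟨n, hn⟩ := D.σ_inj (sub_eq_zero.1 h0)
  have h1 : (0:ℝ) < n := by
    by_contra hle
    push Not at hle
    nlinarith [h.1, Real.pi_pos]
  have h2 : (n:ℝ) < 1 := by
    by_contra hle
    push Not at hle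
    nlinarith [h.2, Real.pi_pos]
  have h1' : (0:ℤ) < n := by exact_mod_cast h1
  have h2' : n < (1:ℤ) := by exact_mod_cast h2
  omega

/-- `-I (σ θ - σ θ₀) / dσ θ₀`. -/
def turn (θ₀ θ : ℝ) : ℂ := -I * ((D.σ θ - D.σ θ₀) / D.dσ θ₀)

/-- Antiderivative of `π * kernel`. -/
def angleFn (θ₀ θ : ℝ) : ℝ :=
  if θ ≤ θ₀ then -(π / 2) else if θ₀ + 2 * π ≤ θ then π / 2 else (Complex.log (D.turn θ₀ θ)).im

lemma turn_mem {θ₀ θ : ℝ} (h : θ ∈ Ioo θ₀ (θ₀ + 2 * π)) : D.turn θ₀ θ ∈ slitPlane := by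
  have him : 0 ≤ ((D.σ θ - D.σ θ₀) / D.dσ θ₀).im := by
    have hs := D.side (D.σ_mem_closure θ) θ₀
    have e : ((D.σ θ - D.σ θ₀) / D.dσ θ₀).im =
        (conj (D.dσ θ₀) * (D.σ θ - D.σ θ₀)).im / normSq (D.dσ θ₀) := by
      rw [Complex.div_im]
      simp only [Complex.mul_im, Complex.conj_re, Complex.conj_im]
      ring
    rw [e]
    exact div_nonneg hs (Complex.normSq_nonneg _)
  rw [Complex.mem_slitPlane_iff]
  rcases him.eq_or_lt with h0 | h0
  · right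
    simp only [turn, neg_mul, Complex.neg_im, Complex.mul_im, Complex.I_re, Complex.I_im]
    intro hre
    refine div_ne_zero (D.σ_ne_of_mem_Ioo h) (D.dσ_ne_zero θ₀) (Complex.ext ?_ h0.symm)
    simpa using hre
  · left
    simpa [turn] using h0

lemma turn_hasDerivAt (θ₀ θ : ℝ) : HasDerivAt (D.turn θ₀) (-I * (D.dσ θ / D.dσ θ₀)) θ :=
  (((D.hasDerivAt_σ θ).sub_const _).div_const _).const_mul _

lemma tendsto_arg {θ₀ e : ℝ} (he : D.σ e = D.σ θ₀) (hd : D.dσ e = D.dσ θ₀) :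
    Tendsto (fun θ : ℝ => (((θ - e) : ℝ) : ℂ)⁻¹ * D.turn θ₀ θ) (𝓝[≠] e) (𝓝 (-I)) := by
  have h := (D.turn_hasDerivAt θ₀ e).tendsto_slope
  rw [hd, div_self (D.dσ_ne_zero θ₀), mul_one] at h
  refine h.congr fun θ => ?_
  rw [slope_def_module, Complex.real_smul]
  simp [turn, he]

lemma arg_mul_pos {r : ℝ} (hr : 0 < r) (z : ℂ) : (Complex.log ((r : ℂ) * z)).im = z.arg := by
  rw [Complex.log_im, Complex.arg_real_mul _ hr]

lemma continuousOn_angleFn (θ₀ : ℝ) : ContinuousOn (D.angleFn θ₀) (Icc θ₀ (θ₀ + 2 * π)) := by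
  have hp : θ₀ < θ₀ + 2 * π := by linarith [Real.pi_pos]
  intro θ hθ
  rcases hθ.1.eq_or_lt with h | h
  · subst h
    refine ContinuousWithinAt.mono ?_ Icc_subset_Ici_self
    rw [← continuousWithinAt_Ioi_iff_Ici]
    have hlim := ((Complex.continuousAt_arg (x := -I) (by simp [Complex.mem_slitPlane_iff])).tendsto).comp
      ((D.tendsto_arg (e := θ₀) rfl rfl).mono_left (nhdsWithin_mono _ fun x hx => ne_of_gt hx))
    rw [Complex.arg_neg_I] at hlim
    show Tendsto (D.angleFn θ₀) (𝓝[>] θ₀) (𝓝 (D.angleFn θ₀ θ₀))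
    rw [show D.angleFn θ₀ θ₀ = -(π / 2) by simp [angleFn]]
    refine hlim.congr' ?_
    filter_upwards [Ioo_mem_nhdsGT hp] with x hx
    show ((((x - θ₀ : ℝ) : ℂ))⁻¹ * D.turn θ₀ x).arg = D.angleFn θ₀ x
    rw [angleFn, if_neg (not_le.2 hx.1), if_neg (not_le.2 hx.2), Complex.log_im,
      ← Complex.ofReal_inv, Complex.arg_real_mul _ (inv_pos.2 (sub_pos.2 hx.1))]
  rcases hθ.2.eq_or_lt with h' | h'
  · subst h'
    refine ContinuousWithinAt.mono ?_ Icc_subset_Iic_self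
    rw [← continuousWithinAt_Iio_iff_Iic]
    have hlim := ((Complex.continuousAt_arg (x := I) (by simp [Complex.mem_slitPlane_iff])).tendsto).comp
      (by
        have h0 := ((D.tendsto_arg (D.σ_periodic θ₀) (D.dσ_periodic θ₀)).mono_left
          (nhdsWithin_mono (θ₀ + 2 * π) (s := Iio (θ₀ + 2 * π)) fun x hx => ne_of_lt hx)).neg
        rw [neg_neg] at h0
        exact h0)
    rw [Complex.arg_I] at hlim
    show Tendsto (D.angleFn θ₀) (𝓝[<] (θ₀ + 2 * π)) (𝓝 (D.angleFn θ₀ (θ₀ + 2 * π)))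
    rw [show D.angleFn θ₀ (θ₀ + 2 * π) = π / 2 by simp [angleFn, not_le.2 h]]
    refine hlim.congr' ?_
    filter_upwards [Ioo_mem_nhdsLT hp] with x hx
    show (-((((x - (θ₀ + 2 * π) : ℝ) : ℂ))⁻¹ * D.turn θ₀ x)).arg = D.angleFn θ₀ x
    rw [angleFn, if_neg (not_le.2 hx.1), if_neg (not_le.2 hx.2), Complex.log_im, ← neg_mul,
      ← Complex.ofReal_inv, ← Complex.ofReal_neg, Complex.arg_real_mul]
    exact neg_pos.2 (inv_neg''.2 (sub_neg.2 hx.2))
  · refine ContinuousAt.continuousWithinAt ?_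
    have hc : ContinuousAt (fun x => (Complex.log (D.turn θ₀ x)).im) θ :=
      Complex.continuous_im.continuousAt.comp
        ((continuousAt_clog (D.turn_mem ⟨h, h'⟩)).comp (D.turn_hasDerivAt θ₀ θ).continuousAt)
    refine hc.congr ?_
    filter_upwards [Ioo_mem_nhds h h'] with x hx
    rw [angleFn, if_neg (not_le.2 hx.1), if_neg (not_le.2 hx.2)]

lemma hasDerivAt_angleFn {θ₀ θ : ℝ} (h : θ ∈ Ioo θ₀ (θ₀ + 2 * π)) :
    HasDerivAt (D.angleFn θ₀) (π * D.kernel θ₀ θ) θ := by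
  have h1 := ((D.turn_hasDerivAt θ₀ θ).clog_real (D.turn_mem h))
  have h2 := Complex.imCLM.hasFDerivAt.comp_hasDerivAt θ h1
  have h3 : Complex.imCLM (-I * (D.dσ θ / D.dσ θ₀) / D.turn θ₀ θ) = π * D.kernel θ₀ θ := by
    rw [kernel, ← mul_assoc, mul_inv_cancel₀ Real.pi_ne_zero, one_mul, turn]
    show (-I * (D.dσ θ / D.dσ θ₀) / (-I * ((D.σ θ - D.σ θ₀) / D.dσ θ₀))).im = _
    congr 1
    have hd := D.dσ_ne_zero θ₀
    rw [mul_div_mul_left _ _ (neg_ne_zero.2 I_ne_zero), div_div_div_cancel_right₀ hd]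
  rw [h3] at h2
  refine h2.congr_of_eventuallyEq ?_
  filter_upwards [Ioo_mem_nhds h.1 h.2] with x hx
  rw [angleFn, if_neg (not_le.2 hx.1), if_neg (not_le.2 hx.2)]
  rfl

lemma kernel_integrable_shift (θ₀ : ℝ) :
    IntervalIntegrable (D.kernel θ₀) volume θ₀ (θ₀ + 2 * π) := by
  have hp : θ₀ ≤ θ₀ + 2 * π := by linarith [Real.pi_pos]
  have h : IntervalIntegrable (fun θ => π * D.kernel θ₀ θ) volume θ₀ (θ₀ + 2 * π) := by
    refine intervalIntegral.intervalIntegrable_deriv_of_nonneg (g := D.angleFn θ₀) ?_ ?_ ?_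
    · rw [uIcc_of_le hp]; exact D.continuousOn_angleFn θ₀
    · rw [min_eq_left hp, max_eq_right hp]; exact fun x hx => D.hasDerivAt_angleFn hx
    · exact fun x _ => mul_nonneg Real.pi_pos.le (D.kernel_nonneg θ₀ x)
  simpa [← mul_assoc, inv_mul_cancel₀ Real.pi_ne_zero] using h.const_mul π⁻¹

theorem kernel_integrable (θ₀ : ℝ) :
    IntervalIntegrable (D.kernel θ₀) volume 0 (2 * π) :=
  (D.kernel_periodic θ₀).intervalIntegrable (by positivity) (D.kernel_integrable_shift θ₀) _ _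

theorem kernel_integral (θ₀ : ℝ) : ∫ θ in (0 : ℝ)..(2 * π), D.kernel θ₀ θ = 1 := by
  have hp : θ₀ ≤ θ₀ + 2 * π := by linarith [Real.pi_pos]
  have h1 : ∫ θ in (0 : ℝ)..(2 * π), D.kernel θ₀ θ = ∫ θ in θ₀..(θ₀ + 2 * π), D.kernel θ₀ θ := by
    have := (D.kernel_periodic θ₀).intervalIntegral_add_eq 0 θ₀
    rwa [zero_add] at this
  have h2 : ∫ θ in θ₀..(θ₀ + 2 * π), π * D.kernel θ₀ θ = π := by
    rw [intervalIntegral.integral_eq_sub_of_hasDerivAt_of_le hp (D.continuousOn_angleFn θ₀)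
      (fun x hx => D.hasDerivAt_angleFn hx) ((D.kernel_integrable_shift θ₀).const_mul π)]
    have : ¬ θ₀ + 2 * π ≤ θ₀ := by linarith [Real.pi_pos]
    simp [angleFn, this]
  rw [intervalIntegral.integral_const_mul] at h2
  rw [h1]
  exact mul_left_cancel₀ Real.pi_ne_zero (by rw [h2, mul_one])

end Dom

end Vale.Agent.P123
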