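import Vale.Agent.P123.CauchyFormula
import Vale.Agent.P123.Kernel

/-! B6: boundary values of the Cauchy transform of a real Lipschitz function. -/

noncomputable section

namespace Vale.Agent.P123

open Complex MeasureTheory Filter Set
open scoped ComplexConjugate Real Topology

namespace Dom

variable (D : Dom)

/-- Radial projection to the boundary. -/
def proj (z : ℂ) : ℂ := D.σ z.arg

lemma continuousAt_proj {z : ℂ} (hz : z ≠ 0) : ContinuousAt D.proj z := by
  have hl : Continuous (D.σ_periodic.lift : Real.Angle → ℂ) := by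
    apply (isQuotientMap_quotient_mk'.continuous_iff).2
    exact D.continuous_σ
  exact hl.continuousAt.comp (Complex.continuousAt_arg_coe_angle hz)

lemma proj_σ (θ : ℝ) : D.proj (D.σ θ) = D.σ θ := by
  have h := D.arg_smul_σ one_pos θ
  rw [Complex.ofReal_one, one_mul] at h
  rw [proj, ← Function.Periodic.lift_coe D.σ_periodic (D.σ θ).arg,
    ← Function.Periodic.lift_coe D.σ_periodic θ]
  exact congrArg D.σ_periodic.lift h

/-- The radial projection is not much farther than any boundary point. -/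
lemma exists_proj_bound : ∃ C : ℝ, 0 ≤ C ∧ ∀ z ∈ closure D.Ω, ∀ θ,
    ‖D.σ θ - D.proj z‖ ≤ C * ‖D.σ θ - z‖ := by
  obtain ⟨m, M, hm, hb⟩ := D.exists_radius_bounds
  have hM : 0 < M := hm.trans_le ((hb 0).1.trans (hb 0).2)
  refine ⟨1 + M / m, by positivity, fun z hz θ => ?_⟩
  rw [D.closure_Ω] at hz
  set l := ‖z‖ / D.rad z
  have hl0 : 0 ≤ l := div_nonneg (norm_nonneg _) (D.rad_pos z).le
  have hl1 : l ≤ 1 := (div_le_one (D.rad_pos z)).2 hz
  have hzp : z = (l : ℂ) * D.proj z := D.eq_smul_σ_arg z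
  have h1 : (1 - l) * m ≤ ‖D.σ θ - z‖ := by
    rcases hl1.eq_or_lt with h | h
    · rw [h, sub_self, zero_mul]; exact norm_nonneg _
    by_contra hlt
    push Not at hlt
    apply D.σ_notMem θ
    set w : ℂ := ((1 - l)⁻¹ : ℝ) • (D.σ θ - z)
    have hl : 0 < 1 - l := by linarith
    have hw : w ∈ interior D.Ω := by
      rw [D.isOpen_Ω.interior_eq]
      show ‖w‖ < D.radius w.arg
      refine lt_of_lt_of_le ?_ (hb _).1
      rw [norm_smul, Real.norm_of_nonneg (by positivity), ← div_eq_inv_mul, div_lt_iff₀ hl]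
      linarith
    have hmem := D.convex.combo_interior_closure_mem_interior hw (D.σ_mem_closure z.arg)
      hl hl0 (sub_add_cancel 1 l)
    replace hmem : _ ∈ D.Ω := interior_subset hmem
    have e : (1 - l) • w + l • D.σ z.arg = D.σ θ := by
      rw [smul_smul, mul_inv_cancel₀ hl.ne', one_smul, Complex.real_smul]
      show D.σ θ - z + (l : ℂ) * D.proj z = D.σ θ
      rw [← hzp, sub_add_cancel]
    rwa [e] at hmem
  have h2 : ‖z - D.proj z‖ ≤ M / m * ‖D.σ θ - z‖ := by
    have : z - D.proj z = ((l - 1 : ℝ) : ℂ) * D.proj z := by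
      conv_lhs => rw [hzp]
      push_cast
      rw [sub_mul, one_mul]
      congr 1
      rw [← hzp]
    rw [this, norm_mul, Complex.norm_real, Real.norm_eq_abs, abs_of_nonpos (by linarith),
      neg_sub, proj, D.norm_σ]
    calc (1 - l) * D.radius z.arg ≤ (1 - l) * M := mul_le_mul_of_nonneg_left (hb _).2 (by linarith)
      _ = M / m * ((1 - l) * m) := by field_simp
      _ ≤ _ := mul_le_mul_of_nonneg_left h1 (by positivity)
  calc ‖D.σ θ - D.proj z‖ ≤ ‖D.σ θ - z‖ + ‖z - D.proj z‖ :=
        norm_sub_le_norm_sub_add_norm_sub _ _ _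
    _ ≤ _ := by rw [add_mul, one_mul]; linarith

lemma differentiableOn_cauchy {v : ℝ → ℂ} (hv : Continuous v) :
    DifferentiableOn ℂ (fun z => ∫ θ in (0 : ℝ)..(2 * π), v θ * (D.dσ θ / (D.σ θ - z))) D.Ω := by
  intro z hz
  obtain ⟨r, hr, hrU⟩ := Metric.isOpen_iff.1 D.isOpen_Ω z hz
  have hsub : Metric.closedBall z (r / 2) ⊆ D.Ω :=
    (Metric.closedBall_subset_ball (half_lt_self hr)).trans hrU
  have hne : ∀ q ∈ Metric.closedBall z (r / 2), ∀ θ, D.σ θ - q ≠ 0 := fun q hq =>
    D.σ_sub_ne (hsub hq)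
  have hF' : ContinuousOn (fun q : ℂ × ℝ => v q.2 * D.dσ q.2 / (D.σ q.2 - q.1) ^ 2)
      (Metric.closedBall z (r / 2) ×ˢ univ) :=
    ((hv.comp continuous_snd).mul (D.continuous_dσ.comp continuous_snd)).continuousOn.div
      (((D.continuous_σ.comp continuous_snd).sub continuous_fst).pow 2).continuousOn
      fun q hq => pow_ne_zero 2 (hne _ hq.1 _)
  obtain ⟨B, hB⟩ := ((isCompact_closedBall z (r / 2)).prod
    (isCompact_uIcc (a := (0:ℝ)) (b := 2 * π))).exists_bound_of_continuousOn
      (hF'.mono (Set.prod_mono_right (subset_univ _)))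
  have hzm := Metric.mem_closedBall_self (x := z) (half_pos hr).le
  exact ((intervalIntegral.hasDerivAt_integral_of_dominated_loc_of_deriv_le (𝕜 := ℂ) (μ := volume)
    (a := (0:ℝ)) (b := 2 * π)
    (F := fun q θ => v θ * (D.dσ θ / (D.σ θ - q)))
    (F' := fun q θ => v θ * D.dσ θ / (D.σ θ - q) ^ 2) (bound := fun _ => B)
    (x₀ := z) (Metric.closedBall_mem_nhds z (half_pos hr))
    (by
      filter_upwards [Metric.closedBall_mem_nhds z (half_pos hr)] with q hq
      exact (hv.mul (D.continuous_dσ.div₀ (D.continuous_σ.sub continuous_const)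
        (hne q hq))).aestronglyMeasurable)
    ((hv.mul (D.continuous_dσ.div₀ (D.continuous_σ.sub continuous_const)
      (hne z hzm))).intervalIntegrable _ _)
    (((hv.mul D.continuous_dσ).div₀ ((D.continuous_σ.sub continuous_const).pow 2)
      fun θ => pow_ne_zero 2 (hne z hzm θ)).aestronglyMeasurable)
    (ae_of_all _ fun θ hθ q hq => hB (q, θ) ⟨hq, uIoc_subset_uIcc hθ⟩)
    (by simp)
    (ae_of_all _ fun θ _ q hq => by
      have hi : HasDerivAt (fun q : ℂ => D.σ θ - q) (-1) q := (hasDerivAt_id q).const_sub _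
      refine (((hi.fun_inv (hne q hq θ)).const_mul (D.dσ θ)).const_mul (v θ)).congr_deriv ?_
      ring)).2).differentiableAt.differentiableWithinAt

/-- B6. -/
theorem cauchy_boundary {u : ℂ → ℝ} {L : NNReal} (hu : LipschitzOnWith L u (Set.range D.σ)) :
    ∃ G : ℂ → ℂ, DiffContOnCl ℂ G D.Ω ∧ (∀ z ∈ D.Ω, G z = D.cauchy (fun w => u w) z) ∧
      ∀ θ, (G (D.σ θ)).re = (u (D.σ θ) + (D.K (fun w => u w) θ).re) / 2 := by
  obtain ⟨C, hC, hCb⟩ := D.exists_proj_bound
  set I' : ℂ → ℝ → ℂ := fun z θ =>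
    ((u (D.σ θ) - u (D.proj z) : ℝ) : ℂ) * (D.dσ θ / (D.σ θ - z))
  set G : ℂ → ℂ := fun z =>
    (u (D.proj z) : ℂ) + (2 * π * I)⁻¹ * ∫ θ in (0 : ℝ)..(2 * π), I' z θ
  have hus : Continuous fun θ => u (D.σ θ) :=
    hu.continuousOn.comp_continuous D.continuous_σ fun θ => mem_range_self θ
  have huc : Continuous fun θ => (u (D.σ θ) : ℂ) := Complex.continuous_ofReal.comp hus
  have heq : ∀ z ∈ D.Ω, G z = D.cauchy (fun w => u w) z := by
    intro z hz
    have hk : Continuous fun θ => D.dσ θ / (D.σ θ - z) :=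
      D.continuous_dσ.div₀ (D.continuous_σ.sub continuous_const) (D.σ_sub_ne hz)
    have i1 : IntervalIntegrable (fun θ => (u (D.σ θ) : ℂ) * (D.dσ θ / (D.σ θ - z))) volume 0
        (2 * π) := (huc.mul hk).intervalIntegrable _ _
    have i2 : IntervalIntegrable (fun θ => (u (D.proj z) : ℂ) * (D.dσ θ / (D.σ θ - z))) volume 0
        (2 * π) := (continuous_const.mul hk).intervalIntegrable _ _
    simp only [G, I', cauchy]
    rw [intervalIntegral.integral_congr (g := fun θ =>
        (u (D.σ θ) : ℂ) * (D.dσ θ / (D.σ θ - z)) - (u (D.proj z) : ℂ) * (D.dσ θ / (D.σ θ - z)))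
        fun θ _ => by push_cast; ring,
      intervalIntegral.integral_sub i1 i2,
      intervalIntegral.integral_const_mul, D.winding hz]
    have : (2 * π * I : ℂ) ≠ 0 := by simp [Real.pi_ne_zero, Complex.I_ne_zero]
    field_simp
    ring
  have hdiff : DifferentiableOn ℂ G D.Ω := by
    refine DifferentiableOn.congr ?_ heq
    exact ((D.differentiableOn_cauchy huc).const_mul _)
  have hbound : ∀ z ∈ closure D.Ω, ∀ θ, ‖I' z θ‖ ≤ L * C * ‖D.dσ θ‖ := by
    intro z hz θ
    simp only [I', norm_mul, norm_div, Complex.norm_real]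
    have h1 := hu.norm_sub_le (mem_range_self θ) (mem_range_self z.arg)
    have h2 := hCb z hz θ
    rcases eq_or_ne (D.σ θ - z) 0 with h0 | h0
    · rw [h0, norm_zero, div_zero, mul_zero]; positivity
    calc ‖u (D.σ θ) - u (D.proj z)‖ * (‖D.dσ θ‖ / ‖D.σ θ - z‖)
        ≤ (L * (C * ‖D.σ θ - z‖)) * (‖D.dσ θ‖ / ‖D.σ θ - z‖) :=
          mul_le_mul_of_nonneg_right (h1.trans (mul_le_mul_of_nonneg_left h2 L.2)) (by positivity)
      _ = _ := by field_simp
  have hmeas : ∀ z, AEStronglyMeasurable (I' z) (volume.restrict (uIoc 0 (2 * π))) := fun z =>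
    (((Complex.continuous_ofReal.comp (hus.sub continuous_const)).measurable).mul
      (D.continuous_dσ.measurable.div (D.continuous_σ.sub continuous_const).measurable)).aestronglyMeasurable
  have hcont : ContinuousOn G (closure D.Ω) := by
    intro z₀ hz₀
    by_cases hin : z₀ ∈ D.Ω
    · exact ((hdiff.differentiableAt (D.isOpen_Ω.mem_nhds hin)).continuousAt).continuousWithinAt
    have h0 : z₀ ≠ 0 := fun h => hin (h ▸ D.zero_mem_Ω)
    have hup : ContinuousWithinAt (fun z => u (D.proj z)) (closure D.Ω) z₀ :=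
      (hu.continuousOn (D.proj z₀) ⟨z₀.arg, rfl⟩).comp (D.continuousAt_proj h0).continuousWithinAt
        fun z _ => ⟨z.arg, rfl⟩
    refine (Complex.continuous_ofReal.continuousAt.comp_continuousWithinAt hup).add
      (continuousWithinAt_const.mul ?_)
    refine intervalIntegral.continuousWithinAt_of_dominated_interval
      (bound := fun θ => L * C * ‖D.dσ θ‖) (Eventually.of_forall hmeas) ?_
      ((continuous_const.mul D.continuous_dσ.norm).intervalIntegrable _ _) ?_
    · filter_upwards [self_mem_nhdsWithin] with z hz using ae_of_all _ fun θ _ => hbound z hz θ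
    · have hnull : volume {θ : ℝ | D.σ θ = z₀} = 0 := by
        refine Set.Countable.measure_zero ?_ _
        by_cases hex : ∃ a, D.σ a = z₀
        · obtain ⟨a, ha⟩ := hex
          refine (Set.countable_range fun n : ℤ => a + 2 * π * n).mono fun θ hθ => ?_
          obtain ⟨n, hn⟩ := D.σ_inj (hθ.trans ha.symm)
          exact ⟨n, by show a + 2 * π * n = θ; linarith⟩
        · exact (Set.countable_empty).mono fun θ hθ => hex ⟨θ, hθ⟩
      filter_upwards [compl_mem_ae_iff.2 hnull] with θ hθ _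
      have hne : D.σ θ - z₀ ≠ 0 := sub_ne_zero.2 hθ
      exact (Complex.continuous_ofReal.continuousAt.comp_continuousWithinAt
        (continuousWithinAt_const.sub hup)).mul
        (continuousWithinAt_const.div (continuousWithinAt_const.sub continuousWithinAt_id) hne)
  refine ⟨G, ⟨hdiff, hcont⟩, heq, fun θ₀ => ?_⟩
  have hz := D.σ_mem_closure θ₀
  have hI : IntervalIntegrable (I' (D.σ θ₀)) volume 0 (2 * π) := by
    refine ((continuous_const.mul D.continuous_dσ.norm).intervalIntegrable _ _).mono_fun'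
      (g := fun θ => L * C * ‖D.dσ θ‖) (hmeas _) ?_
    exact ae_of_all _ fun θ => hbound _ hz θ
  have hKi : IntervalIntegrable (fun θ => u (D.σ θ) * D.kernel θ₀ θ) volume 0 (2 * π) :=
    (D.kernel_integrable θ₀).continuousOn_mul hus.continuousOn
  have hK : (D.K (fun w => u w) θ₀).re = ∫ θ in (0 : ℝ)..(2 * π), u (D.σ θ) * D.kernel θ₀ θ := by
    simp only [K, ← Complex.ofReal_mul]
    rw [intervalIntegral.integral_ofReal, Complex.ofReal_re]
  have him : (∫ θ in (0 : ℝ)..(2 * π), I' (D.σ θ₀) θ).im =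
      π * ((∫ θ in (0 : ℝ)..(2 * π), u (D.σ θ) * D.kernel θ₀ θ) - u (D.σ θ₀)) := by
    rw [show (∫ θ in (0 : ℝ)..(2 * π), I' (D.σ θ₀) θ).im =
        Complex.imCLM (∫ θ in (0 : ℝ)..(2 * π), I' (D.σ θ₀) θ) from rfl,
      ← Complex.imCLM.intervalIntegral_comp_comm hI,
      intervalIntegral.integral_congr (g := fun θ =>
        π * (u (D.σ θ) * D.kernel θ₀ θ - u (D.σ θ₀) * D.kernel θ₀ θ)) fun θ _ => by
          simp only [I', Complex.imCLM_apply, Complex.mul_im, Complex.ofReal_re, Complex.ofReal_im,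
            zero_mul, add_zero, kernel, D.proj_σ]
          field_simp,
      intervalIntegral.integral_const_mul,
      intervalIntegral.integral_sub hKi ((D.kernel_integrable θ₀).const_mul _),
      intervalIntegral.integral_const_mul, D.kernel_integral, mul_one]
  simp only [G, D.proj_σ, Complex.add_re, Complex.ofReal_re, Complex.mul_re, hK]
  have h1 : ((2 * π * I : ℂ)⁻¹).re = 0 := by simp
  have h2 : ((2 * π * I : ℂ)⁻¹).im = -(1 / (2 * π)) := by
    simp [Complex.inv_im, Complex.normSq_apply]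
  rw [h1, h2, him, zero_mul]
  field_simp
  ring

end Dom

end Vale.Agent.P123
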