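import Vale.Agent.P123.Geometry

/-! B4: Cauchy's formula on the boundary curve. -/

noncomputable section

namespace Vale.Agent.P123

open Complex MeasureTheory Filter Set
open scoped ComplexConjugate Real Topology

namespace Dom

variable (D : Dom)

lemma σ_sub_ne {z : ℂ} (hz : z ∈ D.Ω) (θ : ℝ) : D.σ θ - z ≠ 0 := fun h =>
  D.σ_notMem θ (by rw [sub_eq_zero.1 h]; exact hz)

lemma segment_mem_closure {z : ℂ} (hz : z ∈ closure D.Ω) {t : ℝ} (ht : t ∈ Icc (0:ℝ) 1) (θ : ℝ) :
    z + (t : ℂ) * (D.σ θ - z) ∈ closure D.Ω := by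
  have h : z + t • (D.σ θ - z) ∈ closure D.Ω :=
    D.convex.closure.add_smul_sub_mem hz (D.σ_mem_closure θ) ht
  rwa [Complex.real_smul] at h

/-- An integral over the boundary of a derivative vanishes. -/
lemma integral_deriv_eq_zero {g g' : ℝ → ℂ} (hg : ∀ θ, HasDerivAt g (g' θ) θ) (hc : Continuous g')
    (hp : g (2 * π) = g 0) : ∫ θ in (0:ℝ)..(2 * π), g' θ = 0 := by
  rw [intervalIntegral.integral_eq_sub_of_hasDerivAt (fun θ _ => hg θ)
    (hc.intervalIntegrable _ _), hp, sub_self]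

lemma winding_zero : ∫ θ in (0:ℝ)..(2 * π), D.dσ θ / D.σ θ = 2 * π * I := by
  have hd : ∀ θ ∈ uIcc (0:ℝ) (2 * π), HasDerivAt
      (fun t => (Real.log (D.radius t) : ℂ) + (t : ℂ) * I) (D.dσ θ / D.σ θ) θ := by
    intro θ _
    have h1 := (((D.contDiff.differentiable one_ne_zero) θ).hasDerivAt.log (D.pos θ).ne').ofReal_comp
    have h2 : HasDerivAt (fun t : ℝ => (t : ℂ) * I) I θ := by
      simpa using ((hasDerivAt_id θ).ofReal_comp).mul_const I
    refine (h1.add h2).congr_deriv ?_
    rw [D.dσ_eq, σ, curveOf]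
    have : (D.radius θ : ℂ) ≠ 0 := Complex.ofReal_ne_zero.2 (D.pos θ).ne'
    push_cast
    field_simp
  rw [intervalIntegral.integral_eq_sub_of_hasDerivAt hd
    ((D.continuous_dσ.div₀ D.continuous_σ D.σ_ne_zero).intervalIntegrable _ _)]
  have := D.periodic 0
  rw [zero_add] at this
  simp [this]

lemma winding {z : ℂ} (hz : z ∈ D.Ω) :
    ∫ θ in (0:ℝ)..(2 * π), D.dσ θ / (D.σ θ - z) = 2 * π * I := by
  set W : ℝ → ℂ := fun s => ∫ θ in (0:ℝ)..(2 * π), D.dσ θ / (D.σ θ - (s:ℂ) * z)
  set U : Set ℝ := {s | (s:ℂ) * z ∈ D.Ω}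
  have hU : IsOpen U := D.isOpen_Ω.preimage (by fun_prop)
  have hconst : ∀ s ∈ U, HasDerivAt W 0 s := by
    intro s hs
    obtain ⟨r, hr, hrU⟩ := Metric.isOpen_iff.1 hU s hs
    have hsub : Metric.closedBall s (r / 2) ⊆ U :=
      (Metric.closedBall_subset_ball (half_lt_self hr)).trans hrU
    have hne : ∀ q ∈ Metric.closedBall s (r / 2), ∀ θ, D.σ θ - (q:ℂ) * z ≠ 0 := fun q hq =>
      D.σ_sub_ne (hsub hq)
    have hF' : ContinuousOn (fun q : ℝ × ℝ => D.dσ q.2 * z / (D.σ q.2 - (q.1:ℂ) * z) ^ 2)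
        (Metric.closedBall s (r / 2) ×ˢ univ) :=
      ((D.continuous_dσ.comp continuous_snd).mul continuous_const).continuousOn.div
        (((D.continuous_σ.comp continuous_snd).sub
          ((Complex.continuous_ofReal.comp continuous_fst).mul continuous_const)).pow 2).continuousOn
        fun q hq => pow_ne_zero 2 (hne _ hq.1 _)
    obtain ⟨B, hB⟩ := ((isCompact_closedBall s (r / 2)).prod
      (isCompact_uIcc (a := (0:ℝ)) (b := 2 * π))).exists_bound_of_continuousOn
        (hF'.mono (Set.prod_mono_right (subset_univ _)))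
    have key := (intervalIntegral.hasDerivAt_integral_of_dominated_loc_of_deriv_le (𝕜 := ℝ) (μ := volume)
      (a := (0:ℝ)) (b := 2 * π)
      (F := fun q θ => D.dσ θ / (D.σ θ - (q:ℂ) * z))
      (F' := fun q θ => D.dσ θ * z / (D.σ θ - (q:ℂ) * z) ^ 2) (bound := fun _ => B)
      (x₀ := s) (Metric.closedBall_mem_nhds s (half_pos hr))
      (by
        filter_upwards [Metric.closedBall_mem_nhds s (half_pos hr)] with q hq
        exact (D.continuous_dσ.div₀ (D.continuous_σ.sub continuous_const) (hne q hq)).aestronglyMeasurable)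
      ((D.continuous_dσ.div₀ (D.continuous_σ.sub continuous_const)
        (hne s (Metric.mem_closedBall_self (half_pos hr).le))).intervalIntegrable _ _)
      (((D.continuous_dσ.mul continuous_const).div₀ ((D.continuous_σ.sub continuous_const).pow 2)
        fun θ => pow_ne_zero 2 (hne s (Metric.mem_closedBall_self (half_pos hr).le) θ)).aestronglyMeasurable)
      (ae_of_all _ fun θ hθ q hq => hB (q, θ) ⟨hq, uIoc_subset_uIcc hθ⟩)
      (by simp)
      (ae_of_all _ fun θ _ q hq => by
        have hi : HasDerivAt (fun q : ℝ => D.σ θ - (q:ℂ) * z) (-z) q := by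
          simpa using (((hasDerivAt_id q).ofReal_comp).mul_const z).const_sub (D.σ θ)
        refine (((hi.fun_inv (hne q hq θ)).const_mul (D.dσ θ)).congr_deriv ?_)
        ring)).2
    refine key.congr_deriv ?_
    have hne' := hne s (Metric.mem_closedBall_self (half_pos hr).le)
    refine integral_deriv_eq_zero (g := fun θ => -(z / (D.σ θ - (s:ℂ) * z))) (fun θ => ?_)
      ((D.continuous_dσ.mul continuous_const).div₀ ((D.continuous_σ.sub continuous_const).pow 2)
        fun θ => pow_ne_zero 2 (hne' θ)) ?_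
    · refine ((((D.hasDerivAt_σ θ).sub_const _).fun_inv (hne' θ)).const_mul z).neg.congr_deriv ?_
      ring
    · have := D.σ_periodic 0
      rw [zero_add] at this
      simp [this]
  have hseg : Icc (0:ℝ) 1 ⊆ U := fun s hs => by
    rcases hs.2.eq_or_lt with h | h
    · simpa [U, h] using hz
    · exact D.smul_mem_Ω (subset_closure hz) hs.1 h
  have h01 := constant_of_has_deriv_right_zero (f := W) (a := 0) (b := 1)
    (fun s hs => (hconst s (hseg hs)).continuousAt.continuousWithinAt)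
    (fun s hs => (hconst s (hseg (Ico_subset_Icc_self hs))).hasDerivWithinAt) 1
    (right_mem_Icc.2 zero_le_one)
  simp only [W, Complex.ofReal_one, one_mul, Complex.ofReal_zero, zero_mul, sub_zero] at h01
  rw [h01, D.winding_zero]

/-- B4. -/
theorem cauchy_eq {f : ℂ → ℂ} (hf : D.HolNear f) {z : ℂ} (hz : z ∈ D.Ω) :
    D.cauchy f z = f z := by
  obtain ⟨V, hV, hVsub, hdf⟩ := hf
  have hf' : ContinuousOn (deriv f) V := (hdf.analyticOnNhd hV).deriv.continuousOn
  have hmem : ∀ (q : ℝ) θ, q ∈ Icc (0:ℝ) 1 → z + (q:ℂ) * (D.σ θ - z) ∈ V := fun q θ hq =>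
    hVsub (D.segment_mem_closure (subset_closure hz) hq θ)
  set P : ℝ → ℂ := fun q => ∫ θ in (0:ℝ)..(2 * π),
    f (z + (q:ℂ) * (D.σ θ - z)) * (D.dσ θ / (D.σ θ - z))
  have hk : Continuous fun θ => D.dσ θ / (D.σ θ - z) :=
    D.continuous_dσ.div₀ (D.continuous_σ.sub continuous_const) (D.σ_sub_ne hz)
  have hcf : ContinuousOn (fun q : ℝ × ℝ => f (z + (q.1:ℂ) * (D.σ q.2 - z)) * (D.dσ q.2 / (D.σ q.2 - z)))
      (Icc (0:ℝ) 1 ×ˢ univ) := by
    refine ContinuousOn.mul ?_ (hk.comp continuous_snd).continuousOn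
    refine hdf.continuousOn.comp ?_ fun q hq => hmem _ _ hq.1
    exact (continuous_const.add ((Complex.continuous_ofReal.comp continuous_fst).mul
      ((D.continuous_σ.comp continuous_snd).sub continuous_const))).continuousOn
  obtain ⟨B₀, hB₀⟩ := ((isCompact_Icc (a := (0:ℝ)) (b := 1)).prod
    (isCompact_uIcc (a := (0:ℝ)) (b := 2 * π))).exists_bound_of_continuousOn
      (hcf.mono (Set.prod_mono_right (subset_univ _)))
  have hP : ContinuousOn P (Icc 0 1) := by
    intro q hq
    refine intervalIntegral.continuousWithinAt_of_dominated_interval (bound := fun _ => B₀) ?_ ?_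
      (by simp) ?_
    · filter_upwards [self_mem_nhdsWithin] with p hp
      exact (hcf.comp_continuous (f := fun θ => (p, θ)) (by fun_prop)
        fun θ => ⟨hp, trivial⟩).aestronglyMeasurable
    · filter_upwards [self_mem_nhdsWithin] with p hp
      exact ae_of_all _ fun θ hθ => hB₀ (p, θ) ⟨hp, uIoc_subset_uIcc hθ⟩
    · exact ae_of_all _ fun θ _ =>
        (hcf.comp (f := fun p : ℝ => (p, θ)) (by fun_prop) fun p hp => ⟨hp, trivial⟩) q hq
  have hd : ∀ q ∈ Ioo (0:ℝ) 1, HasDerivAt P 0 q := by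
    intro q hq
    obtain ⟨r, hr, hrI⟩ := Metric.isOpen_iff.1 isOpen_Ioo q hq
    have hsub : Metric.closedBall q (r / 2) ⊆ Ioo 0 1 :=
      (Metric.closedBall_subset_ball (half_lt_self hr)).trans hrI
    have hF' : ContinuousOn (fun p : ℝ × ℝ => deriv f (z + (p.1:ℂ) * (D.σ p.2 - z)) * D.dσ p.2)
        (Icc (0:ℝ) 1 ×ˢ univ) :=
      (hf'.comp (continuous_const.add ((Complex.continuous_ofReal.comp continuous_fst).mul
        ((D.continuous_σ.comp continuous_snd).sub continuous_const))).continuousOn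
        fun p hp => hmem _ _ hp.1).mul (D.continuous_dσ.comp continuous_snd).continuousOn
    obtain ⟨B, hB⟩ := ((isCompact_Icc (a := (0:ℝ)) (b := 1)).prod
      (isCompact_uIcc (a := (0:ℝ)) (b := 2 * π))).exists_bound_of_continuousOn
        (hF'.mono (Set.prod_mono_right (subset_univ _)))
    have hm : ∀ p ∈ Metric.closedBall q (r / 2), p ∈ Icc (0:ℝ) 1 := fun p hp =>
      Ioo_subset_Icc_self (hsub hp)
    have key := (intervalIntegral.hasDerivAt_integral_of_dominated_loc_of_deriv_le (𝕜 := ℝ) (μ := volume)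
      (a := (0:ℝ)) (b := 2 * π)
      (F := fun p θ => f (z + (p:ℂ) * (D.σ θ - z)) * (D.dσ θ / (D.σ θ - z)))
      (F' := fun p θ => deriv f (z + (p:ℂ) * (D.σ θ - z)) * D.dσ θ) (bound := fun _ => B)
      (x₀ := q) (Metric.closedBall_mem_nhds q (half_pos hr))
      (by
        filter_upwards [Metric.closedBall_mem_nhds q (half_pos hr)] with p hp
        exact (hcf.comp_continuous (f := fun θ => (p, θ)) (by fun_prop)
          fun θ => ⟨hm p hp, trivial⟩).aestronglyMeasurable)
      ((hcf.comp_continuous (f := fun θ => (q, θ)) (by fun_prop)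
        fun θ => ⟨Ioo_subset_Icc_self hq, trivial⟩).intervalIntegrable _ _)
      ((hF'.comp_continuous (f := fun θ => (q, θ)) (by fun_prop)
        fun θ => ⟨Ioo_subset_Icc_self hq, trivial⟩).aestronglyMeasurable)
      (ae_of_all _ fun θ hθ p hp => hB (p, θ) ⟨hm p hp, uIoc_subset_uIcc hθ⟩)
      (by simp)
      (ae_of_all _ fun θ _ p hp => by
        have hi : HasDerivAt (fun p : ℝ => z + (p:ℂ) * (D.σ θ - z)) (D.σ θ - z) p := by
          simpa using (((hasDerivAt_id p).ofReal_comp).mul_const (D.σ θ - z)).const_add z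
        have hfd := ((hdf.differentiableAt (hV.mem_nhds (hmem p θ (hm p hp)))).hasDerivAt).comp p hi
        refine (hfd.mul_const _).congr_deriv ?_
        have := D.σ_sub_ne hz θ
        field_simp)).2
    refine key.congr_deriv ?_
    have hq0 : (q:ℂ) ≠ 0 := Complex.ofReal_ne_zero.2 hq.1.ne'
    refine integral_deriv_eq_zero (g := fun θ => f (z + (q:ℂ) * (D.σ θ - z)) / (q:ℂ)) (fun θ => ?_)
      (hF'.comp_continuous (f := fun θ => (q, θ)) (by fun_prop)
        fun θ => ⟨Ioo_subset_Icc_self hq, trivial⟩) ?_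
    · have hi : HasDerivAt (fun t => z + (q:ℂ) * (D.σ t - z)) ((q:ℂ) * D.dσ θ) θ :=
        (((D.hasDerivAt_σ θ).sub_const z).const_mul (q:ℂ)).const_add z
      have hfd := ((hdf.differentiableAt (hV.mem_nhds
        (hmem q θ (Ioo_subset_Icc_self hq)))).hasDerivAt).comp θ hi
      refine (hfd.div_const (q:ℂ)).congr_deriv ?_
      field_simp
    · have := D.σ_periodic 0
      rw [zero_add] at this
      simp [this]
  have h01 : P 1 = P 0 := by
    have heq : ∀ a ∈ Ioo (0:ℝ) 1, P a = P 1 := fun a ha =>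
      (constant_of_has_deriv_right_zero (hP.mono (Icc_subset_Icc ha.1.le le_rfl))
        (fun q hq => (hd q ⟨lt_of_lt_of_le ha.1 hq.1, hq.2⟩).hasDerivWithinAt) 1
        (right_mem_Icc.2 ha.2.le)).symm
    have ht : Tendsto P (𝓝[Ioo (0:ℝ) 1] 0) (𝓝 (P 0)) :=
      ((hP 0 (left_mem_Icc.2 zero_le_one)).mono Ioo_subset_Icc_self)
    have : NeBot (𝓝[Ioo (0:ℝ) 1] 0) := by
      rw [← mem_closure_iff_nhdsWithin_neBot, closure_Ioo zero_ne_one]
      exact left_mem_Icc.2 zero_le_one
    exact tendsto_nhds_unique_of_eventuallyEq tendsto_const_nhds ht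
      (by filter_upwards [self_mem_nhdsWithin] with a ha using (heq a ha).symm)
  rw [cauchy]
  have e1 : (∫ θ in (0:ℝ)..(2 * π), f (D.σ θ) * (D.dσ θ / (D.σ θ - z))) = P 1 := by simp [P]
  rw [e1, h01]
  simp only [P, Complex.ofReal_zero, zero_mul, add_zero]
  rw [intervalIntegral.integral_const_mul, D.winding hz]
  have : (2 * π * I : ℂ) ≠ 0 := by simp [Real.pi_ne_zero, Complex.I_ne_zero]
  field_simp

end Dom

end Vale.Agent.P123
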