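import Vale.Agent.P123.Jump

/-! C2–C4: contour integrals of exterior functions. -/

noncomputable section

namespace Vale.Agent.P123

open Complex MeasureTheory Filter Set
open scoped ComplexConjugate Real Topology

namespace Dom

variable (D : Dom)

/-- C2: the residue at infinity. -/
theorem ExtFun.contour {F : ℂ → ℂ} {c : ℂ} (hF : D.ExtFun F c) :
    ∫ t in (0 : ℝ)..(2 * π), D.dσ t * F (D.σ t) = 2 * π * I * c := by
  obtain ⟨hd, hc, hlim⟩ := hF
  set J : ℝ → ℂ := fun r => ∫ t in (0 : ℝ)..(2 * π),
    ((max r 1 : ℝ) : ℂ) * D.dσ t * F (((max r 1 : ℝ) : ℂ) * D.σ t) with hJdef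
  have hcont : Continuous fun q : ℝ × ℝ =>
      ((max q.1 1 : ℝ) : ℂ) * D.dσ q.2 * F (((max q.1 1 : ℝ) : ℂ) * D.σ q.2) :=
    ((Complex.continuous_ofReal.comp (continuous_fst.max continuous_const)).mul
      (D.continuous_dσ.comp continuous_snd)).mul
      (hc.comp_continuous ((Complex.continuous_ofReal.comp (continuous_fst.max continuous_const)).mul
        (D.continuous_σ.comp continuous_snd)) fun q => D.smul_σ_mem_compl (le_max_right _ _) q.2)
  have hJc : Continuous J :=
    intervalIntegral.continuous_parametric_intervalIntegral_of_continuous'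
      (f := fun (r : ℝ) (t : ℝ) =>
        ((max r 1 : ℝ) : ℂ) * D.dσ t * F (((max r 1 : ℝ) : ℂ) * D.σ t)) hcont 0 (2 * π)
  have hF' : ContinuousOn (deriv F) D.Ext :=
    (hd.analyticOnNhd D.isOpen_Ext).deriv.continuousOn
  have hJd : ∀ r, 1 < r → HasDerivAt J 0 r := by
    intro r hr
    set e := (r - 1) / 2 with he
    have he0 : 0 < e := by rw [he]; linarith
    have hball : ∀ q ∈ Metric.closedBall r e, 1 < q := fun q hq => by
      have := abs_le.1 (Real.dist_eq q r ▸ Metric.mem_closedBall.1 hq)
      rw [he] at this; linarith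
    have hmem : ∀ q ∈ Metric.closedBall r e, ∀ t, (q : ℂ) * D.σ t ∈ D.Ext := fun q hq t =>
      D.smul_σ_mem_Ext (hball q hq) t
    have hcF : ContinuousOn (fun q : ℝ × ℝ => D.dσ q.2 * F ((q.1 : ℂ) * D.σ q.2) +
        (q.1 : ℂ) * D.dσ q.2 * (deriv F ((q.1 : ℂ) * D.σ q.2) * D.σ q.2))
        (Metric.closedBall r e ×ˢ univ) := by
      have hm : ContinuousOn (fun q : ℝ × ℝ => (q.1 : ℂ) * D.σ q.2)
          (Metric.closedBall r e ×ˢ univ) :=
        ((Complex.continuous_ofReal.comp continuous_fst).mul
          (D.continuous_σ.comp continuous_snd)).continuousOn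
      have hto : MapsTo (fun q : ℝ × ℝ => (q.1 : ℂ) * D.σ q.2)
          (Metric.closedBall r e ×ˢ univ) D.Ext := fun q hq => hmem _ hq.1 _
      have hd' : ContinuousOn (fun q : ℝ × ℝ => D.dσ q.2) (Metric.closedBall r e ×ˢ univ) :=
        (D.continuous_dσ.comp continuous_snd).continuousOn
      exact (hd'.mul (hd.continuousOn.comp hm hto)).add
        (((Complex.continuous_ofReal.comp continuous_fst).continuousOn.mul hd').mul
          ((hF'.comp hm hto).mul (D.continuous_σ.comp continuous_snd).continuousOn))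
    obtain ⟨B, hB⟩ := ((isCompact_closedBall r e).prod
      (isCompact_uIcc (a := (0:ℝ)) (b := 2 * π))).exists_bound_of_continuousOn
        (hcF.mono (Set.prod_mono_right (subset_univ _)))
    have hG : ∀ q ∈ Metric.closedBall r e,
        Continuous fun t => (q : ℂ) * D.dσ t * F ((q : ℂ) * D.σ t) := fun q hq =>
      (continuous_const.mul D.continuous_dσ).mul (hd.continuousOn.comp_continuous
        (continuous_const.mul D.continuous_σ) (hmem q hq))
    have hr' := Metric.mem_closedBall_self (x := r) he0.le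
    have key := (intervalIntegral.hasDerivAt_integral_of_dominated_loc_of_deriv_le (𝕜 := ℝ) (μ := volume)
      (a := (0:ℝ)) (b := 2 * π)
      (F := fun q t => (q : ℂ) * D.dσ t * F ((q : ℂ) * D.σ t))
      (F' := fun q t => D.dσ t * F ((q : ℂ) * D.σ t) +
        (q : ℂ) * D.dσ t * (deriv F ((q : ℂ) * D.σ t) * D.σ t))
      (bound := fun _ => B) (x₀ := r) (Metric.closedBall_mem_nhds r he0)
      (by
        filter_upwards [Metric.closedBall_mem_nhds r he0] with q hq
        exact (hG q hq).aestronglyMeasurable)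
      ((hG r hr').intervalIntegrable _ _)
      ((hcF.comp_continuous (f := fun t => (r, t)) (by fun_prop)
        fun t => ⟨hr', trivial⟩).aestronglyMeasurable)
      (ae_of_all _ fun t ht q hq => hB (q, t) ⟨hq, uIoc_subset_uIcc ht⟩)
      (by simp)
      (ae_of_all _ fun t _ q hq => by
        have hi : HasDerivAt (fun q : ℝ => (q : ℂ) * D.σ t) (D.σ t) q := by
          simpa using ((hasDerivAt_id q).ofReal_comp).mul_const (D.σ t)
        have hq' : HasDerivAt (fun q : ℝ => (q : ℂ) * D.dσ t) (D.dσ t) q := by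
          simpa using ((hasDerivAt_id q).ofReal_comp).mul_const (D.dσ t)
        exact hq'.mul (((hd.differentiableAt (D.isOpen_Ext.mem_nhds (hmem q hq t))).hasDerivAt).comp
          q hi))).2
    have hzero : ∫ t in (0 : ℝ)..(2 * π), (D.dσ t * F ((r : ℂ) * D.σ t) +
        (r : ℂ) * D.dσ t * (deriv F ((r : ℂ) * D.σ t) * D.σ t)) = 0 := by
      refine integral_deriv_eq_zero (g := fun t => D.σ t * F ((r : ℂ) * D.σ t)) (fun t => ?_)
        (hcF.comp_continuous (f := fun t => (r, t)) (by fun_prop) fun t => ⟨hr', trivial⟩) ?_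
      · refine ((D.hasDerivAt_σ t).mul
          (((hd.differentiableAt (D.isOpen_Ext.mem_nhds (hmem r hr' t))).hasDerivAt).comp t
            ((D.hasDerivAt_σ t).const_mul (r : ℂ)))).congr_deriv ?_
        simp only [Function.comp_apply]
        ring
      · have := D.σ_periodic 0
        rw [zero_add] at this
        simp [this]
    rw [hzero] at key
    refine key.congr_of_eventuallyEq ?_
    filter_upwards [lt_mem_nhds hr] with q hq
    simp only [hJdef, max_eq_left hq.le]
  have hconst : ∀ r, 1 ≤ r → J r = J 1 := fun r hr =>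
    constant_of_has_deriv_right_zero (f := J) (a := 1) (b := r) hJc.continuousOn
      (fun q hq => by
        rcases hq.1.eq_or_lt with h | h
        · subst h
          -- the derivative from the right at `1`
          have hev : ∀ x ∈ Ioo (1:ℝ) r, J x = J 1 := fun x hx => by
            have h1 : ∀ a ∈ Ioc (1:ℝ) x, J x = J a := fun a ha =>
              constant_of_has_deriv_right_zero hJc.continuousOn
                (fun y hy => (hJd y (lt_of_lt_of_le ha.1 hy.1)).hasDerivWithinAt) x
                (right_mem_Icc.2 ha.2)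
            have ht : Tendsto J (𝓝[>] 1) (𝓝 (J 1)) :=
              hJc.continuousAt.tendsto.mono_left nhdsWithin_le_nhds
            refine tendsto_nhds_unique ((tendsto_const_nhds (x := J x)).congr' ?_) ht
            filter_upwards [Ioc_mem_nhdsGT hx.1] with a ha using h1 a ha
          refine (hasDerivWithinAt_const (1:ℝ) (Ici (1:ℝ)) (J 1)).congr_of_eventuallyEq ?_ rfl
          filter_upwards [Ico_mem_nhdsGE hq.2] with x hx
          rcases hx.1.eq_or_lt with h | h
          · rw [← h]
          · exact hev x ⟨h, hx.2⟩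
        · exact (hJd q h).hasDerivWithinAt) r (right_mem_Icc.2 hr)
  -- the limit at infinity
  obtain ⟨B, hB⟩ := (isCompact_uIcc (a := (0:ℝ)) (b := 2 * π)).exists_bound_of_continuousOn
    (D.continuous_dσ.div₀ D.continuous_σ D.σ_ne_zero).continuousOn
  obtain ⟨m, M, hm, hb⟩ := D.exists_radius_bounds
  have hlimJ : Tendsto J atTop (𝓝 (2 * π * I * c)) := by
    rw [Metric.tendsto_atTop]
    intro ε hε
    have hpos : (0:ℝ) < |2 * π - 0| * (|B| + 1) := by
      have : 0 < |2 * π - (0:ℝ)| := by rw [sub_zero, abs_of_pos Real.two_pi_pos]; exact Real.two_pi_pos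
      positivity
    obtain ⟨R, hR⟩ := (hasBasis_cobounded_norm (E := ℂ)).mem_iff.1
      (hlim.eventually (Metric.ball_mem_nhds c (div_pos hε hpos)))
    refine ⟨max 1 (R / m), fun r hr => ?_⟩
    have hr1 : 1 ≤ r := (le_max_left _ _).trans hr
    have hr0 : 0 < r := zero_lt_one.trans_le hr1
    have e : J r - 2 * π * I * c = ∫ t in (0 : ℝ)..(2 * π),
        D.dσ t / D.σ t * ((r : ℂ) * D.σ t * F ((r : ℂ) * D.σ t) - c) := by
      have i1 : IntervalIntegrable (fun t => D.dσ t / D.σ t * c) volume 0 (2 * π) :=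
        ((D.continuous_dσ.div₀ D.continuous_σ D.σ_ne_zero).mul continuous_const).intervalIntegrable _ _
      have i2 : IntervalIntegrable (fun t => (r : ℂ) * D.dσ t * F ((r : ℂ) * D.σ t)) volume 0
          (2 * π) := by
        have := hcont.comp (continuous_const.prodMk continuous_id (f := fun _ : ℝ => r))
        simp only [Function.comp_def, max_eq_left hr1, id] at this
        exact this.intervalIntegrable _ _
      rw [show 2 * π * I * c = ∫ t in (0 : ℝ)..(2 * π), D.dσ t / D.σ t * c by
        rw [intervalIntegral.integral_mul_const, D.winding_zero]]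
      simp only [hJdef, max_eq_left hr1]
      rw [← intervalIntegral.integral_sub i2 i1]
      refine intervalIntegral.integral_congr fun t _ => ?_
      have := D.σ_ne_zero t
      field_simp
    rw [dist_eq_norm, e]
    refine lt_of_le_of_lt (intervalIntegral.norm_integral_le_of_norm_le_const
      (C := |B| * (ε / (|2 * π - 0| * (|B| + 1)))) fun t ht => ?_) ?_
    · rw [norm_mul]
      refine mul_le_mul ((hB t (uIoc_subset_uIcc ht)).trans (le_abs_self _)) ?_ (norm_nonneg _)
        (abs_nonneg _)
      have : (r : ℂ) * D.σ t ∈ {x : ℂ | R ≤ ‖x‖} := by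
        show R ≤ ‖(r : ℂ) * D.σ t‖
        rw [norm_mul, D.norm_σ, Complex.norm_real, Real.norm_of_nonneg hr0.le]
        calc R = R / m * m := by field_simp
          _ ≤ r * m := mul_le_mul_of_nonneg_right ((le_max_right _ _).trans hr) hm.le
          _ ≤ r * D.radius t := mul_le_mul_of_nonneg_left (hb t).1 hr0.le
      have := hR.2 this
      simp only [dist_eq_norm] at this
      exact this.le
    · calc |B| * (ε / (|2 * π - 0| * (|B| + 1))) * |2 * π - 0|
          < (|B| + 1) * (ε / (|2 * π - 0| * (|B| + 1))) * |2 * π - 0| := by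
            have h2 : 0 < |2 * π - (0:ℝ)| := by rw [sub_zero, abs_of_pos Real.two_pi_pos]; exact Real.two_pi_pos
            gcongr
            linarith
        _ = ε := by field_simp
  have hfin : J 1 = 2 * π * I * c :=
    tendsto_nhds_unique (tendsto_const_nhds.congr'
      (by filter_upwards [eventually_ge_atTop (1:ℝ)] with r hr using (hconst r hr).symm)) hlimJ
  simpa [hJdef] using hfin

lemma tendsto_div_sub (z : ℂ) :
    Tendsto (fun w : ℂ => w / (w - z)) (Bornology.cobounded ℂ) (𝓝 1) := by
  have h0 : Tendsto (fun w : ℂ => w⁻¹) (Bornology.cobounded ℂ) (𝓝 0) := tendsto_inv₀_cobounded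
  have h1 : Tendsto (fun w : ℂ => (1 - z * w⁻¹)⁻¹) (Bornology.cobounded ℂ) (𝓝 1) := by
    have := ((h0.const_mul z).const_sub (1:ℂ)).inv₀ (by simp)
    simpa using this
  refine h1.congr' ?_
  filter_upwards [Bornology.eventually_ne_cobounded (0:ℂ)] with w hw
  field_simp

/-- C3. -/
theorem ExtFun.cauchy_inside {F : ℂ → ℂ} {c : ℂ} (hF : D.ExtFun F c) {z : ℂ} (hz : z ∈ D.Ω) :
    D.cauchyP (fun t => F (D.σ t)) z = 0 := by
  obtain ⟨hd, hc, hlim⟩ := hF
  have hne : ∀ w ∈ D.Ωᶜ, w - z ≠ 0 := fun w hw h => hw (by rw [sub_eq_zero.1 h]; exact hz)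
  have hG : D.ExtFun (fun w => F w / (w - z)) 0 := by
    refine ⟨hd.div (differentiableOn_id.sub (differentiableOn_const _))
      fun w hw => hne w (D.Ext_subset hw), hc.div (continuousOn_id.sub continuousOn_const) hne, ?_⟩
    have h2 : Tendsto (fun w : ℂ => (w * F w) * (w - z)⁻¹) (Bornology.cobounded ℂ) (𝓝 (c * 0)) :=
      hlim.mul (tendsto_inv₀_cobounded.comp (tendsto_sub_const_cobounded z))
    rw [mul_zero] at h2
    exact h2.congr fun w => by ring
  have := hG.contour D
  rw [cauchyP]
  rw [mul_zero] at this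
  rw [show (fun t => F (D.σ t) * (D.dσ t / (D.σ t - z))) = fun t => D.dσ t * (F (D.σ t) / (D.σ t - z))
    from funext fun t => by ring, this, mul_zero]

/-- C4. -/
theorem ExtFun.cauchy_outside {F : ℂ → ℂ} {c : ℂ} (hF : D.ExtFun F c) {z : ℂ} (hz : z ∈ D.Ext) :
    D.cauchyP (fun t => F (D.σ t)) z = -F z := by
  obtain ⟨hd, hc, hlim⟩ := hF
  have hnz : D.Ext ∈ 𝓝 z := D.isOpen_Ext.mem_nhds hz
  have hG : D.ExtFun (dslope F z) (-F z) := by
    refine ⟨(Complex.differentiableOn_dslope hnz).2 hd, (continuousOn_dslope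
      (mem_of_superset hnz D.Ext_subset)).2 ⟨hc, hd.differentiableAt hnz⟩, ?_⟩
    have hF0 : Tendsto F (Bornology.cobounded ℂ) (𝓝 0) := by
      have := hlim.mul (tendsto_inv₀_cobounded (α := ℂ))
      rw [mul_zero] at this
      refine this.congr' ?_
      filter_upwards [Bornology.eventually_ne_cobounded (0:ℂ)] with w hw
      field_simp
    have := (tendsto_div_sub z).mul (hF0.sub_const (F z))
    rw [one_mul, zero_sub] at this
    refine this.congr' ?_
    filter_upwards [Bornology.eventually_ne_cobounded z] with w hw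
    rw [dslope_of_ne _ hw, slope_def_field]
    ring
  have hcv : Continuous fun t => F (D.σ t) :=
    hc.comp_continuous D.continuous_σ D.σ_notMem
  have hk : Continuous fun t => D.dσ t / (D.σ t - z) :=
    D.continuous_dσ.div₀ (D.continuous_σ.sub continuous_const) (D.σ_sub_ne_of_mem_Ext hz)
  have hint := hG.contour D
  have e : ∀ t, D.dσ t * dslope F z (D.σ t) =
      F (D.σ t) * (D.dσ t / (D.σ t - z)) - F z * (D.dσ t / (D.σ t - z)) := fun t => by
    rw [dslope_of_ne _ (sub_ne_zero.1 (D.σ_sub_ne_of_mem_Ext hz t)), slope_def_field]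
    ring
  have i1 : IntervalIntegrable (fun t => F (D.σ t) * (D.dσ t / (D.σ t - z))) volume 0 (2 * π) :=
    (hcv.mul hk).intervalIntegrable _ _
  have i2 : IntervalIntegrable (fun t => F z * (D.dσ t / (D.σ t - z))) volume 0 (2 * π) :=
    (continuous_const.mul hk).intervalIntegrable _ _
  simp only [e] at hint
  rw [intervalIntegral.integral_sub i1 i2, intervalIntegral.integral_const_mul,
    D.winding_outside hz, mul_zero, sub_zero] at hint
  rw [cauchyP, hint]
  have : (2 * π * I : ℂ) ≠ 0 := by simp [Real.pi_ne_zero, Complex.I_ne_zero]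
  field_simp

end Dom

end Vale.Agent.P123
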