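import Mathlib.Analysis.Calculus.ContDiff.Defs
import Mathlib.Analysis.Complex.AbsMax
import Mathlib.Analysis.SpecialFunctions.Complex.Arg
import Mathlib.MeasureTheory.Integral.IntervalIntegral.Basic

/-! Convex domains with a radially parametrised boundary, Cauchy transform, double-layer kernel. -/

noncomputable section

namespace Vale.Agent.P123

open Complex MeasureTheory
open scoped ComplexConjugate Real

/-- Boundary curve `θ ↦ radius θ • exp (θ i)`. -/
def curveOf (radius : ℝ → ℝ) (θ : ℝ) : ℂ := (radius θ : ℂ) * exp (θ * I)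

/-- A bounded convex open set containing `0`, with `C¹` radially parametrised boundary. -/
structure Dom where
  radius : ℝ → ℝ
  pos : ∀ θ, 0 < radius θ
  periodic : Function.Periodic radius (2 * π)
  contDiff : ContDiff ℝ 1 radius
  convex : Convex ℝ {z : ℂ | ‖z‖ < radius z.arg}

namespace Dom

variable (D : Dom)

/-- The open region. -/
def Ω : Set ℂ := {z : ℂ | ‖z‖ < D.radius z.arg}

/-- The boundary curve. -/
def σ (θ : ℝ) : ℂ := curveOf D.radius θ

/-- Its velocity. -/
def dσ (θ : ℝ) : ℂ := deriv D.σ θ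

/-- Cauchy transform of a function given on the boundary. -/
def cauchy (u : ℂ → ℂ) (z : ℂ) : ℂ :=
  (2 * π * I)⁻¹ * ∫ θ in (0 : ℝ)..(2 * π), u (D.σ θ) * (D.dσ θ / (D.σ θ - z))

/-- The double-layer kernel seen from the boundary point with parameter `θ₀`. -/
def kernel (θ₀ θ : ℝ) : ℝ := π⁻¹ * (D.dσ θ / (D.σ θ - D.σ θ₀)).im

/-- The Neumann–Poincaré operator. -/
def K (u : ℂ → ℂ) (θ₀ : ℝ) : ℂ := ∫ θ in (0 : ℝ)..(2 * π), u (D.σ θ) * (D.kernel θ₀ θ : ℂ)

/-- Holomorphic on a neighbourhood of the closed region. -/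
def HolNear (f : ℂ → ℂ) : Prop :=
  ∃ U : Set ℂ, IsOpen U ∧ closure D.Ω ⊆ U ∧ DifferentiableOn ℂ f U

end Dom

/-- A `Dom` with `C³` boundary, strictly positive curvature and no boundary segment. -/
structure SDom extends Dom where
  smooth : ContDiff ℝ 3 radius
  curv : ∀ θ, 0 < (conj (deriv (curveOf radius) θ) * deriv (deriv (curveOf radius)) θ).im
  strict : ∀ θ θ', curveOf radius θ' ≠ curveOf radius θ →
    0 < (conj (deriv (curveOf radius) θ) * (curveOf radius θ' - curveOf radius θ)).im

namespace Dom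

variable (D : Dom)

/-- Interior Cauchy transform of a function of the boundary parameter. -/
def cauchyP (v : ℝ → ℂ) (z : ℂ) : ℂ :=
  (2 * π * I)⁻¹ * ∫ t in (0 : ℝ)..(2 * π), v t * (D.dσ t / (D.σ t - z))

/-- The regularised singular part of the Cauchy transform near `r • σ s`. -/
def jump (v : ℝ → ℂ) (r s : ℝ) : ℂ :=
  (2 * π * I)⁻¹ * ∫ t in (0 : ℝ)..(2 * π), (v t - v s) * (D.dσ t / (D.σ t - (r : ℂ) * D.σ s))

/-- The exterior of the region, without its boundary. -/
def Ext : Set ℂ := (closure D.Ω)ᶜ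

/-- `F` is analytic outside, continuous up to the boundary, and `z * F z → c` at infinity. -/
def ExtFun (F : ℂ → ℂ) (c : ℂ) : Prop :=
  DifferentiableOn ℂ F D.Ext ∧ ContinuousOn F D.Ωᶜ ∧
    Filter.Tendsto (fun z => z * F z) (Bornology.cobounded ℂ) (nhds c)

end Dom

end Vale.Agent.P123
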