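import Vale.Agent.P123.Kernel

/-! S2, S3: the double-layer kernel of a smooth domain is bounded, and it has a positive Lipschitz
invariant density. -/

noncomputable section

namespace Vale.Agent.P123

open Complex MeasureTheory Filter Set
open scoped ComplexConjugate Real Topology

namespace SDom

variable (D : SDom)

/-- The second derivative of the boundary curve. -/
def ddσ (θ : ℝ) : ℂ := deriv D.dσ θ

lemma contDiff_three_σ : ContDiff ℝ 3 D.σ := by
  show ContDiff ℝ 3 (fun θ : ℝ => (D.radius θ : ℂ) * exp ((θ : ℂ) * I))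
  exact (Complex.ofRealCLM.contDiff.comp D.smooth).mul
    ((Complex.ofRealCLM.contDiff.mul contDiff_const).cexp)

lemma contDiff_two_dσ : ContDiff ℝ 2 D.dσ :=
  (contDiff_succ_iff_deriv.1 (show ContDiff ℝ (2 + 1) D.σ from D.contDiff_three_σ)).2.2

lemma contDiff_one_ddσ : ContDiff ℝ 1 D.ddσ :=
  (contDiff_succ_iff_deriv.1 (show ContDiff ℝ (1 + 1) D.dσ from D.contDiff_two_dσ)).2.2

lemma hasDerivAt_dσ (θ : ℝ) : HasDerivAt D.dσ (D.ddσ θ) θ :=
  ((D.contDiff_two_dσ.differentiable two_ne_zero) θ).hasDerivAt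

lemma continuous_ddσ : Continuous D.ddσ := D.contDiff_one_ddσ.continuous

lemma ddσ_periodic : Function.Periodic D.ddσ (2 * π) := fun θ => by
  show deriv D.dσ (θ + 2 * π) = deriv D.dσ θ
  rw [← deriv_comp_add_const, funext D.dσ_periodic]

lemma exists_ddσ_bound : ∃ M : ℝ, 0 ≤ M ∧ (∀ θ, ‖D.ddσ θ‖ ≤ M) ∧
    (∀ x y, ‖D.ddσ x - D.ddσ y‖ ≤ M * |x - y|) ∧ ∀ x y, ‖D.dσ x - D.dσ y‖ ≤ M * |x - y| := by
  have hd : Continuous (deriv D.ddσ) := D.contDiff_one_ddσ.continuous_deriv le_rfl
  have hper : Function.Periodic (deriv D.ddσ) (2 * π) := fun θ => by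
    rw [← deriv_comp_add_const, funext D.ddσ_periodic]
  obtain ⟨M1, hM1⟩ := (D.ddσ_periodic.compact_of_continuous (by positivity)
    D.continuous_ddσ).isBounded.exists_norm_le
  obtain ⟨M2, hM2⟩ := (hper.compact_of_continuous (by positivity) hd).isBounded.exists_norm_le
  refine ⟨max (max M1 M2) 0, le_max_right _ _,
    fun θ => (hM1 _ ⟨θ, rfl⟩).trans ((le_max_left _ _).trans (le_max_left _ _)),
    fun x y => ?_, fun x y => ?_⟩
  · have := convex_univ.norm_image_sub_le_of_norm_deriv_le (𝕜 := ℝ) (f := D.ddσ) (x := y) (y := x)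
      (C := max (max M1 M2) 0)
      (fun z _ => (D.contDiff_one_ddσ.differentiable one_ne_zero) z)
      (fun z _ => ((hM2 _ ⟨z, rfl⟩).trans ((le_max_right _ _).trans (le_max_left _ _))))
      trivial trivial
    rwa [Real.norm_eq_abs] at this
  · have := convex_univ.norm_image_sub_le_of_norm_deriv_le (𝕜 := ℝ) (f := D.dσ) (x := y) (y := x)
      (C := max (max M1 M2) 0)
      (fun z _ => (D.hasDerivAt_dσ z).differentiableAt)
      (fun z _ => by
        rw [(D.hasDerivAt_dσ z).deriv]
        exact (hM1 _ ⟨z, rfl⟩).trans ((le_max_left _ _).trans (le_max_left _ _)))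
      trivial trivial
    rwa [Real.norm_eq_abs] at this

/-- The difference quotient `(σ (a + h) - σ a) / h`, continued to `h = 0`. -/
def quo (a h : ℝ) : ℂ := ∫ τ in (0 : ℝ)..1, D.dσ (a + τ * h)

/-- The second-order part `(σ' (a + h) - quo a h) / h`, continued to `h = 0`. -/
def rem (a h : ℝ) : ℂ := ∫ τ in (0 : ℝ)..1, (τ : ℂ) * D.ddσ (a + τ * h)

lemma smul_quo (a h : ℝ) : (h : ℂ) * D.quo a h = D.σ (a + h) - D.σ a := by
  have hd : ∀ τ ∈ uIcc (0 : ℝ) 1,
      HasDerivAt (fun τ => D.σ (a + τ * h)) ((h : ℂ) * D.dσ (a + τ * h)) τ := fun τ _ => by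
    have := (D.hasDerivAt_σ (a + τ * h)).scomp τ (((hasDerivAt_id τ).mul_const h).const_add a)
    simpa [Complex.real_smul, Function.comp_def] using this
  have hi : IntervalIntegrable (fun τ => (h : ℂ) * D.dσ (a + τ * h)) volume 0 1 :=
    (continuous_const.mul (D.continuous_dσ.comp (by fun_prop))).intervalIntegrable _ _
  rw [quo, ← intervalIntegral.integral_const_mul,
    intervalIntegral.integral_eq_sub_of_hasDerivAt hd hi]
  simp

lemma smul_rem (a h : ℝ) : (h : ℂ) * D.rem a h = D.dσ (a + h) - D.quo a h := by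
  have hd : ∀ τ ∈ uIcc (0 : ℝ) 1, HasDerivAt (fun τ : ℝ => (τ : ℂ) * D.dσ (a + τ * h))
      (D.dσ (a + τ * h) + (h : ℂ) * ((τ : ℂ) * D.ddσ (a + τ * h))) τ := fun τ _ => by
    have h1 := (D.hasDerivAt_dσ (a + τ * h)).scomp τ (((hasDerivAt_id τ).mul_const h).const_add a)
    refine ((hasDerivAt_id τ).ofReal_comp.mul h1).congr_deriv ?_
    simp [Complex.real_smul]
    ring
  have c1 : Continuous fun τ : ℝ => D.dσ (a + τ * h) := D.continuous_dσ.comp (by fun_prop)
  have c2 : Continuous fun τ : ℝ => (τ : ℂ) * D.ddσ (a + τ * h) :=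
    Complex.continuous_ofReal.mul (D.continuous_ddσ.comp (by fun_prop))
  have hi : IntervalIntegrable
      (fun τ => D.dσ (a + τ * h) + (h : ℂ) * ((τ : ℂ) * D.ddσ (a + τ * h))) volume 0 1 :=
    (c1.add (continuous_const.mul c2)).intervalIntegrable _ _
  have hint := intervalIntegral.integral_eq_sub_of_hasDerivAt hd hi
  rw [intervalIntegral.integral_add (c1.intervalIntegrable _ _)
    ((continuous_const.fun_mul c2).intervalIntegrable _ _),
    intervalIntegral.integral_const_mul] at hint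
  simp only [Complex.ofReal_one, one_mul, Complex.ofReal_zero, zero_mul, sub_zero] at hint
  rw [rem, quo, eq_sub_iff_add_eq', hint]

lemma continuous_quo : Continuous fun q : ℝ × ℝ => D.quo q.1 q.2 :=
  intervalIntegral.continuous_parametric_intervalIntegral_of_continuous'
    (f := fun (q : ℝ × ℝ) (τ : ℝ) => D.dσ (q.1 + τ * q.2))
    (D.continuous_dσ.comp (by fun_prop)) 0 1

lemma continuous_rem : Continuous fun q : ℝ × ℝ => D.rem q.1 q.2 :=
  intervalIntegral.continuous_parametric_intervalIntegral_of_continuous'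
    (f := fun (q : ℝ × ℝ) (τ : ℝ) => (τ : ℂ) * D.ddσ (q.1 + τ * q.2))
    ((Complex.continuous_ofReal.comp continuous_snd).mul (D.continuous_ddσ.comp (by fun_prop))) 0 1

lemma σ_ne_of_abs_lt {a h : ℝ} (h0 : h ≠ 0) (hh : |h| < 2 * π) : D.σ (a + h) ≠ D.σ a := by
  intro he
  rcases lt_or_gt_of_ne h0 with hneg | hpos
  · exact D.σ_ne_of_mem_Ioo (θ₀ := a + h) (θ := a)
      ⟨by linarith, by linarith [(abs_lt.1 hh).1]⟩ (sub_eq_zero.2 he.symm)
  · exact D.σ_ne_of_mem_Ioo (θ₀ := a) (θ := a + h)
      ⟨by linarith, by linarith [(abs_lt.1 hh).2]⟩ (sub_eq_zero.2 he)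

lemma quo_ne_zero {a h : ℝ} (hh : |h| < 2 * π) : D.quo a h ≠ 0 := by
  rcases eq_or_ne h 0 with rfl | h0
  · simpa [quo] using D.dσ_ne_zero a
  intro hq
  have := D.smul_quo a h
  rw [hq, mul_zero] at this
  exact D.σ_ne_of_abs_lt h0 hh (sub_eq_zero.1 this.symm)

/-- The kernel near the diagonal. -/
def core (a h : ℝ) : ℝ := π⁻¹ * (D.rem a h / D.quo a h).im

open scoped Classical in
/-- The continuous extension of the kernel. -/
def kk (a b : ℝ) : ℝ :=
  if D.σ b = D.σ a then (2 * π)⁻¹ * (D.ddσ a / D.dσ a).im else D.kernel a b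

lemma kk_periodic_int (a b : ℝ) (n : ℤ) : D.kk a (b + n * (2 * π)) = D.kk a b := by
  simp only [kk, Dom.kernel, (D.σ_periodic.int_mul n) b, (D.dσ_periodic.int_mul n) b]

lemma kk_periodic_fst (a b : ℝ) (n : ℤ) : D.kk (a + n * (2 * π)) b = D.kk a b := by
  simp only [kk, Dom.kernel, (D.σ_periodic.int_mul n) a, (D.dσ_periodic.int_mul n) a,
    (D.ddσ_periodic.int_mul n) a]

lemma kk_eq_core {a h : ℝ} (hh : |h| < 2 * π) : D.kk a (a + h) = D.core a h := by
  rcases eq_or_ne h 0 with rfl | h0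
  · have e : D.rem a 0 = (1 / 2 : ℂ) * D.ddσ a := by
      simp only [rem, mul_zero, add_zero]
      rw [intervalIntegral.integral_mul_const, intervalIntegral.integral_ofReal, integral_id]
      norm_num
    rw [kk, if_pos (by rw [add_zero]), core, e, show D.quo a 0 = D.dσ a by simp [quo],
      mul_div_assoc]
    simp [Complex.mul_im]
    ring
  · have hne := D.σ_ne_of_abs_lt h0 hh (a := a)
    have hq := D.quo_ne_zero hh (a := a)
    have hc : (h : ℂ) ≠ 0 := Complex.ofReal_ne_zero.2 h0
    have e : D.dσ (a + h) = (h : ℂ) * D.rem a h + D.quo a h := by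
      rw [D.smul_rem]; ring
    rw [kk, if_neg hne, Dom.kernel, core, ← D.smul_quo a h, e, add_div,
      mul_div_mul_left _ _ hc, Complex.add_im]
    have : (D.quo a h / ((h : ℂ) * D.quo a h)).im = 0 := by
      rw [show D.quo a h / ((h : ℂ) * D.quo a h) = ((h⁻¹ : ℝ) : ℂ) by push_cast; field_simp]
      simp
    rw [this, add_zero]

lemma kk_pos (a b : ℝ) : 0 < D.kk a b := by
  have hn : ∀ θ, 0 < Complex.normSq (D.dσ θ) := fun θ => Complex.normSq_pos.2 (D.dσ_ne_zero θ)
  unfold kk
  split_ifs with h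
  · refine mul_pos (by positivity) ?_
    have e : (D.ddσ a / D.dσ a).im = (conj (D.dσ a) * D.ddσ a).im / Complex.normSq (D.dσ a) := by
      rw [Complex.div_im]
      simp only [Complex.mul_im, Complex.conj_re, Complex.conj_im]
      ring
    rw [e]
    exact div_pos (D.curv a) (hn a)
  · refine mul_pos (by positivity) ?_
    have h' : D.σ a ≠ D.σ b := Ne.symm h
    have e : (D.dσ b / (D.σ b - D.σ a)).im =
        (conj (D.dσ b) * (D.σ a - D.σ b)).im / Complex.normSq (D.σ b - D.σ a) := by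
      rw [Complex.div_im]
      simp only [Complex.mul_im, Complex.conj_re, Complex.conj_im, Complex.sub_re, Complex.sub_im]
      ring
    rw [e]
    exact div_pos (D.strict b a h') (Complex.normSq_pos.2 (sub_ne_zero.2 h))

lemma kernel_le_kk (a b : ℝ) : D.kernel a b ≤ D.kk a b := by
  by_cases h : D.σ b = D.σ a
  · have : D.kernel a b = 0 := by simp [Dom.kernel, h]
    rw [this]; exact (D.kk_pos a b).le
  · rw [kk, if_neg h]

lemma kk_ae_eq_fst (b : ℝ) : ∀ᵐ a ∂(volume : Measure ℝ), D.kk a b = D.kernel a b := by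
  have hnull : volume {a : ℝ | D.σ b = D.σ a} = 0 := by
    refine Set.Countable.measure_zero ((Set.countable_range fun n : ℤ => b + 2 * π * n).mono
      fun a ha => ?_) _
    obtain ⟨n, hn⟩ := D.σ_inj (θ₀ := b) (θ := a) (Eq.symm ha)
    exact ⟨n, by show b + 2 * π * n = a; linarith⟩
  filter_upwards [compl_mem_ae_iff.2 hnull] with a ha
  rw [kk, if_neg (show ¬ D.σ b = D.σ a from ha)]

lemma kk_ae_eq_snd (a : ℝ) : ∀ᵐ b ∂(volume : Measure ℝ), D.kk a b = D.kernel a b := by
  have hnull : volume {b : ℝ | D.σ b = D.σ a} = 0 := by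
    refine Set.Countable.measure_zero ((Set.countable_range fun n : ℤ => a + 2 * π * n).mono
      fun b hb => ?_) _
    obtain ⟨n, hn⟩ := D.σ_inj (θ₀ := a) (θ := b) hb
    exact ⟨n, by show a + 2 * π * n = b; linarith⟩
  filter_upwards [compl_mem_ae_iff.2 hnull] with b hb
  rw [kk, if_neg (show ¬ D.σ b = D.σ a from hb)]

lemma exists_shift (h : ℝ) : ∃ n : ℤ, |h + n * (2 * π)| ≤ π := by
  refine ⟨-round (h / (2 * π)), ?_⟩
  have h1 := abs_sub_round (h / (2 * π))
  have hp : 0 < 2 * π := by positivity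
  calc |h + (-round (h / (2 * π)) : ℤ) * (2 * π)| = |h / (2 * π) - round (h / (2 * π))| * (2 * π) := by
        rw [← abs_of_pos hp, ← abs_mul, abs_of_pos hp]
        congr 1
        push_cast
        field_simp
        ring
    _ ≤ 1 / 2 * (2 * π) := mul_le_mul_of_nonneg_right h1 hp.le
    _ = π := by ring

lemma continuous_kk : Continuous fun q : ℝ × ℝ => D.kk q.1 q.2 := by
  rw [continuous_iff_continuousAt]
  rintro ⟨a, b⟩
  obtain ⟨n, hn⟩ := exists_shift (b - a)
  have hopen : IsOpen {q : ℝ × ℝ | |q.2 - q.1 + n * (2 * π)| < 2 * π} :=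
    isOpen_lt (by fun_prop) continuous_const
  have hmem : |b - a + n * (2 * π)| < 2 * π := lt_of_le_of_lt hn (by linarith [Real.pi_pos])
  have hc : ContinuousAt (fun q : ℝ × ℝ => D.core q.1 (q.2 - q.1 + n * (2 * π))) (a, b) := by
    have hm : Continuous fun q : ℝ × ℝ => (q.1, q.2 - q.1 + n * (2 * π)) := by fun_prop
    exact continuousAt_const.mul (Complex.continuous_im.continuousAt.comp
      (((D.continuous_rem.comp hm).continuousAt).div (D.continuous_quo.comp hm).continuousAt
        (D.quo_ne_zero hmem)))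
  refine hc.congr ?_
  filter_upwards [hopen.mem_nhds hmem] with q hq
  rw [← D.kk_eq_core hq, ← D.kk_periodic_int q.1 q.2 n]
  congr 1
  ring

lemma exists_kk_bounds : ∃ δ B : ℝ, 0 < δ ∧ ∀ a b, δ ≤ D.kk a b ∧ D.kk a b ≤ B := by
  have hK := (isCompact_Icc (a := (0 : ℝ)) (b := 2 * π)).prod
    (isCompact_Icc (a := (0 : ℝ)) (b := 2 * π))
  have hne : (Icc (0 : ℝ) (2 * π) ×ˢ Icc (0 : ℝ) (2 * π)).Nonempty :=
    ⟨(0, 0), ⟨le_rfl, by positivity⟩, ⟨le_rfl, by positivity⟩⟩
  obtain ⟨x, hx, hmin⟩ := hK.exists_isMinOn hne D.continuous_kk.continuousOn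
  obtain ⟨y, hy, hmax⟩ := hK.exists_isMaxOn hne D.continuous_kk.continuousOn
  have hmem : ∀ c : ℝ, ∃ n : ℤ, c + n * (2 * π) ∈ Icc (0 : ℝ) (2 * π) := fun c => by
    obtain ⟨n, hn⟩ := exists_shift (c - π)
    exact ⟨n, by linarith [(abs_le.1 hn).1], by linarith [(abs_le.1 hn).2]⟩
  refine ⟨D.kk x.1 x.2, D.kk y.1 y.2, D.kk_pos _ _, fun a b => ?_⟩
  obtain ⟨i, hi⟩ := hmem a
  obtain ⟨j, hj⟩ := hmem b
  rw [← D.kk_periodic_fst a b i, ← D.kk_periodic_int (a + i * (2 * π)) b j]
  exact ⟨isMinOn_iff.1 hmin (_, _) ⟨hi, hj⟩, isMaxOn_iff.1 hmax (_, _) ⟨hi, hj⟩⟩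

/-- S2. -/
theorem exists_kernel_bound : ∃ B : ℝ, ∀ a b, D.kernel a b ≤ B := by
  obtain ⟨δ, B, -, hB⟩ := D.exists_kk_bounds
  exact ⟨B, fun a b => (D.kernel_le_kk a b).trans (hB a b).2⟩

/-- The kernel is Lipschitz in its second variable. -/
lemma exists_kk_lipschitz : ∃ L : ℝ, 0 ≤ L ∧ ∀ a b b', |D.kk a b - D.kk a b'| ≤ L * |b - b'| := by
  obtain ⟨M, hM, hMb, hMdd, hMd⟩ := D.exists_ddσ_bound
  obtain ⟨δ, B, hδ, hB⟩ := D.exists_kk_bounds
  have hpi := Real.pi_pos
  have hK := (isCompact_Icc (a := (0 : ℝ)) (b := 2 * π)).prod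
    (isCompact_Icc (a := -(3 * π / 2)) (b := 3 * π / 2))
  have hne : (Icc (0 : ℝ) (2 * π) ×ˢ Icc (-(3 * π / 2)) (3 * π / 2)).Nonempty :=
    ⟨(0, 0), ⟨le_rfl, by linarith⟩, ⟨by linarith, by linarith⟩⟩
  obtain ⟨x, hx, hmin⟩ := hK.exists_isMinOn hne D.continuous_quo.norm.continuousOn
  set c := ‖D.quo x.1 x.2‖ with hc
  have hc0 : 0 < c := norm_pos_iff.2 (D.quo_ne_zero (lt_of_le_of_lt
    (abs_le.2 ⟨hx.2.1, hx.2.2⟩) (by linarith)))
  have hcb : ∀ a h, a ∈ Icc (0 : ℝ) (2 * π) → |h| ≤ 3 * π / 2 → c ≤ ‖D.quo a h‖ := fun a h ha hh =>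
    isMinOn_iff.1 hmin (a, h) ⟨ha, abs_le.1 hh⟩
  -- the numerator and the denominator are Lipschitz
  have hquo : ∀ a h h', ‖D.quo a h - D.quo a h'‖ ≤ M * |h - h'| := fun a h h' => by
    have c1 : ∀ u : ℝ, Continuous fun τ : ℝ => D.dσ (a + τ * u) := fun u =>
      D.continuous_dσ.comp (by fun_prop)
    rw [quo, quo, ← intervalIntegral.integral_sub ((c1 h).intervalIntegrable _ _)
      ((c1 h').intervalIntegrable _ _)]
    refine (intervalIntegral.norm_integral_le_of_norm_le_const (C := M * |h - h'|)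
      fun τ hτ => ?_).trans (by simp)
    rw [uIoc_of_le zero_le_one] at hτ
    refine (hMd _ _).trans (mul_le_mul_of_nonneg_left ?_ hM)
    rw [show a + τ * h - (a + τ * h') = τ * (h - h') by ring, abs_mul, abs_of_pos hτ.1]
    exact mul_le_of_le_one_left (abs_nonneg _) hτ.2
  have hrem : ∀ a h h', ‖D.rem a h - D.rem a h'‖ ≤ M * |h - h'| := fun a h h' => by
    have c1 : ∀ u : ℝ, Continuous fun τ : ℝ => (τ : ℂ) * D.ddσ (a + τ * u) := fun u =>
      Complex.continuous_ofReal.mul (D.continuous_ddσ.comp (by fun_prop))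
    rw [rem, rem, ← intervalIntegral.integral_sub ((c1 h).intervalIntegrable _ _)
      ((c1 h').intervalIntegrable _ _)]
    refine (intervalIntegral.norm_integral_le_of_norm_le_const (C := M * |h - h'|)
      fun τ hτ => ?_).trans (by simp)
    rw [uIoc_of_le zero_le_one] at hτ
    rw [← mul_sub, norm_mul, Complex.norm_real, Real.norm_of_nonneg hτ.1.le]
    refine (mul_le_of_le_one_left (norm_nonneg _) hτ.2).trans ((hMdd _ _).trans
      (mul_le_mul_of_nonneg_left ?_ hM))
    rw [show a + τ * h - (a + τ * h') = τ * (h - h') by ring, abs_mul, abs_of_pos hτ.1]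
    exact mul_le_of_le_one_left (abs_nonneg _) hτ.2
  have hremb : ∀ a h, ‖D.rem a h‖ ≤ M := fun a h => by
    refine (intervalIntegral.norm_integral_le_of_norm_le_const (C := M) fun τ hτ => ?_).trans (by simp)
    rw [uIoc_of_le zero_le_one] at hτ
    rw [norm_mul, Complex.norm_real, Real.norm_of_nonneg hτ.1.le]
    exact (mul_le_of_le_one_left (norm_nonneg _) hτ.2).trans (hMb _)
  set L1 : ℝ := π⁻¹ * (M / c + M * M / (c * c)) with hL1
  have hL10 : 0 ≤ L1 := by positivity
  refine ⟨L1 + B / (π / 2), by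
    have : 0 ≤ B := (hδ.le.trans (hB 0 0).1).trans (hB 0 0).2
    positivity, fun a b b' => ?_⟩
  have hB0 : 0 ≤ B := (hδ.le.trans (hB 0 0).1).trans (hB 0 0).2
  rcases le_or_gt |b - b'| (π / 2) with hnear | hfar
  swap
  · have h1 : |D.kk a b - D.kk a b'| ≤ B := abs_le.2
      ⟨by linarith [(hB a b).1, (hB a b').2], by linarith [(hB a b').1, (hB a b).2]⟩
    refine h1.trans ?_
    have h2 : B / (π / 2) * (π / 2) ≤ B / (π / 2) * |b - b'| :=
      mul_le_mul_of_nonneg_left hfar.le (by positivity)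
    rw [div_mul_cancel₀ _ (by positivity)] at h2
    nlinarith [mul_nonneg hL10 (abs_nonneg (b - b'))]
  obtain ⟨i, hi⟩ := exists_shift (a - π)
  obtain ⟨j, hj⟩ := exists_shift (b - (a + i * (2 * π)))
  set a₀ := a + i * (2 * π) with ha₀
  set h := b + j * (2 * π) - a₀ with hh
  set h' := b' + j * (2 * π) - a₀ with hh'
  have ha : a₀ ∈ Icc (0 : ℝ) (2 * π) :=
    ⟨by linarith [(abs_le.1 hi).1], by linarith [(abs_le.1 hi).2]⟩
  have hhb : |h| ≤ π := by rwa [hh, show b + j * (2 * π) - a₀ = b - a₀ + j * (2 * π) by ring]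
  have hd : h - h' = b - b' := by rw [hh, hh']; ring
  have hhb' : |h'| ≤ 3 * π / 2 := by
    have := abs_sub_abs_le_abs_sub h' h
    rw [abs_sub_comm h' h, hd] at this
    linarith
  have e : ∀ u, |u + j * (2 * π) - a₀| ≤ 3 * π / 2 →
      D.kk a u = D.core a₀ (u + j * (2 * π) - a₀) := fun u hu => by
    rw [← D.kk_eq_core (lt_of_le_of_lt hu (by linarith)), ← D.kk_periodic_fst a u i, ← ha₀,
      ← D.kk_periodic_int a₀ u j]
    congr 1
    ring
  rw [e b (show |h| ≤ 3 * π / 2 by linarith), e b' hhb', ← hh, ← hh', core, core, ← mul_sub,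
    abs_mul, abs_of_pos (inv_pos.2 hpi), ← Complex.sub_im]
  have hq : D.quo a₀ h ≠ 0 := D.quo_ne_zero (by linarith)
  have hq' : D.quo a₀ h' ≠ 0 := D.quo_ne_zero (by linarith)
  have key : ‖D.rem a₀ h / D.quo a₀ h - D.rem a₀ h' / D.quo a₀ h'‖ ≤
      (M / c + M * M / (c * c)) * |b - b'| := by
    rw [show D.rem a₀ h / D.quo a₀ h - D.rem a₀ h' / D.quo a₀ h' =
      (D.rem a₀ h - D.rem a₀ h') / D.quo a₀ h +
        D.rem a₀ h' * (D.quo a₀ h' - D.quo a₀ h) / (D.quo a₀ h * D.quo a₀ h') by
      field_simp; ring, add_mul]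
    refine (norm_add_le _ _).trans (add_le_add ?_ ?_)
    · rw [norm_div, div_mul_eq_mul_div, ← hd]
      exact div_le_div₀ (by positivity) (hrem _ _ _) hc0 (hcb _ _ ha (by linarith))
    · rw [norm_div, norm_mul, norm_mul, div_mul_eq_mul_div, ← hd]
      refine div_le_div₀ (by positivity) ?_ (mul_pos hc0 hc0) (mul_le_mul (hcb _ _ ha (by linarith))
        (hcb _ _ ha hhb') hc0.le (norm_nonneg _))
      rw [mul_assoc, norm_sub_rev]
      exact mul_le_mul (hremb _ _) (hquo _ _ _) (norm_nonneg _) hM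
  calc π⁻¹ * |(D.rem a₀ h / D.quo a₀ h - D.rem a₀ h' / D.quo a₀ h').im|
      ≤ π⁻¹ * ((M / c + M * M / (c * c)) * |b - b'|) :=
        mul_le_mul_of_nonneg_left ((Complex.abs_im_le_norm _).trans key) (inv_pos.2 hpi).le
    _ ≤ _ := by
        rw [← mul_assoc, ← hL1]
        exact mul_le_mul_of_nonneg_right (le_add_of_nonneg_right (by positivity)) (abs_nonneg _)

lemma kk_integral (a : ℝ) : ∫ b in (0 : ℝ)..(2 * π), D.kk a b = 1 := by
  rw [← D.kernel_integral a]
  exact intervalIntegral.integral_congr_ae (by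
    filter_upwards [D.kk_ae_eq_snd a] with b hb _ using hb)

/-- The transfer operator of the kernel. -/
def tr (p : ℝ → ℝ) (s : ℝ) : ℝ := ∫ t in (0 : ℝ)..(2 * π), p t * D.kk t s

lemma continuous_tr {p : ℝ → ℝ} (hp : Continuous p) : Continuous (D.tr p) :=
  intervalIntegral.continuous_parametric_intervalIntegral_of_continuous'
    (f := fun s t => p t * D.kk t s)
    ((hp.comp continuous_snd).mul
      (D.continuous_kk.comp (continuous_snd.prodMk continuous_fst))) 0 (2 * π)

lemma intervalIntegrable_mul_kk {p : ℝ → ℝ} (hp : Continuous p) (s a b : ℝ) :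
    IntervalIntegrable (fun t => p t * D.kk t s) volume a b :=
  (hp.mul (D.continuous_kk.comp (continuous_id.prodMk continuous_const))).intervalIntegrable _ _

lemma integral_swap_cts {F : ℝ → ℝ → ℝ} (hF : Continuous (Function.uncurry F)) {a b : ℝ}
    (hab : a ≤ b) :
    ∫ x in a..b, ∫ y in a..b, F x y = ∫ y in a..b, ∫ x in a..b, F x y := by
  simp only [intervalIntegral.integral_of_le hab]
  refine integral_integral_swap ?_
  rw [Measure.prod_restrict]
  exact (hF.continuousOn.integrableOn_compact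
    ((isCompact_Icc (a := a) (b := b)).prod (isCompact_Icc (a := a) (b := b)))).mono_set
      (Set.prod_mono Ioc_subset_Icc_self Ioc_subset_Icc_self)

lemma integral_tr {p : ℝ → ℝ} (hp : Continuous p) :
    ∫ s in (0 : ℝ)..(2 * π), D.tr p s = ∫ t in (0 : ℝ)..(2 * π), p t := by
  simp only [tr]
  rw [integral_swap_cts (F := fun s t => p t * D.kk t s)
    ((hp.comp continuous_snd).mul (D.continuous_kk.comp (continuous_snd.prodMk continuous_fst)))
    (by positivity)]
  simp only [intervalIntegral.integral_const_mul, D.kk_integral, mul_one]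

/-- S3. The invariant density: note the order of the kernel's arguments. -/
theorem exists_density :
    ∃ (p : ℝ → ℝ) (L : NNReal), Function.Periodic p (2 * π) ∧ LipschitzWith L p ∧ (∀ t, 0 < p t) ∧
      (∫ t in (0 : ℝ)..(2 * π), p t) = 1 ∧
      ∀ s, ∫ t in (0 : ℝ)..(2 * π), p t * D.kernel t s = p s := by
  obtain ⟨δ, B, hδ, hB⟩ := D.exists_kk_bounds
  obtain ⟨L, hL, hLb⟩ := D.exists_kk_lipschitz
  have h0 : (0 : ℝ) ≤ 2 * π := by positivity
  have hB0 : 0 ≤ B := (hδ.le.trans (hB 0 0).1).trans (hB 0 0).2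
  have hρ : 2 * π * δ ≤ 1 := by
    have h := intervalIntegral.integral_mono_on h0 (_root_.intervalIntegrable_const (c := δ))
      ((D.continuous_kk.comp (continuous_const.prodMk continuous_id)).intervalIntegrable 0 (2 * π)
        (μ := volume)) fun b _ => (hB 0 b).1
    rw [intervalIntegral.integral_const, smul_eq_mul, sub_zero] at h
    exact h.trans_eq (D.kk_integral 0)
  set ρ : ℝ := 1 - 2 * π * δ with hρd
  have hρ1 : ρ < 1 := by
    have : 0 < 2 * π * δ := by positivity
    linarith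
  -- the iterates
  set P : ℕ → ℝ → ℝ := fun n => (D.tr)^[n] (fun _ => (2 * π)⁻¹) with hP
  have hPs : ∀ n, P (n + 1) = D.tr (P n) := fun n => Function.iterate_succ_apply' _ _ _
  have hPc : ∀ n, Continuous (P n) := by
    intro n
    induction n with
    | zero => exact continuous_const
    | succ n ih => rw [hPs]; exact D.continuous_tr ih
  have hP1 : ∀ n, ∫ t in (0 : ℝ)..(2 * π), P n t = 1 := by
    intro n
    induction n with
    | zero =>
      show ∫ t in (0 : ℝ)..(2 * π), (2 * π)⁻¹ = 1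
      rw [intervalIntegral.integral_const, smul_eq_mul, sub_zero, mul_inv_cancel₀ (by positivity)]
    | succ n ih => rw [hPs, D.integral_tr (hPc n), ih]
  have hPbd : ∀ n s, δ ≤ P (n + 1) s ∧ P (n + 1) s ≤ B := by
    have step : ∀ n, (∀ s, 0 ≤ P n s) → ∀ s, δ ≤ P (n + 1) s ∧ P (n + 1) s ≤ B := by
      intro n hn s
      rw [hPs]
      have e : ∀ C : ℝ, ∫ t in (0 : ℝ)..(2 * π), P n t * C = C := fun C => by
        rw [intervalIntegral.integral_mul_const, hP1, one_mul]
      constructor
      · refine le_of_eq_of_le (e δ).symm (intervalIntegral.integral_mono_on h0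
          (((hPc n).mul continuous_const).intervalIntegrable _ _)
          (D.intervalIntegrable_mul_kk (hPc n) s _ _) fun t _ => ?_)
        exact mul_le_mul_of_nonneg_left (hB t s).1 (hn t)
      · refine le_of_le_of_eq (intervalIntegral.integral_mono_on h0
          (D.intervalIntegrable_mul_kk (hPc n) s _ _)
          (((hPc n).mul continuous_const).intervalIntegrable _ _) fun t _ => ?_) (e B)
        exact mul_le_mul_of_nonneg_left (hB t s).2 (hn t)
    intro n
    induction n with
    | zero => exact step 0 fun _ => by show (0 : ℝ) ≤ (2 * π)⁻¹; positivity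
    | succ n ih => exact step (n + 1) fun s => hδ.le.trans (ih s).1
  -- contraction in mean
  set d : ℕ → ℝ → ℝ := fun n t => P (n + 1) t - P n t with hd
  have hdc : ∀ n, Continuous (d n) := fun n => (hPc (n + 1)).sub (hPc n)
  have hd0 : ∀ n, ∫ t in (0 : ℝ)..(2 * π), d n t = 0 := fun n => by
    simp only [hd]
    rw [intervalIntegral.integral_sub ((hPc _).intervalIntegrable _ _) ((hPc _).intervalIntegrable _ _),
      hP1, hP1, sub_self]
  have hds : ∀ n s, d (n + 1) s = ∫ t in (0 : ℝ)..(2 * π), d n t * (D.kk t s - δ) := fun n s => by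
    have e : (fun t => d n t * (D.kk t s - δ)) =
        fun t => (P (n + 1) t * D.kk t s - P n t * D.kk t s) - d n t * δ := by
      funext t; simp only [hd]; ring
    rw [e, intervalIntegral.integral_sub ((D.intervalIntegrable_mul_kk (hPc _) s _ _).sub
      (D.intervalIntegrable_mul_kk (hPc _) s _ _)) (((hdc n).fun_mul (continuous_const (y := δ))).intervalIntegrable _ _),
      intervalIntegral.integral_sub (D.intervalIntegrable_mul_kk (hPc _) s _ _)
        (D.intervalIntegrable_mul_kk (hPc _) s _ _),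
      intervalIntegral.integral_mul_const, hd0, zero_mul, sub_zero]
    show P (n + 2) s - P (n + 1) s = _
    rw [hPs (n + 1)]
    conv_lhs => arg 2; rw [hPs n]
    rfl
  set A : ℕ → ℝ := fun n => ∫ t in (0 : ℝ)..(2 * π), |d n t| with hA
  have habs : ∀ n s, |d (n + 1) s| ≤ ∫ t in (0 : ℝ)..(2 * π), |d n t| * (D.kk t s - δ) := fun n s => by
    rw [hds]
    refine (intervalIntegral.abs_integral_le_integral_abs h0).trans_eq
      (intervalIntegral.integral_congr fun t _ => ?_)
    show |d n t * (D.kk t s - δ)| = _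
    rw [abs_mul, abs_of_nonneg (sub_nonneg.2 (hB t s).1)]
  have hcF : ∀ n, Continuous (Function.uncurry fun s t => |d n t| * (D.kk t s - δ)) := fun n =>
    ((hdc n).abs.comp continuous_snd).mul
      ((D.continuous_kk.comp (continuous_snd.prodMk continuous_fst)).sub continuous_const)
  have hAs : ∀ n, A (n + 1) ≤ ρ * A n := fun n => by
    refine (intervalIntegral.integral_mono_on h0 ((hdc _).abs.intervalIntegrable _ _)
      ((intervalIntegral.continuous_parametric_intervalIntegral_of_continuous' (hcF n) 0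
        (2 * π)).intervalIntegrable _ _) fun s _ => habs n s).trans_eq ?_
    rw [integral_swap_cts (hcF n) h0]
    have e : ∀ t, ∫ s in (0 : ℝ)..(2 * π), |d n t| * (D.kk t s - δ) = |d n t| * ρ := fun t => by
      have ik : IntervalIntegrable (fun s => D.kk t s) volume 0 (2 * π) :=
        (D.continuous_kk.comp (continuous_const.prodMk continuous_id)).intervalIntegrable _ _
      rw [intervalIntegral.integral_const_mul, intervalIntegral.integral_sub ik
        _root_.intervalIntegrable_const, intervalIntegral.integral_const, smul_eq_mul, sub_zero]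
      show |d n t| * ((∫ s in (0 : ℝ)..(2 * π), D.kk t s) - _) = _
      rw [D.kk_integral, hρd]
    simp only [e]
    rw [intervalIntegral.integral_mul_const, mul_comm]
  have hAn : ∀ n, A n ≤ ρ ^ n * A 0 := by
    intro n
    induction n with
    | zero => simp
    | succ n ih =>
      refine (hAs n).trans ((mul_le_mul_of_nonneg_left ih (by linarith)).trans_eq ?_)
      rw [pow_succ]; ring
  have hdist : ∀ s n, dist (P (n + 1) s) (P (n + 2) s) ≤ B * A 0 * ρ ^ n := fun s n => by
    rw [dist_comm, Real.dist_eq]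
    refine (habs n s).trans ((intervalIntegral.integral_mono_on h0
      (((hcF n).comp (continuous_const.prodMk continuous_id)).intervalIntegrable _ _)
      (((hdc n).abs.mul continuous_const).intervalIntegrable _ _)
      (fun t _ => mul_le_mul_of_nonneg_left (show D.kk t s - δ ≤ B by linarith [(hB t s).2])
        (abs_nonneg _))).trans ?_)
    show ∫ t in (0 : ℝ)..(2 * π), |d n t| * B ≤ _
    rw [intervalIntegral.integral_mul_const]
    calc A n * B ≤ ρ ^ n * A 0 * B := mul_le_mul_of_nonneg_right (hAn n) hB0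
      _ = _ := by ring
  choose p hp using fun s => cauchySeq_tendsto_of_complete
    (cauchySeq_of_le_geometric (f := fun n => P (n + 1) s) ρ (B * A 0) hρ1 (hdist s))
  have hpb : ∀ s, δ ≤ p s ∧ p s ≤ B := fun s =>
    ⟨ge_of_tendsto' (hp s) fun n => (hPbd n s).1, le_of_tendsto' (hp s) fun n => (hPbd n s).2⟩
  have hlip : ∀ n s s', |P (n + 1) s - P (n + 1) s'| ≤ L * |s - s'| := fun n s s' => by
    rw [hPs]
    show |(∫ t in (0 : ℝ)..(2 * π), P n t * D.kk t s) - ∫ t in (0 : ℝ)..(2 * π), P n t * D.kk t s'| ≤ _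
    rw [← intervalIntegral.integral_sub (D.intervalIntegrable_mul_kk (hPc n) s _ _)
      (D.intervalIntegrable_mul_kk (hPc n) s' _ _)]
    refine (intervalIntegral.abs_integral_le_integral_abs h0).trans ?_
    refine (intervalIntegral.integral_mono_on h0
      (((D.intervalIntegrable_mul_kk (hPc n) s _ _).sub
        (D.intervalIntegrable_mul_kk (hPc n) s' _ _)).abs)
      (((hPc n).mul continuous_const).intervalIntegrable _ _) fun t _ => ?_).trans_eq
        (show ∫ t in (0 : ℝ)..(2 * π), P n t * (L * |s - s'|) = L * |s - s'| by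
          rw [intervalIntegral.integral_mul_const, hP1, one_mul])
    have hn : 0 ≤ P n t := by
      rcases n with _ | n
      · show (0 : ℝ) ≤ (2 * π)⁻¹; positivity
      · exact hδ.le.trans (hPbd n t).1
    rw [← mul_sub, abs_mul, abs_of_nonneg hn]
    exact mul_le_mul_of_nonneg_left (hLb t s s') hn
  have hplip : LipschitzWith L.toNNReal p := by
    refine LipschitzWith.of_dist_le_mul fun s s' => ?_
    rw [Real.coe_toNNReal _ hL, Real.dist_eq, Real.dist_eq]
    exact le_of_tendsto' ((hp s).sub (hp s')).abs fun n => hlip n s s'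
  have hdom : ∀ (g : ℝ → ℝ), Continuous g → Tendsto (fun n => ∫ t in (0 : ℝ)..(2 * π), P (n + 1) t * g t)
      atTop (𝓝 (∫ t in (0 : ℝ)..(2 * π), p t * g t)) := fun g hg => by
    refine intervalIntegral.tendsto_integral_filter_of_dominated_convergence (fun t => B * |g t|)
      (Eventually.of_forall fun n => ((hPc _).mul hg).aestronglyMeasurable) ?_
      ((continuous_const.mul hg.abs).intervalIntegrable _ _)
      (ae_of_all _ fun t _ => (hp t).mul_const _)
    refine Eventually.of_forall fun n => ae_of_all _ fun t _ => ?_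
    rw [Real.norm_eq_abs, abs_mul, abs_of_nonneg (hδ.le.trans (hPbd n t).1)]
    exact mul_le_mul_of_nonneg_right (hPbd n t).2 (abs_nonneg _)
  refine ⟨p, L.toNNReal, fun s => ?_, hplip, fun s => hδ.trans_le (hpb s).1, ?_, fun s => ?_⟩
  · refine tendsto_nhds_unique (hp (s + 2 * π)) ((hp s).congr fun n => ?_)
    rw [hPs]
    refine intervalIntegral.integral_congr fun t _ => ?_
    show P n t * D.kk t s = P n t * D.kk t (s + 2 * π)
    have := D.kk_periodic_int t s 1
    rw [Int.cast_one, one_mul] at this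
    rw [this]
  · have h := hdom (fun _ => 1) continuous_const
    simp only [mul_one, hP1] at h
    exact (tendsto_nhds_unique h tendsto_const_nhds)
  · have h := hdom (fun t => D.kk t s) (D.continuous_kk.comp (continuous_id.prodMk continuous_const))
    have e : ∫ t in (0 : ℝ)..(2 * π), p t * D.kernel t s =
        ∫ t in (0 : ℝ)..(2 * π), p t * D.kk t s :=
      intervalIntegral.integral_congr_ae (by
        filter_upwards [D.kk_ae_eq_fst s] with t ht _
        rw [ht])
    rw [e]
    refine tendsto_nhds_unique h ?_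
    have h2 := (hp s).comp (tendsto_add_atTop_nat 1)
    refine h2.congr fun n => ?_
    show P (n + 1 + 1) s = _
    rw [hPs]
    rfl

end SDom

end Vale.Agent.P123
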