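import Vale.Agent.P123.Resolvent

/-! The constant `2` for arbitrary inner product spaces, and its sharpness. -/

noncomputable section

namespace Vale.Agent.P123

open Complex MeasureTheory Filter Set Polynomial
open scoped ComplexConjugate Real Topology InnerProductSpace

theorem finite_dim_bound {E : Type*} [NormedAddCommGroup E] [InnerProductSpace ℂ E]
    [FiniteDimensional ℂ E] (B : E →L[ℂ] E) (P : ℂ[X]) {M : ℝ}
    (hne : ∃ v : E, ‖v‖ = 1) (hP : ∀ v : E, ‖v‖ = 1 → ‖P.eval (inner ℂ v (B v))‖ ≤ M) :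
    ‖aeval B P‖ ≤ 2 * M := by
  obtain ⟨v₀, hv₀⟩ := hne
  refine le_of_forall_pos_le_add fun η hη => ?_
  set c := inner ℂ v₀ (B v₀)
  set B' : E →L[ℂ] E := B - c • 1
  set Q : ℂ[X] := P.comp (X + C c)
  have hQ : aeval B' Q = aeval B P := by
    rw [aeval_comp]
    congr 1
    simp [B', Algebra.algebraMap_eq_smul_one]
  have hin : ∀ v : E, ‖v‖ = 1 → inner ℂ v (B' v) = inner ℂ v (B v) - c := fun v hv => by
    simp [B', hv]
  set S := numRange B'
  have h0 : (0 : ℂ) ∈ S := ⟨v₀, hv₀, by rw [hin v₀ hv₀, sub_self]⟩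
  have hS : ∀ z ∈ S, ‖Q.eval z‖ ≤ M := by
    rintro z ⟨v, hv, rfl⟩
    simpa [Q, hin v hv] using hP v hv
  have hM : 0 ≤ M := (norm_nonneg _).trans (hS 0 h0)
  have hopen : IsOpen {z : ℂ | ‖Q.eval z‖ < M + η / 2} :=
    isOpen_lt Q.continuous.norm continuous_const
  obtain ⟨δ, hδ, hsub⟩ := (numRange_isCompact B').exists_thickening_subset_open hopen
    fun z hz => lt_of_le_of_lt (hS z hz) (by linarith)
  obtain ⟨D, hD1, hD2⟩ := exists_sdom (numRange_isCompact B') (numRange_convex B') h0 (half_pos hδ)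
  have hcl : ∀ z ∈ closure D.Ω, ‖Q.eval z‖ ≤ M + η / 2 := fun z hz => by
    have h1 : z ∈ Metric.cthickening (δ / 2) S :=
      Metric.closure_thickening_subset_cthickening _ _ (closure_mono hD2 hz)
    exact (hsub (Metric.cthickening_subset_thickening' hδ (half_lt_self hδ) _ h1)).le
  have h := D.norm_aeval_le B' hD1 Q (by linarith) hcl
  rw [hQ] at h
  linarith

theorem two_bound {H : Type*} [NormedAddCommGroup H] [InnerProductSpace ℂ H] [Nontrivial H]
    (A : H →L[ℂ] H) (P : ℂ[X]) {M : ℝ}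
    (hP : ∀ x : H, ‖x‖ = 1 → ‖P.eval (inner ℂ x (A x))‖ ≤ M) : ‖aeval A P‖ ≤ 2 * M := by
  obtain ⟨z, hz⟩ := exists_ne (0 : H)
  have hM : 0 ≤ M := (norm_nonneg _).trans (hP ((‖z‖⁻¹ : ℂ) • z) (by simp [norm_smul, hz]))
  refine (aeval A P).opNorm_le_bound (by positivity) fun x => ?_
  rcases eq_or_ne x 0 with rfl | hx
  · simp
  obtain ⟨V, hfd, B, x', hx', hBP, hin⟩ := exists_compression A P x
  have hx'0 : x' ≠ 0 := fun h => hx (by rw [← hx', h]; simp)
  have hb := finite_dim_bound B P (M := M) ⟨(‖x'‖⁻¹ : ℂ) • x', by simp [norm_smul, hx'0]⟩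
    fun v hv => by rw [hin v]; exact hP v (by simpa using hv)
  calc ‖aeval A P x‖ = ‖aeval B P x'‖ := by rw [← hBP]; rfl
    _ ≤ ‖aeval B P‖ * ‖x'‖ := (aeval B P).le_opNorm _
    _ ≤ 2 * M * ‖x'‖ := mul_le_mul_of_nonneg_right hb (norm_nonneg _)
    _ = 2 * M * ‖x‖ := by rw [← hx']; rfl

/-- The nilpotent witness. -/
theorem two_sharp :
    ∃ A : EuclideanSpace ℂ (Fin 2) →L[ℂ] EuclideanSpace ℂ (Fin 2),
      ‖aeval A (X : ℂ[X])‖ = 1 ∧
        ∀ x : EuclideanSpace ℂ (Fin 2), ‖x‖ = 1 →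
          ‖(X : ℂ[X]).eval (inner ℂ x (A x))‖ ≤ 1 / 2 := by
  set e₀ : EuclideanSpace ℂ (Fin 2) := EuclideanSpace.single 0 1
  set e₁ : EuclideanSpace ℂ (Fin 2) := EuclideanSpace.single 1 1
  refine ⟨(innerSL ℂ e₁).smulRight e₀, ?_, fun x hx => ?_⟩
  · rw [aeval_X, ContinuousLinearMap.norm_smulRight_apply, innerSL_apply_norm]
    simp [e₀, e₁]
  · have hsum : ‖x 0‖ ^ 2 + ‖x 1‖ ^ 2 = 1 := by
      have h := EuclideanSpace.norm_sq_eq x
      rw [hx] at h
      simpa [Fin.sum_univ_two] using h.symm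
    have hval : ‖(X : ℂ[X]).eval (inner ℂ x (((innerSL ℂ e₁).smulRight e₀) x))‖ =
        ‖x 1‖ * ‖x 0‖ := by
      simp [e₀, e₁, ContinuousLinearMap.smulRight_apply,
        EuclideanSpace.inner_single_left, EuclideanSpace.inner_single_right]
    rw [hval]
    nlinarith [sq_nonneg (‖x 0‖ - ‖x 1‖)]

end Vale.Agent.P123
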