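import Vale.Agent.P123.Defs
import Mathlib

/-! Elementary geometry of a radially parametrised convex domain. -/

noncomputable section

namespace Vale.Agent.P123

open Complex MeasureTheory Filter Set
open scoped ComplexConjugate Real Topology

namespace Dom

variable (D : Dom)

lemma norm_exp_I (θ : ℝ) : ‖exp (θ * I)‖ = 1 := Complex.norm_exp_ofReal_mul_I θ

lemma norm_σ (θ : ℝ) : ‖D.σ θ‖ = D.radius θ := by
  rw [σ, curveOf, norm_mul, norm_exp_ofReal_mul_I, mul_one, Complex.norm_real,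
    Real.norm_of_nonneg (D.pos θ).le]

lemma σ_ne_zero (θ : ℝ) : D.σ θ ≠ 0 := by
  rw [← norm_pos_iff, norm_σ]; exact D.pos θ

lemma σ_periodic : Function.Periodic D.σ (2 * π) := by
  intro θ
  have h1 : (((θ + 2 * π : ℝ) : ℂ) * I) = (θ : ℂ) * I + 2 * π * I := by push_cast; ring
  simp only [σ, curveOf, h1, Complex.exp_periodic _, D.periodic θ]

/-- The radius in direction `z`, as a function on the plane. -/
def rad (z : ℂ) : ℝ := D.radius z.arg

lemma rad_pos (z : ℂ) : 0 < D.rad z := D.pos _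

lemma radius_congr {a b : ℝ} (h : (a : Real.Angle) = b) : D.radius a = D.radius b := by
  rw [← Function.Periodic.lift_coe D.periodic a, ← Function.Periodic.lift_coe D.periodic b]
  exact congrArg D.periodic.lift h

lemma continuous_radius : Continuous D.radius := D.contDiff.continuous

lemma continuousAt_rad {z : ℂ} (hz : z ≠ 0) : ContinuousAt D.rad z := by
  have hl : Continuous (D.periodic.lift : Real.Angle → ℝ) := by
    apply (isQuotientMap_quotient_mk'.continuous_iff).2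
    exact D.continuous_radius
  exact hl.continuousAt.comp (Complex.continuousAt_arg_coe_angle hz)

lemma exists_radius_bounds : ∃ m M : ℝ, 0 < m ∧ ∀ θ, m ≤ D.radius θ ∧ D.radius θ ≤ M := by
  have hr : IsCompact (Set.range D.radius) :=
    D.periodic.compact_of_continuous (by positivity) D.continuous_radius
  obtain ⟨m, hm1, hm2⟩ := hr.exists_isLeast (Set.range_nonempty _)
  obtain ⟨M, hM1, hM2⟩ := hr.exists_isGreatest (Set.range_nonempty _)
  obtain ⟨a, rfl⟩ := hm1
  exact ⟨_, M, D.pos a, fun θ => ⟨hm2 ⟨θ, rfl⟩, hM2 ⟨θ, rfl⟩⟩⟩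

lemma mem_Ω {z : ℂ} : z ∈ D.Ω ↔ ‖z‖ < D.rad z := Iff.rfl

/-- B2. -/
theorem zero_mem_Ω : (0 : ℂ) ∈ D.Ω := by
  simp [mem_Ω, rad, D.pos]

theorem isOpen_Ω : IsOpen D.Ω := by
  rw [isOpen_iff_mem_nhds]
  intro z hz
  rcases eq_or_ne z 0 with rfl | h
  · obtain ⟨m, M, hm, hb⟩ := D.exists_radius_bounds
    refine mem_of_superset (Metric.ball_mem_nhds 0 hm) fun w hw => ?_
    rw [mem_ball_zero_iff] at hw
    exact lt_of_lt_of_le hw (hb _).1
  · exact continuous_norm.continuousAt.eventually_lt (D.continuousAt_rad h) hz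

theorem isBounded_Ω : Bornology.IsBounded D.Ω := by
  obtain ⟨m, M, hm, hb⟩ := D.exists_radius_bounds
  refine (Metric.isBounded_closedBall (x := (0:ℂ)) (r := M)).subset fun z hz => ?_
  exact mem_closedBall_zero_iff.2 (le_of_lt (lt_of_lt_of_le hz (hb _).2))

lemma arg_smul_σ {t : ℝ} (ht : 0 < t) (θ : ℝ) :
    ((((t : ℂ) * D.σ θ).arg : ℝ) : Real.Angle) = (θ : Real.Angle) := by
  rw [σ, curveOf, ← mul_assoc, ← Complex.ofReal_mul,
    Complex.arg_mul_coe_angle (Complex.ofReal_ne_zero.2 (mul_pos ht (D.pos θ)).ne') (exp_ne_zero _),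
    Complex.arg_ofReal_of_nonneg (mul_pos ht (D.pos θ)).le]
  rw [show exp (θ * I) = Real.Angle.toCircle (θ : Real.Angle) by simp [Real.Angle.coe_toCircle],
    Real.Angle.arg_toCircle]
  simp

lemma rad_smul_σ {t : ℝ} (ht : 0 < t) (θ : ℝ) : D.rad ((t : ℂ) * D.σ θ) = D.radius θ :=
  D.radius_congr (D.arg_smul_σ ht θ)

lemma rad_σ (θ : ℝ) : D.rad (D.σ θ) = D.radius θ := by
  simpa using D.rad_smul_σ one_pos θ

lemma smul_σ_mem {t : ℝ} (ht : 0 ≤ t) (ht1 : t < 1) (θ : ℝ) : (t : ℂ) * D.σ θ ∈ D.Ω := by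
  rcases ht.eq_or_lt with rfl | ht
  · simpa using D.zero_mem_Ω
  rw [mem_Ω, D.rad_smul_σ ht, norm_mul, norm_σ, Complex.norm_real, Real.norm_of_nonneg ht.le]
  exact mul_lt_of_lt_one_left (D.pos θ) ht1

lemma σ_notMem (θ : ℝ) : D.σ θ ∉ D.Ω := by
  simp [mem_Ω, rad_σ, norm_σ]

lemma σ_arg (z : ℂ) : D.σ z.arg = (D.rad z : ℂ) * exp (z.arg * I) := rfl

lemma eq_smul_σ_arg (z : ℂ) : z = ((‖z‖ / D.rad z : ℝ) : ℂ) * D.σ z.arg := by
  rw [σ_arg, ← mul_assoc, ← Complex.ofReal_mul, div_mul_cancel₀ _ (D.rad_pos z).ne',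
    Complex.norm_mul_exp_arg_mul_I]

lemma σ_mem_closure (θ : ℝ) : D.σ θ ∈ closure D.Ω := by
  have h : Tendsto (fun t : ℝ => (t : ℂ) * D.σ θ) (𝓝[<] 1) (𝓝 (D.σ θ)) := by
    have := ((Complex.continuous_ofReal.tendsto 1).mul_const (D.σ θ))
    simpa using this.mono_left (nhdsWithin_le_nhds (s := Set.Iio 1))
  refine mem_closure_of_tendsto h ?_
  filter_upwards [self_mem_nhdsWithin, nhdsWithin_le_nhds (lt_mem_nhds (zero_lt_one (α := ℝ)))]
    with t ht ht0 using D.smul_σ_mem ht0.le ht θ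

lemma closure_Ω : closure D.Ω = {z | ‖z‖ ≤ D.rad z} := by
  apply Set.Subset.antisymm
  · refine closure_minimal (fun z hz => (D.mem_Ω.1 hz).le) ?_
    rw [← isOpen_compl_iff, isOpen_iff_mem_nhds]
    intro z hz
    rw [Set.mem_compl_iff, Set.mem_setOf_eq, not_le] at hz
    have h : z ≠ 0 := norm_pos_iff.1 ((D.rad_pos z).trans hz)
    filter_upwards [(D.continuousAt_rad h).eventually_lt continuous_norm.continuousAt hz]
      with w hw using not_le.2 hw
  · intro z hz
    rcases eq_or_lt_of_le (show ‖z‖ ≤ D.rad z from hz) with h | h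
    · have : z = D.σ z.arg := by
        conv_lhs => rw [D.eq_smul_σ_arg z, h, div_self (D.rad_pos z).ne']
        simp
      rw [this]; exact D.σ_mem_closure _
    · exact subset_closure h

theorem frontier_Ω : frontier D.Ω = Set.range D.σ := by
  rw [D.isOpen_Ω.frontier_eq, D.closure_Ω]
  ext z
  constructor
  · rintro ⟨h1, h2⟩
    have h : ‖z‖ = D.rad z := le_antisymm h1 (not_lt.1 h2)
    refine ⟨z.arg, ?_⟩
    conv_rhs => rw [D.eq_smul_σ_arg z, h, div_self (D.rad_pos z).ne']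
    simp
  · rintro ⟨θ, rfl⟩
    exact ⟨(D.norm_σ θ).le.trans (D.rad_σ θ).ge, D.σ_notMem θ⟩

lemma contDiff_σ : ContDiff ℝ 1 D.σ := by
  show ContDiff ℝ 1 (fun θ : ℝ => (D.radius θ : ℂ) * exp ((θ : ℂ) * I))
  exact (Complex.ofRealCLM.contDiff.comp D.contDiff).mul
    ((Complex.ofRealCLM.contDiff.mul contDiff_const).cexp)

lemma hasDerivAt_σ (θ : ℝ) : HasDerivAt D.σ (D.dσ θ) θ :=
  ((D.contDiff_σ.differentiable one_ne_zero) θ).hasDerivAt

lemma continuous_σ : Continuous D.σ := D.contDiff_σ.continuous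

lemma continuous_dσ : Continuous D.dσ := D.contDiff_σ.continuous_deriv le_rfl

lemma dσ_periodic : Function.Periodic D.dσ (2 * π) := fun θ => by
  show deriv D.σ (θ + 2 * π) = deriv D.σ θ
  rw [← deriv_comp_add_const, funext D.σ_periodic]

lemma dσ_eq (θ : ℝ) :
    D.dσ θ = ((deriv D.radius θ : ℝ) + (D.radius θ : ℂ) * I) * exp (θ * I) := by
  have h1 : HasDerivAt (fun t : ℝ => (D.radius t : ℂ)) ((deriv D.radius θ : ℝ) : ℂ) θ :=
    ((D.contDiff.differentiable one_ne_zero) θ).hasDerivAt.ofReal_comp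
  have h2 : HasDerivAt (fun t : ℝ => exp ((t : ℂ) * I)) (exp (θ * I) * I) θ := by
    simpa using (((hasDerivAt_id θ).ofReal_comp).mul_const I).cexp
  rw [(D.hasDerivAt_σ θ).unique (h1.mul h2)]
  ring

lemma im_conj_dσ_σ (θ : ℝ) : (conj (D.dσ θ) * D.σ θ).im = -D.radius θ ^ 2 := by
  rw [dσ_eq, σ, curveOf, map_mul, map_add, map_mul, Complex.conj_ofReal, Complex.conj_ofReal,
    Complex.conj_I]
  have h : conj (exp (θ * I)) * exp (θ * I) = 1 := by
    rw [← Complex.normSq_eq_conj_mul_self, Complex.normSq_eq_norm_sq, norm_exp_ofReal_mul_I]; norm_num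
  rw [show (((deriv D.radius θ : ℝ) : ℂ) + (D.radius θ : ℂ) * -I) * conj (exp (θ * I)) *
      ((D.radius θ : ℂ) * exp (θ * I)) =
      (((deriv D.radius θ : ℝ) : ℂ) + (D.radius θ : ℂ) * -I) * (D.radius θ : ℂ) *
        (conj (exp (θ * I)) * exp (θ * I)) by ring, h]
  simp; ring

lemma dσ_ne_zero (θ : ℝ) : D.dσ θ ≠ 0 := fun h => by
  have := D.im_conj_dσ_σ θ
  rw [h] at this
  simp at this
  exact (D.pos θ).ne' this

/-- B3. -/
theorem side {z : ℂ} (hz : z ∈ closure D.Ω) (θ : ℝ) :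
    0 ≤ (conj (D.dσ θ) * (z - D.σ θ)).im := by
  obtain ⟨ψ, hψ⟩ := geometric_hahn_banach_open_point D.convex D.isOpen_Ω (D.σ_notMem θ)
  have hle : ∀ w ∈ closure D.Ω, ψ w ≤ ψ (D.σ θ) := fun w hw =>
    closure_minimal (fun w hw => (hψ w hw).le) (isClosed_le ψ.continuous continuous_const) hw
  have hd : ψ (D.dσ θ) = 0 := by
    have h1 : HasDerivAt (fun t => ψ (D.σ t)) (ψ (D.dσ θ)) θ :=
      ψ.hasFDerivAt.comp_hasDerivAt θ (D.hasDerivAt_σ θ)
    refine IsLocalMax.hasDerivAt_eq_zero ?_ h1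
    exact Eventually.of_forall fun t => hle _ (D.σ_mem_closure t)
  set d := D.dσ θ
  -- `ψ` factors through the coordinate normal to `d`
  set c := ψ (I * d) / Complex.normSq d
  have hd2 : Complex.normSq d ≠ 0 := fun h => D.dσ_ne_zero θ (Complex.normSq_eq_zero.1 h)
  have hfac : ∀ w, ψ w = c * (conj d * w).im := by
    intro w
    have hw : w = ((conj d * w).re / Complex.normSq d) • d +
        ((conj d * w).im / Complex.normSq d) • (I * d) := by
      have : (conj d * w) * d = (Complex.normSq d : ℂ) * w := by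
        rw [Complex.normSq_eq_conj_mul_self]; ring
      have h2 := this.symm
      rw [← Complex.re_add_im (conj d * w)] at h2
      simp only [Complex.real_smul, Complex.ofReal_div]
      generalize conj d * w = q at h2 ⊢
      field_simp [Complex.ofReal_ne_zero.2 hd2]
      linear_combination h2
    conv_lhs => rw [hw]
    rw [map_add, map_smul, map_smul, hd]
    simp only [c, smul_eq_mul]; ring
  have hc : c < 0 := by
    have h0 := hψ 0 D.zero_mem_Ω
    rw [map_zero, hfac, D.im_conj_dσ_σ] at h0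
    nlinarith [pow_pos (D.pos θ) 2]
  have h := hle z hz
  rw [hfac, hfac (D.σ θ)] at h
  rw [mul_sub, Complex.sub_im]
  nlinarith

lemma smul_mem_Ω {z : ℂ} (hz : z ∈ closure D.Ω) {t : ℝ} (ht : 0 ≤ t) (ht1 : t < 1) :
    (t : ℂ) * z ∈ D.Ω := by
  rcases ht.eq_or_lt with rfl | ht
  · simpa using D.zero_mem_Ω
  rw [D.closure_Ω] at hz
  rw [mem_Ω, norm_mul, Complex.norm_real, Real.norm_of_nonneg ht.le, rad, Complex.arg_real_mul _ ht]
  calc t * ‖z‖ ≤ t * D.rad z := mul_le_mul_of_nonneg_left hz ht.le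
    _ < D.radius z.arg := mul_lt_of_lt_one_left (D.pos _) ht1

end Dom

end Vale.Agent.P123
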