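import Vale.Agent.P123.Boundary

/-! C1: the regularised Cauchy integral is continuous up to and across the boundary. -/

noncomputable section

namespace Vale.Agent.P123

open Complex MeasureTheory Filter Set
open scoped ComplexConjugate Real Topology

namespace Dom

variable (D : Dom)

lemma rad_lt_norm_smul_σ {r : ℝ} (hr : 1 < r) (s : ℝ) :
    D.rad ((r : ℂ) * D.σ s) < ‖(r : ℂ) * D.σ s‖ := by
  have h0 : 0 < r := zero_lt_one.trans hr
  rw [D.rad_smul_σ h0, norm_mul, D.norm_σ, Complex.norm_real, Real.norm_of_nonneg h0.le]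
  exact lt_mul_of_one_lt_left (D.pos s) hr

lemma smul_σ_mem_Ext {r : ℝ} (hr : 1 < r) (s : ℝ) : (r : ℂ) * D.σ s ∈ D.Ext := by
  rw [Ext, mem_compl_iff, D.closure_Ω]
  exact not_le.2 (D.rad_lt_norm_smul_σ hr s)

lemma smul_σ_mem_compl {r : ℝ} (hr : 1 ≤ r) (s : ℝ) : (r : ℂ) * D.σ s ∈ D.Ωᶜ := by
  rcases hr.eq_or_lt with h | h
  · subst h
    simpa using D.σ_notMem s
  · exact fun hmem => D.smul_σ_mem_Ext h s (subset_closure hmem)

lemma isOpen_Ext : IsOpen D.Ext := isClosed_closure.isOpen_compl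

lemma Ext_subset : D.Ext ⊆ D.Ωᶜ := compl_subset_compl.2 subset_closure

lemma σ_sub_ne_of_mem_Ext {z : ℂ} (hz : z ∈ D.Ext) (t : ℝ) : D.σ t - z ≠ 0 := fun h =>
  hz (by rw [← sub_eq_zero.1 h]; exact D.σ_mem_closure t)

lemma exists_eq_smul_σ {z : ℂ} (hz : z ∈ D.Ext) : ∃ r s : ℝ, 1 < r ∧ z = (r : ℂ) * D.σ s := by
  refine ⟨‖z‖ / D.rad z, z.arg, ?_, D.eq_smul_σ_arg z⟩
  rw [Ext, mem_compl_iff, D.closure_Ω] at hz
  exact (one_lt_div (D.rad_pos z)).2 (not_le.1 hz)

/-- Strict separation of an exterior point from the boundary by a tangent direction. -/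
lemma sep_pos {r : ℝ} (hr : 1 < r) (s t : ℝ) :
    0 < (conj (D.dσ s) * (D.σ t - (r : ℂ) * D.σ s)).im := by
  have h1 := D.side (D.σ_mem_closure t) s
  have h2 := D.im_conj_dσ_σ s
  have e : conj (D.dσ s) * (D.σ t - (r : ℂ) * D.σ s) =
      conj (D.dσ s) * (D.σ t - D.σ s) + ((1 - r : ℝ) : ℂ) * (conj (D.dσ s) * D.σ s) := by
    push_cast; ring
  rw [e, Complex.add_im, Complex.im_ofReal_mul, h2]
  nlinarith [pow_pos (D.pos s) 2]

/-- The winding number around an exterior point vanishes. -/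
lemma winding_outside {z : ℂ} (hz : z ∈ D.Ext) :
    ∫ t in (0 : ℝ)..(2 * π), D.dσ t / (D.σ t - z) = 0 := by
  obtain ⟨r, s, hr, rfl⟩ := D.exists_eq_smul_σ hz
  set k : ℂ := -I * conj (D.dσ s) with hk'
  have hk : k ≠ 0 := mul_ne_zero (neg_ne_zero.2 I_ne_zero) ((map_ne_zero _).2 (D.dσ_ne_zero s))
  have hmem : ∀ t, k * (D.σ t - (r : ℂ) * D.σ s) ∈ slitPlane := fun t => by
    refine Complex.mem_slitPlane_iff.2 (Or.inl ?_)
    have h := D.sep_pos hr s t
    rw [hk', mul_assoc, neg_mul, Complex.neg_re, Complex.mul_re, Complex.I_re, Complex.I_im]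
    linarith
  refine integral_deriv_eq_zero (g := fun t => Complex.log (k * (D.σ t - (r : ℂ) * D.σ s)))
    (fun t => ?_) (D.continuous_dσ.div₀ (D.continuous_σ.sub continuous_const)
      (D.σ_sub_ne_of_mem_Ext hz)) ?_
  · refine ((((D.hasDerivAt_σ t).sub_const _).const_mul k).clog_real (hmem t)).congr_deriv ?_
    rw [mul_div_mul_left _ _ hk]
  · have := D.σ_periodic 0
    rw [zero_add] at this
    simp [this]

lemma exists_gap : ∃ m : ℝ, 0 < m ∧ ∀ r : ℝ, 0 ≤ r → ∀ s t : ℝ,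
    |1 - r| * m ≤ ‖D.σ t - (r : ℂ) * D.σ s‖ := by
  obtain ⟨m, M, hm, hb⟩ := D.exists_radius_bounds
  refine ⟨m, hm, fun r hr s t => ?_⟩
  by_contra hlt
  push Not at hlt
  have key : ∀ {l : ℝ}, 0 ≤ l → l < 1 → ∀ {d : ℂ}, ‖d‖ < (1 - l) * m → ∀ a,
      d + (l : ℂ) * D.σ a ∈ D.Ω := by
    intro l hl hl1 d hd a
    have hl' : 0 < 1 - l := sub_pos.2 hl1
    have hw : ((1 - l)⁻¹ : ℝ) • d ∈ interior D.Ω := by
      rw [D.isOpen_Ω.interior_eq]
      show ‖((1 - l)⁻¹ : ℝ) • d‖ < D.radius _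
      refine lt_of_lt_of_le ?_ (hb _).1
      rw [norm_smul, Real.norm_of_nonneg (by positivity), ← div_eq_inv_mul, div_lt_iff₀ hl']
      linarith
    have hmem := D.convex.combo_interior_closure_mem_interior hw (D.σ_mem_closure a)
      hl' hl (sub_add_cancel 1 l)
    replace hmem : _ ∈ D.Ω := interior_subset hmem
    rwa [smul_smul, mul_inv_cancel₀ hl'.ne', one_smul, Complex.real_smul] at hmem
  rcases lt_trichotomy r 1 with h | h | h
  · rw [abs_of_pos (sub_pos.2 h)] at hlt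
    have := key hr h hlt s
    rw [sub_add_cancel] at this
    exact D.σ_notMem t this
  · subst h
    simp only [sub_self, abs_zero, zero_mul] at hlt
    exact absurd hlt (not_lt.2 (norm_nonneg _))
  · rw [abs_of_neg (sub_neg.2 h)] at hlt
    have hr0 : 0 < r := zero_lt_one.trans h
    have hd : ‖((r⁻¹ : ℝ) : ℂ) * ((r : ℂ) * D.σ s - D.σ t)‖ < (1 - r⁻¹) * m := by
      rw [norm_mul, Complex.norm_real, Real.norm_of_nonneg (inv_nonneg.2 hr0.le), norm_sub_rev,
        show (1 - r⁻¹) * m = r⁻¹ * ((r - 1) * m) by field_simp]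
      exact mul_lt_mul_of_pos_left (by linarith) (inv_pos.2 hr0)
    have := key (inv_nonneg.2 hr0.le) (inv_lt_one_of_one_lt₀ h) hd t
    rw [mul_sub, sub_add_cancel, ← mul_assoc, ← Complex.ofReal_mul, inv_mul_cancel₀ hr0.ne',
      Complex.ofReal_one, one_mul] at this
    exact D.σ_notMem s this

lemma exists_point_bound : ∃ C : ℝ, 0 ≤ C ∧ ∀ r : ℝ, 0 ≤ r → ∀ s t : ℝ,
    ‖D.σ t - D.σ s‖ ≤ C * ‖D.σ t - (r : ℂ) * D.σ s‖ := by
  obtain ⟨g, hg, hgap⟩ := D.exists_gap
  obtain ⟨m, M, hm, hb⟩ := D.exists_radius_bounds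
  have hM : 0 < M := hm.trans_le ((hb 0).1.trans (hb 0).2)
  refine ⟨1 + M / g, by positivity, fun r hr s t => ?_⟩
  have h1 : ‖(r : ℂ) * D.σ s - D.σ s‖ ≤ M / g * ‖D.σ t - (r : ℂ) * D.σ s‖ := by
    rw [show (r : ℂ) * D.σ s - D.σ s = ((r - 1 : ℝ) : ℂ) * D.σ s by push_cast; ring, norm_mul,
      Complex.norm_real, Real.norm_eq_abs, D.norm_σ, abs_sub_comm]
    calc |1 - r| * D.radius s ≤ |1 - r| * M := mul_le_mul_of_nonneg_left (hb _).2 (abs_nonneg _)
      _ = M / g * (|1 - r| * g) := by field_simp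
      _ ≤ _ := mul_le_mul_of_nonneg_left (hgap r hr s t) (by positivity)
  calc ‖D.σ t - D.σ s‖ ≤ ‖D.σ t - (r : ℂ) * D.σ s‖ + ‖(r : ℂ) * D.σ s - D.σ s‖ :=
        norm_sub_le_norm_sub_add_norm_sub _ _ _
    _ ≤ _ := by rw [add_mul, one_mul]; linarith

/-- A periodic Lipschitz function of the parameter is Lipschitz in the boundary point. -/
lemma exists_chord_bound {v : ℝ → ℂ} {L : NNReal} (hv : LipschitzWith L v)
    (hp : Function.Periodic v (2 * π)) :
    ∃ L' : ℝ, 0 ≤ L' ∧ ∀ s t, ‖v t - v s‖ ≤ L' * ‖D.σ t - D.σ s‖ := by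
  obtain ⟨m, M, hm, hb⟩ := D.exists_radius_bounds
  refine ⟨L * (π / (2 * m)), by positivity, fun s t => ?_⟩
  obtain ⟨n, hn⟩ : ∃ n : ℤ, |t - s - n * (2 * π)| ≤ π := by
    refine ⟨⌊(t - s + π) / (2 * π)⌋, ?_⟩
    have hp' : (0:ℝ) < 2 * π := by positivity
    have h1 := Int.floor_le ((t - s + π) / (2 * π))
    have h2 := Int.lt_floor_add_one ((t - s + π) / (2 * π))
    rw [le_div_iff₀ hp'] at h1
    rw [div_lt_iff₀ hp'] at h2
    exact abs_le.2 ⟨by linarith, by linarith⟩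
  set u := t - s - n * (2 * π) with hu
  have hvt : v t = v (s + u) := by rw [hu, show s + (t - s - (n:ℝ) * (2 * π)) = t - (n:ℝ) * (2 * π) by ring, hp.sub_int_mul_eq]
  have hσt : D.σ t = D.σ (s + u) := by
    rw [hu, show s + (t - s - (n:ℝ) * (2 * π)) = t - (n:ℝ) * (2 * π) by ring,
      D.σ_periodic.sub_int_mul_eq]
  have hv' : ‖v (s + u) - v s‖ ≤ L * |u| := by
    simpa [Real.dist_eq] using hv.norm_sub_le (s + u) s
  have hsq : ‖D.σ (s + u) - D.σ s‖ ^ 2 = (D.radius (s + u) - D.radius s) ^ 2 +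
      2 * D.radius (s + u) * D.radius s * (1 - Real.cos u) := by
    rw [← Complex.normSq_eq_norm_sq, Complex.normSq_apply]
    simp only [σ, curveOf, Complex.sub_re, Complex.sub_im, Complex.re_ofReal_mul,
      Complex.im_ofReal_mul, Complex.exp_ofReal_mul_I_re, Complex.exp_ofReal_mul_I_im]
    have hc : Real.cos u =
        Real.cos (s + u) * Real.cos s + Real.sin (s + u) * Real.sin s := by
      rw [← Real.cos_sub, add_sub_cancel_left]
    rw [hc]
    have h1 := Real.cos_sq_add_sin_sq s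
    have h2 := Real.cos_sq_add_sin_sq (s + u)
    linear_combination D.radius (s + u) ^ 2 * h2 + D.radius s ^ 2 * h1
  have hlow : (2 * m / π * |u|) ^ 2 ≤ ‖D.σ (s + u) - D.σ s‖ ^ 2 := by
    have hcos := Real.cos_le_one_sub_mul_cos_sq (x := u) hn
    have hmm : m * m ≤ D.radius (s + u) * D.radius s :=
      mul_le_mul (hb _).1 (hb _).1 hm.le (D.pos _).le
    have h3 : 2 / π ^ 2 * u ^ 2 ≤ 1 - Real.cos u := by linarith
    have h4 := mul_le_mul hmm h3 (by positivity) (mul_nonneg (D.pos _).le (D.pos _).le)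
    rw [hsq, mul_pow, sq_abs, div_pow]
    calc (2 * m) ^ 2 / π ^ 2 * u ^ 2 = 2 * (m * m * (2 / π ^ 2 * u ^ 2)) := by ring
      _ ≤ _ := by nlinarith [sq_nonneg (D.radius (s + u) - D.radius s)]
  have hlow' := (pow_le_pow_iff_left₀ (by positivity) (norm_nonneg _) two_ne_zero).1 hlow
  rw [hvt, hσt]
  calc ‖v (s + u) - v s‖ ≤ L * |u| := hv'
    _ = L * (π / (2 * m)) * (2 * m / π * |u|) := by field_simp
    _ ≤ _ := mul_le_mul_of_nonneg_left hlow' (by positivity)

/-- The integrand of `jump` is dominated uniformly in the parameters. -/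
lemma exists_jump_bound {v : ℝ → ℂ} {L : NNReal} (hv : LipschitzWith L v)
    (hp : Function.Periodic v (2 * π)) :
    ∃ B : ℝ, 0 ≤ B ∧ ∀ r : ℝ, 0 ≤ r → ∀ s t : ℝ,
      ‖(v t - v s) * (D.dσ t / (D.σ t - (r : ℂ) * D.σ s))‖ ≤ B * ‖D.dσ t‖ := by
  obtain ⟨C, hC, hCb⟩ := D.exists_point_bound
  obtain ⟨L', hL', hLb⟩ := D.exists_chord_bound hv hp
  refine ⟨L' * C, by positivity, fun r hr s t => ?_⟩
  rcases eq_or_ne (D.σ t - (r : ℂ) * D.σ s) 0 with h0 | h0
  · rw [h0, div_zero, mul_zero, norm_zero]; positivity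
  rw [norm_mul, norm_div]
  calc ‖v t - v s‖ * (‖D.dσ t‖ / ‖D.σ t - (r : ℂ) * D.σ s‖)
      ≤ (L' * (C * ‖D.σ t - (r : ℂ) * D.σ s‖)) * (‖D.dσ t‖ / ‖D.σ t - (r : ℂ) * D.σ s‖) :=
        mul_le_mul_of_nonneg_right
          ((hLb s t).trans (mul_le_mul_of_nonneg_left (hCb r hr s t) hL')) (by positivity)
    _ = _ := by
      have := norm_ne_zero_iff.2 h0
      field_simp

lemma jump_integrand_aestronglyMeasurable {v : ℝ → ℂ} (hv : Continuous v) (z c : ℂ) :
    AEStronglyMeasurable (fun t => (v t - c) * (D.dσ t / (D.σ t - z)))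
      (volume.restrict (uIoc 0 (2 * π))) :=
  ((hv.sub continuous_const).measurable.mul
    (D.continuous_dσ.measurable.div (D.continuous_σ.sub continuous_const).measurable)).aestronglyMeasurable

lemma jump_integrable' {v : ℝ → ℂ} {L : NNReal} (hv : LipschitzWith L v)
    (hp : Function.Periodic v (2 * π)) {r : ℝ} (hr : 0 ≤ r) (s : ℝ) :
    IntervalIntegrable (fun t => (v t - v s) * (D.dσ t / (D.σ t - (r : ℂ) * D.σ s)))
      volume 0 (2 * π) := by
  obtain ⟨B, -, hBb⟩ := D.exists_jump_bound hv hp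
  exact ((continuous_const.mul D.continuous_dσ.norm).intervalIntegrable _ _).mono_fun'
    (g := fun t => B * ‖D.dσ t‖) (D.jump_integrand_aestronglyMeasurable hv.continuous _ _)
    (ae_of_all _ fun t => hBb r hr s t)

/-- C1''': the case `r = 1`. -/
theorem jump_integrable {v : ℝ → ℂ} {L : NNReal} (hv : LipschitzWith L v)
    (hp : Function.Periodic v (2 * π)) (s : ℝ) :
    IntervalIntegrable (fun t => (v t - v s) * (D.dσ t / (D.σ t - ((1 : ℝ) : ℂ) * D.σ s)))
      volume 0 (2 * π) :=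
  D.jump_integrable' hv hp zero_le_one s

/-- C1. -/
theorem jump_continuousOn {v : ℝ → ℂ} {L : NNReal} (hv : LipschitzWith L v)
    (hp : Function.Periodic v (2 * π)) :
    ContinuousOn (fun q : ℝ × ℝ => D.jump v q.1 q.2) (Icc (1 / 2) 2 ×ˢ univ) := by
  obtain ⟨B, -, hBb⟩ := D.exists_jump_bound hv hp
  intro q₀ hq₀
  refine continuousWithinAt_const.mul ?_
  refine intervalIntegral.continuousWithinAt_of_dominated_interval
    (bound := fun t => B * ‖D.dσ t‖)
    (Eventually.of_forall fun q => D.jump_integrand_aestronglyMeasurable hv.continuous _ _) ?_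
    ((continuous_const.mul D.continuous_dσ.norm).intervalIntegrable _ _) ?_
  · filter_upwards [self_mem_nhdsWithin] with q hq using
      ae_of_all _ fun t _ => hBb q.1 (by linarith [hq.1.1]) q.2 t
  · have hnull : volume {t : ℝ | D.σ t = (q₀.1 : ℂ) * D.σ q₀.2} = 0 := by
      refine Set.Countable.measure_zero ?_ _
      by_cases hex : ∃ a, D.σ a = (q₀.1 : ℂ) * D.σ q₀.2
      · obtain ⟨a, ha⟩ := hex
        refine (Set.countable_range fun n : ℤ => a + 2 * π * n).mono fun t ht => ?_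
        obtain ⟨n, hn⟩ := D.σ_inj (ht.trans ha.symm)
        exact ⟨n, by show a + 2 * π * n = t; linarith⟩
      · exact (Set.countable_empty).mono fun t ht => hex ⟨t, ht⟩
    filter_upwards [compl_mem_ae_iff.2 hnull] with t ht _
    have hne : D.σ t - (q₀.1 : ℂ) * D.σ q₀.2 ≠ 0 := sub_ne_zero.2 ht
    exact ((continuous_const.sub (hv.continuous.comp continuous_snd)).continuousAt.mul
      (continuousAt_const.div (continuous_const.sub ((Complex.continuous_ofReal.comp continuous_fst).mul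
        (D.continuous_σ.comp continuous_snd))).continuousAt hne)).continuousWithinAt

/-- C1'. -/
theorem cauchyP_eq_add_jump {v : ℝ → ℂ} (hv : Continuous v) {r : ℝ} (hr : 0 ≤ r) (hr1 : r < 1)
    (s : ℝ) : D.cauchyP v ((r : ℂ) * D.σ s) = v s + D.jump v r s := by
  have hz := D.smul_σ_mem hr hr1 s
  have hk : Continuous fun t => D.dσ t / (D.σ t - (r : ℂ) * D.σ s) :=
    D.continuous_dσ.div₀ (D.continuous_σ.sub continuous_const) (D.σ_sub_ne hz)
  have i1 : IntervalIntegrable (fun t => v t * (D.dσ t / (D.σ t - (r : ℂ) * D.σ s))) volume 0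
      (2 * π) := (hv.mul hk).intervalIntegrable _ _
  have i2 : IntervalIntegrable (fun t => v s * (D.dσ t / (D.σ t - (r : ℂ) * D.σ s))) volume 0
      (2 * π) := (continuous_const.mul hk).intervalIntegrable _ _
  simp only [cauchyP, jump, sub_mul]
  rw [intervalIntegral.integral_sub i1 i2, intervalIntegral.integral_const_mul, D.winding hz]
  have : (2 * π * I : ℂ) ≠ 0 := by simp [Real.pi_ne_zero, Complex.I_ne_zero]
  field_simp
  ring

/-- C1''. -/
theorem cauchyP_eq_jump {v : ℝ → ℂ} (hv : Continuous v) {r : ℝ} (hr1 : 1 < r) (s : ℝ) :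
    D.cauchyP v ((r : ℂ) * D.σ s) = D.jump v r s := by
  have hz := D.smul_σ_mem_Ext hr1 s
  have hk : Continuous fun t => D.dσ t / (D.σ t - (r : ℂ) * D.σ s) :=
    D.continuous_dσ.div₀ (D.continuous_σ.sub continuous_const) (D.σ_sub_ne_of_mem_Ext hz)
  have i1 : IntervalIntegrable (fun t => v t * (D.dσ t / (D.σ t - (r : ℂ) * D.σ s))) volume 0
      (2 * π) := (hv.mul hk).intervalIntegrable _ _
  have i2 : IntervalIntegrable (fun t => v s * (D.dσ t / (D.σ t - (r : ℂ) * D.σ s))) volume 0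
      (2 * π) := (continuous_const.mul hk).intervalIntegrable _ _
  simp only [cauchyP, jump, sub_mul]
  rw [intervalIntegral.integral_sub i1 i2, intervalIntegral.integral_const_mul,
    D.winding_outside hz, mul_zero, sub_zero]

end Dom

end Vale.Agent.P123
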