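import Vale.Agent.P123.Jump

/-! C5: the exterior potential gradient of the invariant density. -/

noncomputable section

namespace Vale.Agent.P123

open Complex MeasureTheory Filter Set
open scoped ComplexConjugate Real Topology

namespace Dom

variable (D : Dom)

lemma isClosed_range_σ : IsClosed (Set.range D.σ) :=
  (D.σ_periodic.compact_of_continuous (by positivity) D.continuous_σ).isClosed

lemma differentiableOn_cauchyP {v : ℝ → ℂ} (hv : Continuous v) :
    DifferentiableOn ℂ (D.cauchyP v) (Set.range D.σ)ᶜ := by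
  intro z hz
  obtain ⟨r, hr, hrU⟩ := Metric.isOpen_iff.1 D.isClosed_range_σ.isOpen_compl z hz
  have hsub : Metric.closedBall z (r / 2) ⊆ (Set.range D.σ)ᶜ :=
    (Metric.closedBall_subset_ball (half_lt_self hr)).trans hrU
  have hne : ∀ q ∈ Metric.closedBall z (r / 2), ∀ t, D.σ t - q ≠ 0 := fun q hq t h =>
    hsub hq ⟨t, sub_eq_zero.1 h⟩
  have hF' : ContinuousOn (fun q : ℂ × ℝ => v q.2 * D.dσ q.2 / (D.σ q.2 - q.1) ^ 2)
      (Metric.closedBall z (r / 2) ×ˢ univ) :=
    ((hv.comp continuous_snd).mul (D.continuous_dσ.comp continuous_snd)).continuousOn.div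
      (((D.continuous_σ.comp continuous_snd).sub continuous_fst).pow 2).continuousOn
      fun q hq => pow_ne_zero 2 (hne _ hq.1 _)
  obtain ⟨B, hB⟩ := ((isCompact_closedBall z (r / 2)).prod
    (isCompact_uIcc (a := (0:ℝ)) (b := 2 * π))).exists_bound_of_continuousOn
      (hF'.mono (Set.prod_mono_right (subset_univ _)))
  have hzm := Metric.mem_closedBall_self (x := z) (half_pos hr).le
  have key := (intervalIntegral.hasDerivAt_integral_of_dominated_loc_of_deriv_le (𝕜 := ℂ) (μ := volume)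
    (a := (0:ℝ)) (b := 2 * π)
    (F := fun q t => v t * (D.dσ t / (D.σ t - q)))
    (F' := fun q t => v t * D.dσ t / (D.σ t - q) ^ 2) (bound := fun _ => B)
    (x₀ := z) (Metric.closedBall_mem_nhds z (half_pos hr))
    (by
      filter_upwards [Metric.closedBall_mem_nhds z (half_pos hr)] with q hq
      exact (hv.mul (D.continuous_dσ.div₀ (D.continuous_σ.sub continuous_const)
        (hne q hq))).aestronglyMeasurable)
    ((hv.mul (D.continuous_dσ.div₀ (D.continuous_σ.sub continuous_const)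
      (hne z hzm))).intervalIntegrable _ _)
    (((hv.mul D.continuous_dσ).div₀ ((D.continuous_σ.sub continuous_const).pow 2)
      fun t => pow_ne_zero 2 (hne z hzm t)).aestronglyMeasurable)
    (ae_of_all _ fun t ht q hq => hB (q, t) ⟨hq, uIoc_subset_uIcc ht⟩)
    (by simp)
    (ae_of_all _ fun t _ q hq => by
      have hi : HasDerivAt (fun q : ℂ => D.σ t - q) (-1) q := (hasDerivAt_id q).const_sub _
      refine (((hi.fun_inv (hne q hq t)).const_mul (D.dσ t)).const_mul (v t)).congr_deriv ?_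
      ring)).2.const_mul ((2 * π * I : ℂ)⁻¹)
  exact key.differentiableAt.differentiableWithinAt

lemma jump_periodic {v : ℝ → ℂ} (hp : Function.Periodic v (2 * π)) (r : ℝ) :
    Function.Periodic (D.jump v r) (2 * π) := fun s => by
  simp only [jump, hp s, D.σ_periodic s]

lemma arg_σ_angle (t : ℝ) : ((D.σ t).arg : Real.Angle) = (t : Real.Angle) := by
  simpa using D.arg_smul_σ one_pos t

lemma angle_exp (a : ℝ) : ((exp (a * I)).arg : Real.Angle) = (a : Real.Angle) := by
  rw [show exp (a * I) = Real.Angle.toCircle (a : Real.Angle) by simp,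
    Real.Angle.arg_toCircle]

/-- A primitive of `fun z => ∫ p / (σ - z)` on the region. -/
lemma exists_primitive {p : ℝ → ℝ} (hpc : Continuous p) :
    ∃ L : ℂ → ℂ, ∀ z ∈ D.Ω,
      HasDerivAt L (D.cauchyP (fun t => (p t : ℂ) / D.dσ t) z) z := by
  refine ⟨fun z => (2 * π * I)⁻¹ *
    ∫ t in (0 : ℝ)..(2 * π), (p t : ℂ) * -Complex.log (1 - z / D.σ t), fun z hz => ?_⟩
  obtain ⟨r, hr, hrU⟩ := Metric.isOpen_iff.1 D.isOpen_Ω z hz
  have hsub : Metric.closedBall z (r / 2) ⊆ D.Ω :=
    (Metric.closedBall_subset_ball (half_lt_self hr)).trans hrU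
  have hne : ∀ q ∈ Metric.closedBall z (r / 2), ∀ t, D.σ t - q ≠ 0 := fun q hq =>
    D.σ_sub_ne (hsub hq)
  have hslit : ∀ q ∈ Metric.closedBall z (r / 2), ∀ t, 1 - q / D.σ t ∈ slitPlane := by
    intro q hq t
    rw [Complex.mem_slitPlane_iff]
    by_contra hcon
    push Not at hcon
    obtain ⟨hre, him⟩ := hcon
    rw [Complex.sub_re, Complex.one_re] at hre
    rw [Complex.sub_im, Complex.one_im] at him
    have hx : q = (((q / D.σ t).re : ℝ) : ℂ) * D.σ t := by
      rw [show (((q / D.σ t).re : ℝ) : ℂ) = q / D.σ t from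
        Complex.ext (by simp) (by rw [Complex.ofReal_im]; linarith), div_mul_cancel₀ _ (D.σ_ne_zero t)]
    exact D.smul_σ_mem_compl (show 1 ≤ (q / D.σ t).re by linarith) t (hx ▸ hsub hq)
  have hpc' : Continuous fun t => (p t : ℂ) := Complex.continuous_ofReal.comp hpc
  have hF' : ContinuousOn (fun q : ℂ × ℝ => (p q.2 : ℂ) / (D.σ q.2 - q.1))
      (Metric.closedBall z (r / 2) ×ˢ univ) :=
    (hpc'.comp continuous_snd).continuousOn.div
      ((D.continuous_σ.comp continuous_snd).sub continuous_fst).continuousOn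
      fun q hq => hne _ hq.1 _
  obtain ⟨B, hB⟩ := ((isCompact_closedBall z (r / 2)).prod
    (isCompact_uIcc (a := (0:ℝ)) (b := 2 * π))).exists_bound_of_continuousOn
      (hF'.mono (Set.prod_mono_right (subset_univ _)))
  have hzm := Metric.mem_closedBall_self (x := z) (half_pos hr).le
  have hFc : ∀ q ∈ Metric.closedBall z (r / 2),
      Continuous fun t => (p t : ℂ) * -Complex.log (1 - q / D.σ t) := fun q hq =>
    hpc'.mul ((continuous_const.sub (continuous_const.div₀ D.continuous_σ D.σ_ne_zero)).clog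
      (hslit q hq)).neg
  have key := (intervalIntegral.hasDerivAt_integral_of_dominated_loc_of_deriv_le (𝕜 := ℂ) (μ := volume)
    (a := (0:ℝ)) (b := 2 * π)
    (F := fun q t => (p t : ℂ) * -Complex.log (1 - q / D.σ t))
    (F' := fun q t => (p t : ℂ) / (D.σ t - q)) (bound := fun _ => B)
    (x₀ := z) (Metric.closedBall_mem_nhds z (half_pos hr))
    (by
      filter_upwards [Metric.closedBall_mem_nhds z (half_pos hr)] with q hq
      exact (hFc q hq).aestronglyMeasurable)
    ((hFc z hzm).intervalIntegrable _ _)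
    ((hpc'.div₀ (D.continuous_σ.sub continuous_const) (hne z hzm)).aestronglyMeasurable)
    (ae_of_all _ fun t ht q hq => hB (q, t) ⟨hq, uIoc_subset_uIcc ht⟩)
    (by simp)
    (ae_of_all _ fun t _ q hq => by
      refine ((((hasDerivAt_id q).div_const (D.σ t)).const_sub 1).clog (hslit q hq t)).neg.const_mul
        (p t : ℂ) |>.congr_deriv ?_
      have := D.σ_ne_zero t
      have h2 := hne q hq t
      have h3 : (1 : ℂ) - q / D.σ t = (D.σ t - q) / D.σ t := by field_simp
      simp only [id] at *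
      rw [h3]
      field_simp)).2.const_mul ((2 * π * I : ℂ)⁻¹)
  refine key.congr_deriv ?_
  rw [cauchyP]
  congr 1
  refine intervalIntegral.integral_congr fun t _ => ?_
  have := D.dσ_ne_zero t
  field_simp

/-- The interior boundary values `h` of the Cauchy transform of `p / dσ` satisfy `re (dσ * h) = 0`
when `p` is invariant. -/
lemma re_dσ_mul_boundary {p : ℝ → ℝ}
    (hper : Function.Periodic (fun t => (p t : ℂ) / D.dσ t) (2 * π))
    (hfix : ∀ s, ∫ t in (0 : ℝ)..(2 * π), p t * D.kernel t s = p s)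
    {L : NNReal} (hv : LipschitzWith L fun t => (p t : ℂ) / D.dσ t) (s : ℝ) :
    (D.dσ s * ((p s : ℂ) / D.dσ s + D.jump (fun t => (p t : ℂ) / D.dσ t) 1 s)).re = 0 := by
  set X : ℝ → ℂ := fun t => ((p t : ℂ) / D.dσ t - (p s : ℂ) / D.dσ s) *
    (D.dσ t / (D.σ t - ((1 : ℝ) : ℂ) * D.σ s))
  have hX : IntervalIntegrable (fun t => D.dσ s * X t) volume 0 (2 * π) :=
    (D.jump_integrable hv hper s).const_mul _
  have him : ∀ t, (D.dσ s * X t).im =
      -π * (p t * D.kernel t s + p s * D.kernel s t) := by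
    intro t
    have h1 := D.dσ_ne_zero t
    have h2 := D.dσ_ne_zero s
    have e : D.dσ s * X t = (p t : ℂ) * (D.dσ s / (D.σ t - D.σ s)) -
        (p s : ℂ) * (D.dσ t / (D.σ t - D.σ s)) := by
      simp only [X, Complex.ofReal_one, one_mul, div_eq_mul_inv]
      generalize (D.σ t - D.σ s)⁻¹ = w
      field_simp
    have e2 : D.dσ s / (D.σ s - D.σ t) = -(D.dσ s / (D.σ t - D.σ s)) := by
      rw [← div_neg, neg_sub]
    rw [e, Complex.sub_im, Complex.im_ofReal_mul, Complex.im_ofReal_mul, kernel, kernel, e2,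
      Complex.neg_im]
    field_simp
    ring
  have hXi : IntervalIntegrable (fun t => (D.dσ s * X t).im) volume 0 (2 * π) :=
    ⟨hX.1.im, hX.2.im⟩
  have hk1 : IntervalIntegrable (fun t => p s * D.kernel s t) volume 0 (2 * π) :=
    (D.kernel_integrable s).const_mul _
  have hk2 : IntervalIntegrable (fun t => p t * D.kernel t s) volume 0 (2 * π) := by
    have h := (hXi.const_mul (-π⁻¹)).sub hk1
    refine h.congr fun t _ => ?_
    simp only [him]
    field_simp
    ring
  have hI : (∫ t in (0 : ℝ)..(2 * π), D.dσ s * X t).im = -π * (p s + p s) := by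
    rw [show (∫ t in (0 : ℝ)..(2 * π), D.dσ s * X t).im =
        Complex.imCLM (∫ t in (0 : ℝ)..(2 * π), D.dσ s * X t) from rfl,
      ← Complex.imCLM.intervalIntegral_comp_comm hX]
    simp only [Complex.imCLM_apply, him]
    rw [intervalIntegral.integral_const_mul, intervalIntegral.integral_add hk2 hk1, hfix,
      intervalIntegral.integral_const_mul, D.kernel_integral, mul_one]
  have e3 : D.dσ s * ((p s : ℂ) / D.dσ s + D.jump (fun t => (p t : ℂ) / D.dσ t) 1 s) =
      (p s : ℂ) + (2 * π * I)⁻¹ * ∫ t in (0 : ℝ)..(2 * π), D.dσ s * X t := by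
    rw [intervalIntegral.integral_const_mul, jump, mul_add, mul_div_cancel₀ _ (D.dσ_ne_zero s)]
    simp only [X]
    ring
  rw [e3, Complex.add_re, Complex.ofReal_re, Complex.mul_re, hI]
  have h1 : ((2 * π * I : ℂ)⁻¹).re = 0 := by simp
  have h2 : ((2 * π * I : ℂ)⁻¹).im = -(1 / (2 * π)) := by
    simp [Complex.inv_im, Complex.normSq_apply]
  rw [h1, h2]
  field_simp
  ring

/-- The Cauchy transform of the invariant density vanishes inside. -/
lemma cauchyP_density_eq_zero {p : ℝ → ℝ} (hpc : Continuous p)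
    (hper : Function.Periodic (fun t => (p t : ℂ) / D.dσ t) (2 * π))
    (hfix : ∀ s, ∫ t in (0 : ℝ)..(2 * π), p t * D.kernel t s = p s)
    {L : NNReal} (hv : LipschitzWith L fun t => (p t : ℂ) / D.dσ t) {z : ℂ} (hz : z ∈ D.Ω) :
    D.cauchyP (fun t => (p t : ℂ) / D.dσ t) z = 0 := by
  set v : ℝ → ℂ := fun t => (p t : ℂ) / D.dσ t with hvdef
  obtain ⟨P, hP⟩ := D.exists_primitive hpc
  set H : ℝ × ℝ → ℝ := fun q => ((q.1 : ℂ) * D.dσ q.2 * (v q.2 + D.jump v q.1 q.2)).re with hHdef
  have hH : ContinuousOn H (Icc (1 / 2) 1 ×ˢ Icc 0 (2 * π)) := by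
    refine Complex.continuous_re.comp_continuousOn ?_
    refine ((Complex.continuous_ofReal.comp continuous_fst).mul
      (D.continuous_dσ.comp continuous_snd)).continuousOn.mul
      ((hv.continuous.comp continuous_snd).continuousOn.add ?_)
    exact (D.jump_continuousOn hv hper).mono
      (Set.prod_mono (Icc_subset_Icc le_rfl one_le_two) (subset_univ _))
  have hH1 : ∀ s, H (1, s) = 0 := fun s => by
    simpa [hHdef, hvdef] using D.re_dσ_mul_boundary hper hfix hv s
  have hconst : ∀ w ∈ D.Ω, (P w).re = (P 0).re := by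
    intro w hw
    refine eq_of_forall_dist_le fun ε' hε' => ?_
    set ε := ε' / (4 * π) with hε_def
    have hε : 0 < ε := by positivity
    obtain ⟨δ, hδ, hδH⟩ := Metric.uniformContinuousOn_iff.1
      ((isCompact_Icc.prod isCompact_Icc).uniformContinuousOn_of_continuous hH) ε hε
    obtain ⟨r, ⟨hr0, hr1⟩, hrw⟩ : ∃ r : ℝ, r ∈ Ioo (max (1 / 2) (1 - δ)) 1 ∧
        ((r⁻¹ : ℝ) : ℂ) * w ∈ D.Ω := by
      have ht : Tendsto (fun r : ℝ => ((r⁻¹ : ℝ) : ℂ) * w) (𝓝[<] 1) (𝓝 w) := by
        have := (((Complex.continuous_ofReal.tendsto _).comp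
          ((continuousAt_inv₀ (one_ne_zero (α := ℝ))).tendsto)).mul_const w)
        simpa using this.mono_left (nhdsWithin_le_nhds (s := Iio 1))
      have h1 : max (1 / 2) (1 - δ) < 1 := max_lt (by norm_num) (by linarith)
      exact ((Filter.eventually_of_mem (Ioo_mem_nhdsLT h1) fun _ h => h).and (ht.eventually (D.isOpen_Ω.mem_nhds hw)) : ∀ᶠ r in 𝓝[<] (1:ℝ),
        r ∈ Ioo (max (1 / 2) (1 - δ)) 1 ∧ ((r⁻¹ : ℝ) : ℂ) * w ∈ D.Ω).exists
    have hr2 : 1 / 2 < r := (le_max_left _ _).trans_lt hr0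
    have hr3 : 1 - δ < r := (le_max_right _ _).trans_lt hr0
    have hrpos : 0 < r := by linarith
    set u : ℝ → ℝ := fun s => (P ((r : ℂ) * D.σ s)).re
    have hu : ∀ s, HasDerivAt u (H (r, s)) s := by
      intro s
      have h1 := (hP _ (D.smul_σ_mem hrpos.le hr1 s)).comp s ((D.hasDerivAt_σ s).const_mul (r : ℂ))
      refine (Complex.reCLM.hasFDerivAt.comp_hasDerivAt s h1).congr_deriv ?_
      rw [Complex.reCLM_apply, D.cauchyP_eq_add_jump hv.continuous hrpos.le hr1]
      simp only [hHdef]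
      ring_nf
    have hbd : ∀ s ∈ Icc (0:ℝ) (2 * π), ‖H (r, s)‖ ≤ ε := by
      intro s hs
      have := hδH (r, s) ⟨⟨hr2.le, hr1.le⟩, hs⟩ (1, s) ⟨⟨by norm_num, le_rfl⟩, hs⟩ (by
        rw [Prod.dist_eq, dist_self, Real.dist_eq, abs_of_neg (by linarith : r - 1 < 0)]
        exact max_lt (by linarith) hδ)
      rw [hH1, dist_zero_right] at this
      exact this.le
    have hosc : ∀ θ, |u θ - u 0| ≤ ε * (2 * π) := by
      intro θ
      have hper' : Function.Periodic u (2 * π) := fun x => by simp only [u, D.σ_periodic x]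
      obtain ⟨y, hy, hθy⟩ := hper'.exists_mem_Ico₀ Real.two_pi_pos θ
      rw [hθy, ← Real.norm_eq_abs]
      refine ((convex_Icc (0:ℝ) (2 * π)).norm_image_sub_le_of_norm_hasDerivWithin_le
        (fun x _ => (hu x).hasDerivWithinAt) hbd (left_mem_Icc.2 Real.two_pi_pos.le)
        (Ico_subset_Icc_self hy)).trans ?_
      rw [sub_zero, Real.norm_of_nonneg hy.1]
      exact mul_le_mul_of_nonneg_left hy.2.le hε.le
    have hmax : ∀ a : ℝ, |a| = 1 → ∀ x ∈ closure D.Ω,
        a * ((P ((r : ℂ) * x)).re - u 0) ≤ ε * (2 * π) := by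
      intro a ha x hx
      set e : ℂ → ℂ := fun x => Complex.exp ((a : ℂ) * (P ((r : ℂ) * x) - (u 0 : ℂ)))
      have hPc : ∀ x ∈ closure D.Ω, DifferentiableAt ℂ (fun x => P ((r : ℂ) * x)) x := fun x hx =>
        ((hP _ (D.smul_mem_Ω hx hrpos.le hr1)).differentiableAt).comp x
          (differentiableAt_id.const_mul (r : ℂ))
      have he : DifferentiableOn ℂ e (closure D.Ω) := fun x hx =>
        ((((hPc x hx).sub_const _).const_mul (a : ℂ)).cexp).differentiableWithinAt
      have hen : ∀ x, ‖e x‖ = Real.exp (a * ((P ((r : ℂ) * x)).re - u 0)) := fun x => by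
        simp only [e, Complex.norm_exp, Complex.re_ofReal_mul, Complex.sub_re, Complex.ofReal_re]
      have := Complex.norm_le_of_forall_mem_frontier_norm_le D.isBounded_Ω
        (f := e) (C := Real.exp (ε * (2 * π))) ⟨he.mono subset_closure, he.continuousOn⟩
        (fun y hy => by
          rw [D.frontier_Ω] at hy
          obtain ⟨θ, rfl⟩ := hy
          rw [hen, Real.exp_le_exp]
          calc a * ((P ((r : ℂ) * D.σ θ)).re - u 0) ≤ |a * (u θ - u 0)| := le_abs_self _
            _ = |u θ - u 0| := by rw [abs_mul, ha, one_mul]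
            _ ≤ _ := hosc θ) hx
      rwa [hen, Real.exp_le_exp] at this
    have hb : ∀ x ∈ closure D.Ω, |(P ((r : ℂ) * x)).re - u 0| ≤ ε * (2 * π) := fun x hx =>
      abs_le.2 ⟨by linarith [hmax (-1) (by norm_num) x hx], by linarith [hmax 1 (by norm_num) x hx]⟩
    have hw' := hb _ (subset_closure hrw)
    rw [← mul_assoc, ← Complex.ofReal_mul, mul_inv_cancel₀ hrpos.ne', Complex.ofReal_one,
      one_mul] at hw'
    have h0 := hb 0 (subset_closure D.zero_mem_Ω)
    rw [mul_zero] at h0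
    rw [Real.dist_eq]
    calc |(P w).re - (P 0).re| ≤ |(P w).re - u 0| + |u 0 - (P 0).re| := abs_sub_le _ _ _
      _ ≤ ε * (2 * π) + ε * (2 * π) := add_le_add hw' (by rwa [abs_sub_comm])
      _ = ε' := by rw [hε_def]; field_simp; ring
  have hzero : ∀ a : ℂ, (a * D.cauchyP v z).re = 0 := by
    intro a
    have hline : HasDerivAt (fun t : ℝ => z + (t : ℂ) * a) a 0 := by
      simpa using (((hasDerivAt_id (0:ℝ)).ofReal_comp).mul_const a).const_add z
    have h1 := (hP z hz).comp_of_eq 0 hline (by simp)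
    have h2 := Complex.reCLM.hasFDerivAt.comp_hasDerivAt (0:ℝ) h1
    have h3 : HasDerivAt (fun t : ℝ => (P (z + (t : ℂ) * a)).re) 0 0 := by
      refine (hasDerivAt_const (0:ℝ) (P 0).re).congr_of_eventuallyEq ?_
      have : Tendsto (fun t : ℝ => z + (t : ℂ) * a) (𝓝 0) (𝓝 z) := by
        simpa using hline.continuousAt.tendsto
      filter_upwards [this.eventually (D.isOpen_Ω.mem_nhds hz)] with t ht using hconst _ ht
    have := h2.unique h3
    rwa [Complex.reCLM_apply, mul_comm] at this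
  refine Complex.ext (by simpa using hzero 1) ?_
  simpa using hzero I

lemma compl_cases {z : ℂ} (hz : z ∈ D.Ωᶜ) : z ∈ D.Ext ∨ z ∈ Set.range D.σ := by
  by_cases h : z ∈ closure D.Ω
  · exact Or.inr (by rw [← D.frontier_Ω, D.isOpen_Ω.frontier_eq]; exact ⟨h, hz⟩)
  · exact Or.inl h

/-- Exterior values of the Cauchy transform, extended to the boundary. -/
def extPot (v : ℝ → ℂ) (z : ℂ) : ℂ := -D.jump v (‖z‖ / D.rad z) z.arg

lemma extPot_eq {v : ℝ → ℂ} (hv : Continuous v) {z : ℂ} (hz : z ∈ D.Ext) :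
    D.extPot v z = -D.cauchyP v z := by
  have h1 : 1 < ‖z‖ / D.rad z := by
    rw [Ext, mem_compl_iff, D.closure_Ω] at hz
    exact (one_lt_div (D.rad_pos z)).2 (not_le.1 hz)
  conv_rhs => rw [D.eq_smul_σ_arg z, D.cauchyP_eq_jump hv h1]
  rfl

lemma differentiableOn_extPot {v : ℝ → ℂ} (hv : Continuous v) :
    DifferentiableOn ℂ (D.extPot v) D.Ext := by
  refine DifferentiableOn.congr ((D.differentiableOn_cauchyP hv).neg.mono ?_)
    fun z hz => D.extPot_eq hv hz
  rintro z hz ⟨t, rfl⟩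
  exact hz (D.σ_mem_closure t)

lemma continuousOn_extPot {v : ℝ → ℂ} {L' : NNReal} (hv : LipschitzWith L' v)
    (hvp : Function.Periodic v (2 * π)) : ContinuousOn (D.extPot v) D.Ωᶜ := by
  intro z₀ hz₀
  rcases D.compl_cases hz₀ with h | ⟨a, rfl⟩
  · exact ((D.differentiableOn_extPot hv.continuous).differentiableAt (D.isOpen_Ext.mem_nhds h)).continuousAt.continuousWithinAt
  set α : ℂ → ℝ := fun z => (z * exp ((-a : ℝ) * I)).arg + a
  have he : D.σ a * exp ((-a : ℝ) * I) = (D.radius a : ℂ) := by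
    rw [σ, curveOf, mul_assoc, ← Complex.exp_add]
    push_cast
    simp
  have hα : ContinuousAt α (D.σ a) := by
    refine (ContinuousAt.comp (g := Complex.arg) ?_ (continuousAt_id.mul continuousAt_const)).add
      continuousAt_const
    refine Complex.continuousAt_arg ?_
    show D.σ a * exp ((-a : ℝ) * I) ∈ slitPlane
    rw [he]
    exact Complex.mem_slitPlane_iff.2 (Or.inl (by simpa using D.pos a))
  have hρ : ContinuousAt (fun z => ‖z‖ / D.rad z) (D.σ a) :=
    continuous_norm.continuousAt.div (D.continuousAt_rad (D.σ_ne_zero a)) (D.rad_pos _).ne'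
  have h2 : ∀ᶠ z in 𝓝[D.Ωᶜ] (D.σ a), ‖z‖ / D.rad z ∈ Icc (1 / 2 : ℝ) 2 := by
    have h1 : ‖D.σ a‖ / D.rad (D.σ a) < 2 := by
      rw [D.norm_σ, D.rad_σ, div_self (D.pos a).ne']; norm_num
    filter_upwards [self_mem_nhdsWithin,
      nhdsWithin_le_nhds (hρ.eventually (Iio_mem_nhds h1))] with z hz hz2
    refine ⟨?_, le_of_lt hz2⟩
    have hge : D.rad z ≤ ‖z‖ := not_lt.1 hz
    linarith [(one_le_div (D.rad_pos z)).2 hge]
  have hcomp : ContinuousWithinAt (fun z => -D.jump v (‖z‖ / D.rad z) (α z)) D.Ωᶜ (D.σ a) := by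
    refine ContinuousWithinAt.neg ?_
    have hin : (‖D.σ a‖ / D.rad (D.σ a), α (D.σ a)) ∈ Icc (1 / 2 : ℝ) 2 ×ˢ (univ : Set ℝ) := by
      refine ⟨?_, trivial⟩
      show ‖D.σ a‖ / D.rad (D.σ a) ∈ Icc (1 / 2 : ℝ) 2
      rw [D.norm_σ, D.rad_σ, div_self (D.pos a).ne']
      norm_num
    exact (((D.jump_continuousOn hv hvp) _ hin).tendsto).comp (f := fun z => (‖z‖ / D.rad z, α z))
      (tendsto_nhdsWithin_iff.2 ⟨(hρ.prodMk hα).continuousWithinAt.tendsto,
        h2.mono fun z hz => ⟨hz, trivial⟩⟩)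
  have heq : ∀ z, z ≠ 0 → D.extPot v z = -D.jump v (‖z‖ / D.rad z) (α z) := by
    intro z hz
    have h3 : ((α z : ℝ) : Real.Angle) = (z.arg : Real.Angle) := by
      simp only [α, Real.Angle.coe_add, Complex.arg_mul_coe_angle hz (exp_ne_zero _), angle_exp,
        Real.Angle.coe_neg, add_assoc, neg_add_cancel, add_zero]
    simp only [extPot]
    rw [← Function.Periodic.lift_coe (D.jump_periodic hvp _) (α z),
      ← Function.Periodic.lift_coe (D.jump_periodic hvp _) z.arg]
    exact congrArg (fun x => -((D.jump_periodic hvp _).lift x)) h3.symm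
  refine hcomp.congr (fun z hz => heq z ?_) (heq _ (D.σ_ne_zero a))
  rintro rfl
  exact hz D.zero_mem_Ω


lemma tendsto_extPot {p : ℝ → ℝ} (hpc : Continuous p)
    (hmass : (∫ t in (0 : ℝ)..(2 * π), p t) = 1)
    (hv : Continuous fun t => (p t : ℂ) / D.dσ t) :
    Tendsto (fun z => z * D.extPot (fun t => (p t : ℂ) / D.dσ t) z) (Bornology.cobounded ℂ)
      (𝓝 ((2 * π * I : ℂ)⁻¹)) := by
  obtain ⟨m, M, hm, hb⟩ := D.exists_radius_bounds
  obtain ⟨B, hB⟩ := (isCompact_uIcc (a := (0:ℝ)) (b := 2 * π)).exists_bound_of_continuousOn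
    ((Complex.continuous_ofReal.comp hpc).mul D.continuous_σ).continuousOn
  have hev : ∀ᶠ z : ℂ in Bornology.cobounded ℂ, M < ‖z‖ :=
    (tendsto_norm_cobounded_atTop (E := ℂ)).eventually_gt_atTop M
  have hmem : ∀ z : ℂ, M < ‖z‖ → z ∈ D.Ext := fun z hz h => by
    rw [D.closure_Ω] at h
    exact absurd (h.trans (hb _).2) (not_le.2 hz)
  have e : ∀ z : ℂ, M < ‖z‖ → z * D.extPot (fun t => (p t : ℂ) / D.dσ t) z - (2 * π * I : ℂ)⁻¹ =
      -(2 * π * I : ℂ)⁻¹ * ∫ t in (0 : ℝ)..(2 * π), (p t : ℂ) * D.σ t / (D.σ t - z) := by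
    intro z hz
    have hne := D.σ_sub_ne_of_mem_Ext (hmem z hz)
    have hc1 : Continuous fun t => (p t : ℂ) / D.dσ t * (D.dσ t / (D.σ t - z)) :=
      hv.mul (D.continuous_dσ.div₀ (D.continuous_σ.sub continuous_const) hne)
    rw [D.extPot_eq hv (hmem z hz), cauchyP]
    have hm1 : (2 * π * I : ℂ)⁻¹ =
        (2 * π * I : ℂ)⁻¹ * ∫ t in (0 : ℝ)..(2 * π), (p t : ℂ) := by
      rw [intervalIntegral.integral_ofReal, hmass, Complex.ofReal_one, mul_one]
    have e2 : ∫ t in (0 : ℝ)..(2 * π), (p t : ℂ) * D.σ t / (D.σ t - z) =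
        z * (∫ t in (0 : ℝ)..(2 * π), (p t : ℂ) / D.dσ t * (D.dσ t / (D.σ t - z))) +
          ∫ t in (0 : ℝ)..(2 * π), (p t : ℂ) := by
      have i1 : IntervalIntegrable (fun t => z * ((p t : ℂ) / D.dσ t * (D.dσ t / (D.σ t - z)))) volume 0
          (2 * π) := (continuous_const.mul hc1).intervalIntegrable _ _
      have i2 : IntervalIntegrable (fun t => (p t : ℂ)) volume 0 (2 * π) :=
        (Complex.continuous_ofReal.comp hpc).intervalIntegrable _ _
      rw [← intervalIntegral.integral_const_mul, ← intervalIntegral.integral_add i1 i2]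
      refine intervalIntegral.integral_congr fun t _ => ?_
      have := hne t
      have := D.dσ_ne_zero t
      field_simp
      ring
    rw [e2]
    linear_combination -hm1
  rw [tendsto_iff_norm_sub_tendsto_zero]
  refine squeeze_zero' (Eventually.of_forall fun _ => norm_nonneg _)
    (g := fun z : ℂ => ‖(2 * π * I : ℂ)⁻¹‖ * (|B| * |2 * π - 0|) * (‖z‖ - M)⁻¹) ?_ ?_
  · filter_upwards [hev] with z hz
    rw [e z hz, norm_mul, norm_neg]
    refine le_trans (mul_le_mul_of_nonneg_left ?_ (norm_nonneg _))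
      (le_of_eq (mul_assoc ‖(2 * π * I : ℂ)⁻¹‖ (|B| * |2 * π - 0|) (‖z‖ - M)⁻¹).symm)
    refine (intervalIntegral.norm_integral_le_of_norm_le_const (C := |B| / (‖z‖ - M))
      fun t ht => ?_).trans (le_of_eq (by ring))
    rw [norm_div]
    refine div_le_div₀ (abs_nonneg _) ((hB t (uIoc_subset_uIcc ht)).trans (le_abs_self _))
      (sub_pos.2 hz) ?_
    calc ‖z‖ - M ≤ ‖z‖ - ‖D.σ t‖ := by rw [D.norm_σ]; linarith [(hb t).2]
      _ ≤ ‖z - D.σ t‖ := norm_sub_norm_le _ _
      _ = ‖D.σ t - z‖ := norm_sub_rev _ _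
  · have := (tendsto_inv_atTop_zero.comp (tendsto_atTop_add_const_right _ (-M)
      (tendsto_norm_cobounded_atTop (E := ℂ)))).const_mul
      (‖(2 * π * I : ℂ)⁻¹‖ * (|B| * |2 * π - 0|))
    rw [mul_zero] at this
    exact this.congr fun z => by simp [sub_eq_add_neg]


lemma cauchyP_density_ne_zero {p : ℝ → ℝ} (hpc : Continuous p) (hpos : ∀ t, 0 < p t)
    {z : ℂ} (h : z ∈ D.Ext) : D.cauchyP (fun t => (p t : ℂ) / D.dσ t) z ≠ 0 := by
  obtain ⟨r, s, hr, rfl⟩ := D.exists_eq_smul_σ h
  set q : ℝ → ℂ := fun t => conj (D.dσ s) * (D.σ t - (r : ℂ) * D.σ s) with hq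
  have hqpos : ∀ t, 0 < (q t).im := D.sep_pos hr s
  have hqne : ∀ t, q t ≠ 0 := fun t h0 => by
    have := hqpos t; rw [h0] at this; simp at this
  have hqc : Continuous fun t => (p t : ℂ) / q t :=
    (Complex.continuous_ofReal.comp hpc).div₀
      (continuous_const.mul (D.continuous_σ.sub continuous_const)) hqne
  have hneg : (∫ t in (0 : ℝ)..(2 * π), (p t : ℂ) / q t).im < 0 := by
    rw [show (∫ t in (0 : ℝ)..(2 * π), (p t : ℂ) / q t).im =
        Complex.imCLM (∫ t in (0 : ℝ)..(2 * π), (p t : ℂ) / q t) from rfl,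
      ← Complex.imCLM.intervalIntegral_comp_comm (hqc.intervalIntegrable _ _), ← neg_pos,
      ← intervalIntegral.integral_neg]
    refine intervalIntegral.intervalIntegral_pos_of_pos
      ((Complex.continuous_im.comp hqc).neg.intervalIntegrable _ _) (fun t => ?_) Real.two_pi_pos
    simp only [Complex.imCLM_apply, Complex.div_im, Complex.ofReal_re, Complex.ofReal_im,
      zero_mul, zero_div, zero_sub, neg_neg]
    exact div_pos (mul_pos (hpos t) (hqpos t)) (Complex.normSq_pos.2 (hqne t))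
  have heq : ∫ t in (0 : ℝ)..(2 * π), (p t : ℂ) / D.dσ t * (D.dσ t / (D.σ t - (r : ℂ) * D.σ s)) =
      conj (D.dσ s) * ∫ t in (0 : ℝ)..(2 * π), (p t : ℂ) / q t := by
    rw [← intervalIntegral.integral_const_mul]
    refine intervalIntegral.integral_congr fun t _ => ?_
    have := D.dσ_ne_zero t
    have hc' : conj (D.dσ s) ≠ 0 := (map_ne_zero _).2 (D.dσ_ne_zero s)
    have := D.σ_sub_ne_of_mem_Ext h t
    simp only [hq]
    field_simp
  rw [cauchyP, heq]
  refine mul_ne_zero (by simp [Real.pi_ne_zero, Complex.I_ne_zero])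
    (mul_ne_zero ((map_ne_zero _).2 (D.dσ_ne_zero s)) fun h0 => ?_)
  rw [h0] at hneg
  simp at hneg


/-- C5: the exterior potential gradient of the invariant density. -/
theorem exists_psi {p : ℝ → ℝ} {L : NNReal} (hper : Function.Periodic p (2 * π))
    (hL : LipschitzWith L p) (hpos : ∀ t, 0 < p t) (hmass : (∫ t in (0 : ℝ)..(2 * π), p t) = 1)
    (hfix : ∀ s, ∫ t in (0 : ℝ)..(2 * π), p t * D.kernel t s = p s)
    (hv : ∃ L' : NNReal, LipschitzWith L' fun t => (p t : ℂ) / D.dσ t) :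
    ∃ Ψ : ℂ → ℂ, D.ExtFun Ψ (2 * π * I)⁻¹ ∧ (∀ z ∈ D.Ωᶜ, Ψ z ≠ 0) ∧
      ∀ t, D.dσ t * Ψ (D.σ t) = p t := by
  obtain ⟨L', hv⟩ := hv
  have hpc := hL.continuous
  set v : ℝ → ℂ := fun t => (p t : ℂ) / D.dσ t with hvdef
  have hvp : Function.Periodic v (2 * π) := fun t => by simp only [hvdef, hper t, D.dσ_periodic t]
  -- the interior boundary value vanishes
  have hh : ∀ s, D.jump v 1 s = -v s := by
    intro s
    have hc : ContinuousOn (fun r : ℝ => v s + D.jump v r s) (Icc (1 / 2) 1) :=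
      continuousOn_const.add ((D.jump_continuousOn hv hvp).comp
        (f := fun r : ℝ => (r, s)) (continuous_id.prodMk continuous_const).continuousOn
        fun r hr => ⟨⟨hr.1, hr.2.trans one_le_two⟩, trivial⟩)
    have ht : Tendsto (fun r : ℝ => v s + D.jump v r s) (𝓝[<] 1) (𝓝 (v s + D.jump v 1 s)) :=
      (hc 1 (right_mem_Icc.2 (by norm_num))).mono_of_mem_nhdsWithin
        (Icc_mem_nhdsLT (by norm_num : (1:ℝ) / 2 < 1))
    have h0 : v s + D.jump v 1 s = 0 := by
      refine tendsto_nhds_unique ht (tendsto_const_nhds.congr' ?_)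
      filter_upwards [Ioo_mem_nhdsLT (zero_lt_one (α := ℝ))] with r hr
      rw [← D.cauchyP_eq_add_jump hv.continuous hr.1.le hr.2,
        D.cauchyP_density_eq_zero hpc hvp hfix hv (D.smul_σ_mem hr.1.le hr.2 s)]
    exact eq_neg_of_add_eq_zero_right h0
  have hbd : ∀ t, D.extPot v (D.σ t) = v t := by
    intro t
    have h1 : ‖D.σ t‖ / D.rad (D.σ t) = 1 := by
      rw [D.norm_σ, D.rad_σ, div_self (D.pos t).ne']
    simp only [extPot, h1, hh, neg_neg]
    rw [← Function.Periodic.lift_coe hvp (D.σ t).arg, ← Function.Periodic.lift_coe hvp t]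
    exact congrArg hvp.lift (D.arg_σ_angle t)
  refine ⟨D.extPot v, ⟨D.differentiableOn_extPot hv.continuous, D.continuousOn_extPot hv hvp,
    D.tendsto_extPot hpc hmass hv.continuous⟩, fun z hz => ?_, fun t => ?_⟩
  · rcases D.compl_cases hz with h | ⟨t, rfl⟩
    · rw [D.extPot_eq hv.continuous h, neg_ne_zero]
      exact D.cauchyP_density_ne_zero hpc hpos h
    · rw [hbd]
      exact div_ne_zero (Complex.ofReal_ne_zero.2 (hpos t).ne') (D.dσ_ne_zero t)
  · rw [hbd]
    exact mul_div_cancel₀ _ (D.dσ_ne_zero t)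

end Dom

end Vale.Agent.P123
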