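import Mathlib

/-! The numerical range in finite dimension and reduction to finite dimension. -/

noncomputable section

namespace Vale.Agent.P123

open Complex Filter Set Polynomial
open scoped ComplexConjugate InnerProductSpace Topology

variable {E : Type*} [NormedAddCommGroup E] [InnerProductSpace ℂ E]

local instance : NormedSpace ℝ E := NormedSpace.restrictScalars ℝ ℂ E

/-- The numerical range. -/
def numRange (B : E →L[ℂ] E) : Set ℂ := {z | ∃ v : E, ‖v‖ = 1 ∧ inner ℂ v (B v) = z}

lemma inner_self_one {v : E} (hv : ‖v‖ = 1) : inner ℂ v v = (1 : ℂ) := by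
  rw [inner_self_eq_norm_sq_to_K, hv]; simp

lemma numRange_isCompact [FiniteDimensional ℂ E] (B : E →L[ℂ] E) : IsCompact (numRange B) := by
  have : ProperSpace E := FiniteDimensional.proper ℂ E
  have h : numRange B = (fun v => inner ℂ v (B v)) '' Metric.sphere (0 : E) 1 := by
    ext z; simp [numRange]
  rw [h]
  exact (isCompact_sphere _ _).image (continuous_id.inner (𝕜 := ℂ) B.continuous)

lemma inner_mem_smul {B : E →L[ℂ] E} {u : E} (hu : u ≠ 0) :
    ∃ w ∈ numRange B, inner ℂ u (B u) = ((‖u‖ ^ 2 : ℝ) : ℂ) * w := by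
  set v : E := ((‖u‖⁻¹ : ℝ) : ℂ) • u
  have hn : ‖u‖ ≠ 0 := norm_ne_zero_iff.2 hu
  refine ⟨_, ⟨v, ?_, rfl⟩, ?_⟩
  · simp [v, norm_smul, hn]
  · simp only [v, map_smul, inner_smul_left, inner_smul_right, Complex.conj_ofReal]
    have : (‖u‖ : ℂ) ≠ 0 := Complex.ofReal_ne_zero.2 hn
    push_cast
    field_simp

/-- Toeplitz–Hausdorff. -/
theorem numRange_convex (B : E →L[ℂ] E) : Convex ℝ (numRange B) := by
  rintro a ⟨u, hu, rfl⟩ b ⟨v, hv, rfl⟩ α β hα hβ hab
  set a := inner ℂ u (B u)
  set b := inner ℂ v (B v)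
  rcases eq_or_ne a b with h | h
  · exact ⟨u, hu, by rw [← h, ← add_smul, hab, one_smul]⟩
  have hba : b - a ≠ 0 := sub_ne_zero.2 (Ne.symm h)
  set k := (b - a)⁻¹
  -- the normalised form
  set Φ : E → E → ℂ := fun s t => k * (inner ℂ s (B t) - a * inner ℂ s t)
  have hΦu : Φ u u = 0 := by
    show k * (a - a * inner ℂ u u) = 0
    rw [inner_self_one hu]; ring
  have hΦv : Φ v v = 1 := by
    show k * (b - a * inner ℂ v v) = 1
    rw [inner_self_one hv, mul_one, inv_mul_cancel₀ hba]
  set p := Φ u v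
  set q := Φ v u
  obtain ⟨e, he, heim⟩ : ∃ e : ℂ, conj e * e = 1 ∧ (e * p + conj e * q).im = 0 := by
    rcases eq_or_ne (p - conj q) 0 with hd | hd
    · refine ⟨1, by simp, ?_⟩
      have hp : p = conj q := sub_eq_zero.1 hd
      simp [hp]
    · set d := p - conj q with hddef
      have hn : (‖d‖ : ℂ) ≠ 0 := Complex.ofReal_ne_zero.2 (norm_ne_zero_iff.2 hd)
      refine ⟨conj d / (‖d‖ : ℂ), ?_, ?_⟩
      · rw [map_div₀, Complex.conj_conj, Complex.conj_ofReal, div_mul_div_comm, Complex.mul_conj']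
        field_simp
      · rw [map_div₀, Complex.conj_conj, Complex.conj_ofReal, div_mul_eq_mul_div, div_mul_eq_mul_div,
          ← add_div, Complex.div_ofReal_im]
        have : (conj d * p + d * q).im = 0 := by
          simp only [hddef, map_sub, Complex.conj_conj, Complex.add_im, Complex.mul_im,
            Complex.sub_re, Complex.sub_im, Complex.conj_re, Complex.conj_im]
          ring
        rw [this, zero_div]
  set w : ℝ → E := fun s => ((1 - s : ℝ) : ℂ) • u + ((s : ℝ) : ℂ) • (e • v)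
  have hene : e ≠ 0 := fun h0 => by simp [h0] at he
  have hwne : ∀ s, w s ≠ 0 := by
    intro s hs
    rcases eq_or_ne s 0 with rfl | hs0
    · have h1 : u = 0 := by simpa [w] using hs
      simp [h1] at hu
    · set lam : ℂ := -((1 - s : ℝ) : ℂ) / (((s : ℝ) : ℂ) * e)
      have hse : ((s : ℝ) : ℂ) * e ≠ 0 := mul_ne_zero (Complex.ofReal_ne_zero.2 hs0) hene
      have hvu : v = lam • u := by
        apply smul_right_injective E hse
        show (((s : ℝ) : ℂ) * e) • v = (((s : ℝ) : ℂ) * e) • (lam • u)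
        rw [smul_smul, mul_div_cancel₀ _ hse, mul_smul, neg_smul, eq_neg_iff_add_eq_zero, add_comm]
        exact hs
      have hl : conj lam * lam = 1 := by
        have h1 : ‖lam‖ = 1 := by
          have h2 : ‖lam • u‖ = 1 := by rw [← hvu]; exact hv
          rwa [norm_smul, hu, mul_one] at h2
        rw [Complex.conj_mul', h1]; simp
      apply h
      show inner ℂ u (B u) = inner ℂ v (B v)
      rw [hvu, map_smul, inner_smul_left, inner_smul_right, ← mul_assoc, hl, one_mul]
  have hN : ∀ s, Φ (w s) (w s) =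
      ((s : ℝ) : ℂ) * ((1 - s : ℝ) : ℂ) * (e * p + conj e * q) + ((s : ℝ) : ℂ) ^ 2 := by
    intro s
    have expand : Φ (w s) (w s) = ((1 - s : ℝ) : ℂ) ^ 2 * Φ u u +
        ((1 - s : ℝ) : ℂ) * ((s : ℝ) : ℂ) * (e * p + conj e * q) +
        ((s : ℝ) : ℂ) ^ 2 * (conj e * e) * Φ v v := by
      simp only [Φ, p, q, w, map_add, map_smul, inner_add_left, inner_add_right, inner_smul_left,
        inner_smul_right, Complex.conj_ofReal]
      ring
    rw [expand, hΦu, hΦv, he]; ring
  set φ : ℝ → ℝ := fun s => (Φ (w s) (w s)).re / ‖w s‖ ^ 2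
  have hwc : Continuous w :=
    ((Complex.continuous_ofReal.comp (continuous_const.sub continuous_id)).smul continuous_const).add
      (Complex.continuous_ofReal.smul continuous_const)
  have hφc : Continuous φ := by
    refine (Complex.continuous_re.comp ?_).div (hwc.norm.pow 2) fun s =>
      pow_ne_zero 2 (norm_ne_zero_iff.2 (hwne s))
    exact continuous_const.mul ((hwc.inner (𝕜 := ℂ) (B.continuous.comp hwc)).sub
      (continuous_const.mul (hwc.inner (𝕜 := ℂ) hwc)))
  have hne' : ‖e‖ = 1 := by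
    have h2 : (‖e‖ : ℂ) ^ 2 = 1 := by rw [← Complex.conj_mul']; exact he
    have h3 : ‖e‖ ^ 2 = 1 := by exact_mod_cast h2
    nlinarith [norm_nonneg e]
  have h0 : φ 0 = 0 := by simp [φ, hN]
  have h1 : φ 1 = 1 := by
    have : ‖w 1‖ = 1 := by simp [w, norm_smul, hne', hv]
    simp [φ, hN, this]
  have hβm : β ∈ Icc (φ 0) (φ 1) := by rw [h0, h1]; exact ⟨hβ, by linarith⟩
  obtain ⟨s, -, hs⟩ := intermediate_value_Icc zero_le_one hφc.continuousOn hβm
  have hreal : Φ (w s) (w s) = (((Φ (w s) (w s)).re : ℝ) : ℂ) :=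
    Complex.ext rfl (by simp [hN, Complex.mul_im, heim, pow_two])
  obtain ⟨z, hz, hzw⟩ := inner_mem_smul (B := B) (hwne s)
  have hnn : ((‖w s‖ ^ 2 : ℝ) : ℂ) ≠ 0 :=
    Complex.ofReal_ne_zero.2 (pow_ne_zero 2 (norm_ne_zero_iff.2 (hwne s)))
  have key : k * (z - a) = (β : ℂ) := by
    rw [← hs]
    show k * (z - a) = (((Φ (w s) (w s)).re / ‖w s‖ ^ 2 : ℝ) : ℂ)
    rw [Complex.ofReal_div, ← hreal, eq_div_iff hnn]
    simp only [Φ, hzw, inner_self_eq_norm_sq_to_K]
    push_cast
    simp
    ring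
  have hza : z = α • a + β • b := by
    have hα' : (α : ℂ) = 1 - (β : ℂ) := by
      rw [← Complex.ofReal_one, ← Complex.ofReal_sub]; congr 1; linarith
    rw [Complex.real_smul, Complex.real_smul, hα']
    have : z - a = (b - a) * (β : ℂ) := by rw [← key]; simp only [k]; field_simp
    linear_combination this
  rwa [← hza]

/-- It suffices to treat finite dimension: compress to a Krylov space. -/
lemma exists_compression (A : E →L[ℂ] E) (P : ℂ[X]) (x : E) :
    ∃ (V : Submodule ℂ E) (_ : FiniteDimensional ℂ V) (B : V →L[ℂ] V) (x' : V),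
      (x' : E) = x ∧ ((aeval B P x' : V) : E) = aeval A P x ∧
        ∀ v : V, inner ℂ v (B v) = inner ℂ (v : E) (A v) := by
  classical
  set d := P.natDegree
  set V : Submodule ℂ E :=
    Submodule.span ℂ ((Finset.range (d + 1)).image fun k => (A ^ k) x : Finset E)
  have hfd : FiniteDimensional ℂ V := FiniteDimensional.span_finset ℂ _
  have hmem : ∀ k ≤ d, (A ^ k) x ∈ V := fun k hk =>
    Submodule.subset_span (Finset.mem_image.2 ⟨k, Finset.mem_range.2 (by omega), rfl⟩)
  set B : V →L[ℂ] V := V.orthogonalProjectionOnto ∘L (A ∘L V.subtypeL)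
  set x' : V := ⟨x, by simpa using hmem 0 (Nat.zero_le _)⟩
  have hpow : ∀ k ≤ d, (((B ^ k) x' : V) : E) = (A ^ k) x := by
    intro k
    induction k with
    | zero => intro _; simp [x']
    | succ k ih =>
      intro hk
      have hk' := ih (by omega)
      rw [pow_succ', pow_succ', mul_apply_eq_comp, mul_apply_eq_comp]
      show ((V.orthogonalProjectionOnto (A ((B ^ k) x' : E)) : V) : E) = _
      rw [hk']
      have hm : A ((A ^ k) x) ∈ V := by
        rw [← mul_apply_eq_comp, ← pow_succ']; exact hmem (k + 1) hk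
      exact congrArg _ (V.orthogonalProjectionOnto_mem_subspace_eq_self ⟨_, hm⟩)
  refine ⟨V, hfd, B, x', rfl, ?_, fun v => ?_⟩
  · rw [aeval_eq_sum_range, aeval_eq_sum_range]
    simp only [FunLike.coe_sum, Finset.sum_apply, FunLike.coe_smul, Pi.smul_apply,
      AddSubmonoidClass.coe_finsetSum, Submodule.coe_smul]
    exact Finset.sum_congr rfl fun k hk => by
      rw [hpow k (Nat.lt_succ_iff.1 (Finset.mem_range.1 hk))]
  · exact (V.inner_orthogonalProjectionOnto_eq_of_mem_left v (A v))

end Vale.Agent.P123
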