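import Vale.Agent.P123.Weighted
import Vale.Agent.P123.Range

/-! Resolvent boundary functions and the constant `2` in finite dimension. -/

noncomputable section

namespace Vale.Agent.P123

open Complex MeasureTheory Filter Set Polynomial
open scoped ComplexConjugate Real Topology InnerProductSpace

variable {E : Type*} [NormedAddCommGroup E] [InnerProductSpace ℂ E]

/-- The shifted operator `z - B`. -/
def shift (B : E →L[ℂ] E) (z : ℂ) : E →L[ℂ] E := z • 1 - B

/-- The resolvent. -/
def res (B : E →L[ℂ] E) (z : ℂ) : E →L[ℂ] E := Ring.inverse (shift B z)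

/-- The scalar resolvent functions, divided by `2πi`. -/
def phi (B : E →L[ℂ] E) (b a : E) (z : ℂ) : ℂ := (2 * π * I)⁻¹ * inner ℂ b (res B z a)

lemma shift_apply (B : E →L[ℂ] E) (z : ℂ) (v : E) : shift B z v = z • v - B v := by
  simp [shift]

/-- The set where the resolvent exists. -/
def resSet (B : E →L[ℂ] E) : Set ℂ := {z | IsUnit (shift B z)}

lemma isUnit_shift [FiniteDimensional ℂ E] {B : E →L[ℂ] E} {z : ℂ} (hz : z ∉ numRange B) :
    IsUnit (shift B z) := by
  have : CompleteSpace E := FiniteDimensional.complete ℂ E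
  rw [ContinuousLinearMap.isUnit_iff_bijective]
  have hinj : Function.Injective (shift B z) := by
    refine (injective_iff_map_eq_zero _).2 fun v hv => by_contra fun h0 => ?_
    obtain ⟨w, hw, hwv⟩ := inner_mem_smul (B := B) h0
    rw [shift_apply, sub_eq_zero] at hv
    rw [← hv, inner_smul_right, inner_self_eq_norm_sq_to_K, mul_comm] at hwv
    have hn : ((‖v‖ ^ 2 : ℝ) : ℂ) ≠ 0 :=
      Complex.ofReal_ne_zero.2 (pow_ne_zero 2 (norm_ne_zero_iff.2 h0))
    apply hz
    have h1 : z = w := mul_left_cancel₀ hn (by rw [← hwv]; simp)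
    rwa [h1]
  exact ⟨hinj, (shift B z : E →ₗ[ℂ] E).injective_iff_surjective.1 hinj⟩

lemma isOpen_resSet [CompleteSpace E] (B : E →L[ℂ] E) : IsOpen (resSet B) :=
  Units.isOpen.preimage (by unfold shift; fun_prop)

lemma differentiableOn_phi [CompleteSpace E] (B : E →L[ℂ] E) (b a : E) :
    DifferentiableOn ℂ (phi B b a) (resSet B) := by
  intro z hz
  have h1 : DifferentiableAt ℂ (res B) z :=
    (differentiableAt_inverse hz).comp z ((differentiableAt_id.smul_const _).sub_const B)
  have h2 : DifferentiableAt ℂ (fun w => (innerSL ℂ b) (res B w a)) z :=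
    (innerSL ℂ b).differentiableAt.comp z
      ((ContinuousLinearMap.apply ℂ E a).differentiableAt.comp z h1)
  exact ((h2.const_mul (2 * π * I : ℂ)⁻¹).congr_of_eventuallyEq
    (Eventually.of_forall fun w => by simp [phi])).differentiableWithinAt

lemma tendsto_phi [CompleteSpace E] (B : E →L[ℂ] E) (b a : E) :
    Tendsto (fun z => z * phi B b a z) (Bornology.cobounded ℂ)
      (𝓝 ((2 * π * I)⁻¹ * inner ℂ b a)) := by
  have h0 : Tendsto (fun z : ℂ => (1 : E →L[ℂ] E) - z⁻¹ • B) (Bornology.cobounded ℂ) (𝓝 1) := by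
    have := (tendsto_inv₀_cobounded (α := ℂ)).smul_const B
    rw [zero_smul] at this
    simpa using this.const_sub (1 : E →L[ℂ] E)
  have h1 : Tendsto (fun z : ℂ => Ring.inverse ((1 : E →L[ℂ] E) - z⁻¹ • B)) (Bornology.cobounded ℂ)
      (𝓝 1) := by
    have := (NormedRing.inverse_continuousAt (1 : (E →L[ℂ] E)ˣ)).tendsto.comp
      (show Tendsto _ _ (𝓝 ((1 : (E →L[ℂ] E)ˣ) : E →L[ℂ] E)) by simpa using h0)
    simpa [Function.comp_def] using this
  have h2 : Tendsto (fun z : ℂ => (2 * π * I : ℂ)⁻¹ *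
      inner ℂ b (Ring.inverse ((1 : E →L[ℂ] E) - z⁻¹ • B) a)) (Bornology.cobounded ℂ)
      (𝓝 ((2 * π * I)⁻¹ * inner ℂ b ((1 : E →L[ℂ] E) a))) :=
    ((Continuous.tendsto (by fun_prop : Continuous fun T : E →L[ℂ] E => inner ℂ b (T a)) _).comp
      h1).const_mul _
  rw [one_apply_eq_self] at h2
  refine h2.congr' ?_
  filter_upwards [Bornology.isBounded_def.1 (Bornology.isBounded_singleton (x := (0:ℂ)))] with z hz
  have hz0 : z ≠ 0 := hz
  have hs : shift B z = z • ((1 : E →L[ℂ] E) - z⁻¹ • B) := by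
    rw [shift, smul_sub, smul_smul, mul_inv_cancel₀ hz0, one_smul]
  have hinv : res B z = z⁻¹ • Ring.inverse ((1 : E →L[ℂ] E) - z⁻¹ • B) := by
    rw [res, hs]
    by_cases hu : IsUnit ((1 : E →L[ℂ] E) - z⁻¹ • B)
    · obtain ⟨U, hU⟩ := hu
      rw [← hU, Ring.inverse_unit]
      have : IsUnit (z • (U : E →L[ℂ] E)) := U.isUnit.smul (Units.mk0 z hz0)
      refine (this.mul_right_inj).1 ?_
      rw [Ring.mul_inverse_cancel _ this, smul_mul_smul_comm, mul_inv_cancel₀ hz0, one_smul,
        Units.mul_inv]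
    · rw [Ring.inverse_non_unit _ hu, smul_zero, Ring.inverse_non_unit]
      intro h
      apply hu
      have := h.smul (Units.mk0 z hz0)⁻¹
      simpa [Units.smul_def, smul_smul, hz0] using this
  simp only [phi, hinv, smul_apply, inner_smul_right]
  field_simp

lemma shift_res {B : E →L[ℂ] E} {z : ℂ} (hz : z ∈ resSet B) : shift B z * res B z = 1 :=
  Ring.mul_inverse_cancel _ hz

lemma res_shift {B : E →L[ℂ] E} {z : ℂ} (hz : z ∈ resSet B) : res B z * shift B z = 1 :=
  Ring.inverse_mul_cancel _ hz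

lemma commute_aeval_res {B : E →L[ℂ] E} {z : ℂ} (hz : z ∈ resSet B) (P : ℂ[X]) :
    aeval B P * res B z = res B z * aeval B P := by
  have hc : Commute (shift B z) (aeval B P) := by
    have : shift B z = aeval B (C z - X) := by
      simp [shift, Algebra.algebraMap_eq_smul_one]
    rw [this]
    exact (Commute.all (C z - X) P).map (aeval B)
  calc aeval B P * res B z = res B z * (shift B z * aeval B P) * res B z := by
        rw [← mul_assoc (res B z), res_shift hz, one_mul]
    _ = res B z * (aeval B P * shift B z) * res B z := by rw [hc.eq]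
    _ = res B z * aeval B P := by rw [mul_assoc, mul_assoc, shift_res hz, mul_one]

/-- `P(z) (z - B)⁻¹ - P(B) (z - B)⁻¹` is a polynomial in `z`. -/
lemma exists_quotient (B : E →L[ℂ] E) (P : ℂ[X]) :
    ∃ G : ℂ → (E →L[ℂ] E), Differentiable ℂ G ∧
      ∀ z ∈ resSet B, P.eval z • res B z = aeval B P * res B z + G z := by
  induction P using Polynomial.induction_on with
  | C a =>
    exact ⟨fun _ => 0, differentiable_const _, fun z _ => by simp [Algebra.algebraMap_eq_smul_one]⟩
  | add P Q hP hQ =>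
    obtain ⟨G, hG, hGz⟩ := hP
    obtain ⟨G', hG', hG'z⟩ := hQ
    exact ⟨fun z => G z + G' z, hG.fun_add hG', fun z hz => by
      rw [eval_add, add_smul, hGz z hz, hG'z z hz, map_add, add_mul]
      exact add_add_add_comm _ _ _ _⟩
  | monomial n a hP =>
    obtain ⟨G, hG, hGz⟩ := hP
    set T := aeval B (C a * X ^ n)
    refine ⟨fun z => z • G z + T, (differentiable_id.smul hG).add_const _, fun z hz => ?_⟩
    have hBR : B * res B z = z • res B z - 1 := by
      have h := shift_res (B := B) hz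
      rw [shift, sub_mul, smul_mul_assoc, one_mul] at h
      rw [← h]; abel
    have h1 : aeval B (C a * X ^ (n + 1)) = T * B := by
      simp [T, pow_succ, mul_assoc]
    have h2 : (C a * X ^ (n + 1)).eval z = z * (C a * X ^ n).eval z := by
      simp [pow_succ]; ring
    rw [h1, h2, mul_smul, hGz z hz, mul_assoc, hBR, mul_sub, mul_one, mul_smul_comm, smul_add]
    show z • (T * res B z) + z • G z = z • (T * res B z) - T + (z • G z + T)
    rw [add_comm (z • G z) T, ← add_assoc, sub_add_cancel]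

/-- Product of two bounded Lipschitz functions. -/
lemma lipschitz_mul_of_periodic {f g : ℝ → ℂ} {Lf Lg : NNReal} {T : ℝ} (hT : 0 < T)
    (hf : LipschitzWith Lf f) (hg : LipschitzWith Lg g) (hfp : Function.Periodic f T)
    (hgp : Function.Periodic g T) : ∃ L, LipschitzWith L fun t => f t * g t := by
  obtain ⟨Mf, hMf⟩ := (hfp.compact_of_continuous hT.ne' hf.continuous).isBounded.exists_norm_le
  obtain ⟨Mg, hMg⟩ := (hgp.compact_of_continuous hT.ne' hg.continuous).isBounded.exists_norm_le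
  refine ⟨(Mf * Lg + Mg * Lf).toNNReal, LipschitzWith.of_dist_le' fun x y => ?_⟩
  rw [dist_eq_norm, show f x * g x - f y * g y = f x * (g x - g y) + (f x - f y) * g y by ring]
  refine (norm_add_le _ _).trans ?_
  rw [norm_mul, norm_mul]
  have h1 := hMf _ ⟨x, rfl⟩
  have h2 := hMg _ ⟨y, rfl⟩
  have h3 : ‖g x - g y‖ ≤ Lg * dist x y := by rw [← dist_eq_norm]; exact hg.dist_le_mul x y
  have h4 : ‖f x - f y‖ ≤ Lf * dist x y := by rw [← dist_eq_norm]; exact hf.dist_le_mul x y
  have h5 := mul_le_mul h1 h3 (norm_nonneg _) ((norm_nonneg _).trans h1)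
  have h6 := mul_le_mul h4 h2 (norm_nonneg _) (mul_nonneg Lf.2 dist_nonneg)
  nlinarith [h5, h6]

/-- A periodic `C¹` function is Lipschitz. -/
lemma lipschitz_of_periodic {f : ℝ → ℂ} {T : ℝ} (hT : 0 < T) (hf : ContDiff ℝ 1 f)
    (hfp : Function.Periodic f T) : ∃ L, LipschitzWith L f := by
  have hp : Function.Periodic (deriv f) T := fun t => by
    rw [← deriv_comp_add_const, funext hfp]
  obtain ⟨M, hM⟩ := (hp.compact_of_continuous hT.ne' (hf.continuous_deriv le_rfl)).isBounded.exists_norm_le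
  exact ⟨M.toNNReal, lipschitzWith_of_nnnorm_deriv_le (hf.differentiable one_ne_zero) fun t => by
    rw [← NNReal.coe_le_coe, coe_nnnorm]
    exact (hM _ ⟨t, rfl⟩).trans (Real.le_coe_toNNReal M)⟩

/-- Quotient of a periodic Lipschitz function by a positive one. -/
lemma lipschitz_div {f : ℝ → ℂ} {p : ℝ → ℝ} {Lf Lp : NNReal} {T : ℝ} (hT : 0 < T)
    (hf : LipschitzWith Lf f) (hfp : Function.Periodic f T) (hp : LipschitzWith Lp p)
    (hpp : Function.Periodic p T) (hp0 : ∀ t, 0 < p t) :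
    ∃ L, LipschitzWith L fun t => f t / (p t : ℂ) := by
  obtain ⟨m, hm, hml⟩ := (hpp.compact_of_continuous hT.ne' hp.continuous).exists_isLeast
    (range_nonempty _)
  obtain ⟨c, rfl⟩ := hm
  have hg : LipschitzWith ((Lp : ℝ) / p c ^ 2).toNNReal fun t => ((p t : ℂ))⁻¹ := by
    refine LipschitzWith.of_dist_le' fun x y => ?_
    rw [dist_eq_norm, ← Complex.ofReal_inv, ← Complex.ofReal_inv, ← Complex.ofReal_sub,
      Complex.norm_real, inv_sub_inv (hp0 x).ne' (hp0 y).ne', norm_div,
      Real.norm_of_nonneg (mul_pos (hp0 x) (hp0 y)).le, div_mul_eq_mul_div]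
    refine div_le_div₀ (mul_nonneg Lp.2 dist_nonneg) ?_ (pow_pos (hp0 c) 2) ?_
    · rw [norm_sub_rev, ← dist_eq_norm]; exact hp.dist_le_mul x y
    · rw [sq]
      exact mul_le_mul (hml ⟨x, rfl⟩) (hml ⟨y, rfl⟩) (hp0 c).le (hp0 x).le
  obtain ⟨L, hL⟩ := lipschitz_mul_of_periodic hT hf hg hfp fun t => by simp only [hpp t]
  exact ⟨L, by simpa [div_eq_mul_inv] using hL⟩

namespace SDom

variable (D : SDom)

lemma contDiff_σ3 : ContDiff ℝ 3 D.σ := by
  show ContDiff ℝ 3 (fun θ : ℝ => (D.radius θ : ℂ) * exp ((θ : ℂ) * I))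
  exact (Complex.ofRealCLM.contDiff.comp D.smooth).mul
    ((Complex.ofRealCLM.contDiff.mul contDiff_const).cexp)

lemma contDiff_dσ : ContDiff ℝ 1 D.dσ :=
  (contDiff_succ_iff_deriv.1 (D.contDiff_σ3.of_le (by norm_num : (1 : WithTop ℕ∞) + 1 ≤ 3))).2.2

/-- A rational boundary function is periodic and Lipschitz. -/
lemma boundary_lipschitz {Φ : ℂ → ℂ} {U : Set ℂ} (hU : IsOpen U) (hd : DifferentiableOn ℂ Φ U)
    (hs : ∀ t, D.σ t ∈ U) : ∃ L, LipschitzWith L fun t => D.dσ t * Φ (D.σ t) := by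
  refine lipschitz_of_periodic (T := 2 * π) (by positivity) ?_ fun t => ?_
  · refine D.contDiff_dσ.mul ?_
    exact ((hd.contDiffOn hU (n := 1)).restrict_scalars ℝ).comp_contDiff D.contDiff_σ hs
  · show D.dσ (t + 2 * π) * Φ (D.σ (t + 2 * π)) = _
    rw [D.dσ_periodic t, D.σ_periodic t]

/-- The main estimate in finite dimension. -/
theorem norm_aeval_le [FiniteDimensional ℂ E] (B : E →L[ℂ] E) (hW : numRange B ⊆ D.Ω)
    (P : ℂ[X]) {M : ℝ} (hM : 0 < M) (hP : ∀ z ∈ closure D.Ω, ‖P.eval z‖ ≤ M) :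
    ‖aeval B P‖ ≤ 2 * M := by
  have : CompleteSpace E := FiniteDimensional.complete ℂ E
  have : ProperSpace E := FiniteDimensional.proper ℂ E
  set T := aeval B P with hT
  rcases eq_or_ne T 0 with hT0 | hT0
  · rw [hT0, norm_zero]; positivity
  -- a singular pair
  obtain ⟨x₀, hx₀⟩ : ∃ x, T x ≠ 0 := by
    by_contra h
    push Not at h
    exact hT0 (ContinuousLinearMap.ext h)
  have hx00 : x₀ ≠ 0 := fun h => hx₀ (by simp [h])
  have hne : (Metric.sphere (0 : E) 1).Nonempty :=
    ⟨(‖x₀‖⁻¹ : ℂ) • x₀, by simp [norm_smul, hx00]⟩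
  obtain ⟨x, hxs, hmax⟩ := (isCompact_sphere (0 : E) 1).exists_isMaxOn hne T.continuous.norm.continuousOn
  have hx : ‖x‖ = 1 := by simpa using hxs
  set ρ := ‖T x‖
  have hbound : ‖T‖ ≤ ρ := by
    refine T.opNorm_le_bound (norm_nonneg _) fun u => ?_
    rcases eq_or_ne u 0 with rfl | hu
    · simp
    have h1 : ‖T ((‖u‖⁻¹ : ℂ) • u)‖ ≤ ρ := hmax (by simp [norm_smul, hu])
    rw [map_smul, norm_smul, norm_inv, Complex.norm_real, norm_norm] at h1
    rw [inv_mul_le_iff₀ (norm_pos_iff.2 hu)] at h1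
    linarith
  refine hbound.trans ?_
  have hρT : ρ = ‖T‖ := le_antisymm (by simpa [hx] using T.le_opNorm x) hbound
  have hρ : 0 < ρ := by rw [hρT]; exact norm_pos_iff.2 hT0
  have hρc : (ρ : ℂ) ≠ 0 := Complex.ofReal_ne_zero.2 hρ.ne'
  set y : E := (ρ : ℂ)⁻¹ • T x
  have hy : ‖y‖ = 1 := by
    simp [y, norm_smul, ρ, inv_mul_cancel₀ hρ.ne']
  have hTx : T x = (ρ : ℂ) • y := by simp [y, smul_smul, hρc]
  have hTy : ContinuousLinearMap.adjoint T y = (ρ : ℂ) • x := by
    have h2 : ‖ContinuousLinearMap.adjoint T y‖ ≤ ρ := by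
      refine (ContinuousLinearMap.le_opNorm _ _).trans ?_
      rw [hy, mul_one, LinearIsometryEquiv.norm_map, hρT]
    have h3 : inner ℂ (ContinuousLinearMap.adjoint T y) x = (ρ : ℂ) := by
      rw [ContinuousLinearMap.adjoint_inner_left, hTx, inner_smul_right, inner_self_one hy, mul_one]
    have h4 : ‖ContinuousLinearMap.adjoint T y - (ρ : ℂ) • x‖ ^ 2 ≤ 0 := by
      rw [norm_sub_sq (𝕜 := ℂ), inner_smul_right, h3, norm_smul, hx, Complex.norm_real,
        Real.norm_of_nonneg hρ.le, ← Complex.ofReal_mul]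
      simp only [RCLike.re_to_complex, Complex.ofReal_re]
      nlinarith [norm_nonneg (ContinuousLinearMap.adjoint T y)]
    exact sub_eq_zero.1 (norm_eq_zero.1 (pow_eq_zero_iff two_ne_zero |>.1
      (le_antisymm h4 (sq_nonneg _))))
  clear_value y
  -- domain data
  obtain ⟨p, Lp, hper, hLp, hp0, hmass, hfix⟩ := D.exists_density
  have hv : ∃ L' : NNReal, LipschitzWith L' fun t => (p t : ℂ) / D.dσ t := by
    obtain ⟨L1, h1⟩ := lipschitz_of_periodic (T := 2 * π) (by positivity)
      (f := fun t => (D.dσ t)⁻¹) (D.contDiff_dσ.inv D.dσ_ne_zero)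
      (fun t => by simp only [D.dσ_periodic t])
    obtain ⟨L2, h2⟩ := lipschitz_mul_of_periodic (T := 2 * π) (by positivity)
      (f := fun t => (p t : ℂ)) (Complex.ofRealCLM.lipschitz.comp hLp) h1
      (fun t => by simp only [hper t]) (fun t => by simp only [D.dσ_periodic t])
    exact ⟨L2, by simpa [div_eq_mul_inv] using h2⟩
  obtain ⟨Ψ, hΨ, hΨ0, hΨb⟩ := D.toDom.exists_psi hper hLp hp0 hmass hfix hv
  have hres : ∀ z ∈ D.Ωᶜ, z ∈ resSet B := fun z hz => isUnit_shift fun h => hz (hW h)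
  have hσ : ∀ t, D.σ t ∈ resSet B := fun t => hres _ (D.σ_notMem t)
  have hsubE : D.Ext ⊆ D.Ωᶜ := compl_subset_compl.2 subset_closure
  have hext : ∀ b a : E, D.ExtFun (phi B b a) ((2 * π * I)⁻¹ * inner ℂ b a) := fun b a =>
    ⟨(differentiableOn_phi B b a).mono fun z hz => hres z (hsubE hz),
      (differentiableOn_phi B b a).continuousOn.mono hres, tendsto_phi B b a⟩
  have hext1 : ∀ a : E, ‖a‖ = 1 → D.ExtFun (phi B a a) (2 * π * I)⁻¹ := fun a ha => by
    have h := hext a a
    rwa [inner_self_one ha, mul_one] at h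
  have hlip : ∀ a : E, ∃ L' : NNReal,
      LipschitzWith L' fun t => D.cen p (phi B a a) t / (p t : ℂ) := by
    intro a
    obtain ⟨L1, h1⟩ := D.boundary_lipschitz (isOpen_resSet B) (differentiableOn_phi B a a) hσ
    have h2 : LipschitzWith (L1 + ‖Complex.ofRealCLM‖₊ * Lp) (D.cen p (phi B a a)) :=
      h1.sub (Complex.ofRealCLM.lipschitz.comp hLp)
    exact lipschitz_div (by positivity) h2 (fun t => by
      simp only [cen, D.dσ_periodic t, D.σ_periodic t, hper t]) hLp hper hp0
  -- the polynomial parts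
  obtain ⟨G, hG, hGz⟩ := exists_quotient B P
  set X₁ := fun t => D.dσ t * phi B x x (D.σ t) with hX₁
  set Y₁ := fun t => D.dσ t * phi B y y (D.σ t) with hY₁
  set E₁ := fun t => D.dσ t * phi B y x (D.σ t) with hE₁
  set E₂ := fun t => D.dσ t * phi B x y (D.σ t) with hE₂
  set Q : ℂ → ℂ := fun z => (2 * π * I : ℂ)⁻¹ * (innerSL ℂ y) (G z x)
  have hQ : Differentiable ℂ Q :=
    ((innerSL ℂ y).differentiable.comp
      ((ContinuousLinearMap.apply ℂ E x).differentiable.comp hG)).const_mul _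
  have hrelX : ∀ z ∈ resSet B, P.eval z * phi B y x z = Q z + ρ * phi B x x z := by
    intro z hz
    simp only [phi, Q, innerSL_apply_apply]
    have h := congrArg (fun R : E →L[ℂ] E => inner ℂ y (R x)) (hGz z hz)
    simp only [smul_apply, inner_smul_right, add_apply, inner_add_right, mul_apply_eq_comp,
      ← ContinuousLinearMap.adjoint_inner_left T, ← hT] at h
    rw [hTy, inner_smul_left, Complex.conj_ofReal] at h
    linear_combination (2 * π * I : ℂ)⁻¹ * h
  have hrelY : ∀ z ∈ resSet B, P.eval z * phi B y x z = Q z + ρ * phi B y y z := by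
    intro z hz
    simp only [phi, Q, innerSL_apply_apply]
    have h := congrArg (fun R : E →L[ℂ] E => inner ℂ y (R x)) (hGz z hz)
    rw [commute_aeval_res hz] at h
    simp only [smul_apply, inner_smul_right, add_apply, inner_add_right, mul_apply_eq_comp, ← hT,
      hTx, map_smul] at h
    linear_combination (2 * π * I : ℂ)⁻¹ * h
  set FE := fun t => P.eval (D.σ t) * E₁ t with hFE
  set Ex := ∫ t in (0 : ℝ)..(2 * π), ‖D.cen p (phi B x x) t‖ ^ 2 / p t with hEx
  set Ey := ∫ t in (0 : ℝ)..(2 * π), ‖D.cen p (phi B y y) t‖ ^ 2 / p t with hEy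
  set J := ∫ t in (0 : ℝ)..(2 * π), ‖FE t‖ ^ 2 / p t with hJdef
  have hkx : ρ ^ 2 * (1 + Ex / 2) ≤ J := by
    refine (D.key hper hLp hp0 hmass hfix hΨ hΨ0 hΨb (hext1 x hx) (hlip x) hQ ρ).trans_eq ?_
    refine intervalIntegral.integral_congr fun t _ => ?_
    simp only [FE, E₁]
    rw [show P.eval (D.σ t) * (D.dσ t * phi B y x (D.σ t)) =
      D.dσ t * (P.eval (D.σ t) * phi B y x (D.σ t)) by ring, hrelX _ (hσ t)]
    ring_nf
  have hky : ρ ^ 2 * (1 + Ey / 2) ≤ J := by
    refine (D.key hper hLp hp0 hmass hfix hΨ hΨ0 hΨb (hext1 y hy) (hlip y) hQ ρ).trans_eq ?_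
    refine intervalIntegral.integral_congr fun t _ => ?_
    simp only [FE, E₁]
    rw [show P.eval (D.σ t) * (D.dσ t * phi B y x (D.σ t)) =
      D.dσ t * (P.eval (D.σ t) * phi B y x (D.σ t)) by ring, hrelY _ (hσ t)]
    ring_nf
  -- continuity
  have hpc := hLp.continuous
  have hphic : ∀ b a : E, Continuous fun t => D.dσ t * phi B b a (D.σ t) := fun b a =>
    D.continuous_dσ.mul ((differentiableOn_phi B b a).continuousOn.comp_continuous D.continuous_σ hσ)
  have hX₁c : Continuous X₁ := hphic x x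
  have hY₁c : Continuous Y₁ := hphic y y
  have hE₁c : Continuous E₁ := hphic y x
  have hE₂c : Continuous E₂ := hphic x y
  have hrI : ∀ {g : ℝ → ℝ}, Continuous g → IntervalIntegrable g volume 0 (2 * π) :=
    fun h => h.intervalIntegrable _ _
  have hdivc : ∀ {g : ℝ → ℝ}, Continuous g → Continuous fun t => g t / p t :=
    fun h => h.div hpc fun t => (hp0 t).ne'
  have hre : ∀ {g : ℝ → ℂ}, Continuous g →
      ∫ t in (0 : ℝ)..(2 * π), (g t).re = (∫ t in (0 : ℝ)..(2 * π), g t).re :=
    fun h => (Complex.reCLM.intervalIntegral_comp_comm (h.intervalIntegrable _ _))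
  -- pairings at infinity
  have hpair : ∀ (Φ₁ Φ₂ : ℂ → ℂ) (c₁ c₂ : ℂ), D.ExtFun Φ₁ ((2 * π * I)⁻¹ * c₁) →
      D.ExtFun Φ₂ ((2 * π * I)⁻¹ * c₂) →
      ∫ t in (0 : ℝ)..(2 * π), D.dσ t * Φ₁ (D.σ t) * (D.dσ t * Φ₂ (D.σ t)) / (p t : ℂ) =
        c₁ * c₂ := by
    intro Φ₁ Φ₂ c₁ c₂ h₁ h₂
    have hk : ((2 * π * I : ℂ))⁻¹ ≠ 0 := by simp [Real.pi_ne_zero, Complex.I_ne_zero]
    have hF : D.ExtFun (fun z => Φ₁ z * Φ₂ z / Ψ z) ((2 * π * I)⁻¹ * (c₁ * c₂)) := by
      refine ⟨(h₁.1.mul h₂.1).div hΨ.1 fun z hz => hΨ0 z (hsubE hz),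
        (h₁.2.1.mul h₂.2.1).div hΨ.2.1 hΨ0, ?_⟩
      have h3 := (h₁.2.2.mul h₂.2.2).div hΨ.2.2 hk
      rw [show (2 * π * I : ℂ)⁻¹ * c₁ * ((2 * π * I)⁻¹ * c₂) / (2 * π * I)⁻¹ =
        (2 * π * I)⁻¹ * (c₁ * c₂) by field_simp] at h3
      refine h3.congr' ?_
      filter_upwards [Bornology.isBounded_def.1 (Bornology.isBounded_singleton (x := (0:ℂ)))]
        with z hz
      have hz0 : z ≠ 0 := hz
      simp only [Pi.div_apply]
      rw [show z * Φ₁ z * (z * Φ₂ z) = z * (z * (Φ₁ z * Φ₂ z)) by ring,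
        mul_div_mul_left _ _ hz0]
      ring
    have h := hF.contour
    rw [← mul_assoc, mul_inv_cancel₀ (by simp [Real.pi_ne_zero, Complex.I_ne_zero]), one_mul] at h
    rw [← h]
    refine intervalIntegral.integral_congr fun t _ => ?_
    rw [← hΨb t]
    have := D.dσ_ne_zero t
    have := hΨ0 _ (D.σ_notMem t)
    field_simp
  -- the diagonal terms
  have hdiag : ∀ a : E, ‖a‖ = 1 →
      ∫ t in (0 : ℝ)..(2 * π), (2 * (D.dσ t * phi B a a (D.σ t)).re) ^ 2 / p t =
        4 + 2 * ∫ t in (0 : ℝ)..(2 * π), ‖D.cen p (phi B a a) t‖ ^ 2 / p t := by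
    intro a ha
    set X := fun t => D.dσ t * phi B a a (D.σ t)
    set e := D.cen p (phi B a a)
    have hXc : Continuous X := hphic a a
    have hec : Continuous e := hXc.sub (Complex.continuous_ofReal.comp hpc)
    have he0 : ∫ t in (0 : ℝ)..(2 * π), (e t).re = 0 := by
      rw [hre hec]
      have h1 := (hext a a).contour
      have h2 := hΨ.contour
      rw [← mul_assoc, mul_inv_cancel₀ (by simp [Real.pi_ne_zero, Complex.I_ne_zero]), one_mul,
        inner_self_one ha] at h1
      rw [mul_inv_cancel₀ (by simp [Real.pi_ne_zero, Complex.I_ne_zero]),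
        intervalIntegral.integral_congr (g := fun t => (p t : ℂ)) fun t _ => hΨb t] at h2
      have hXi : IntervalIntegrable X volume 0 (2 * π) := hXc.intervalIntegrable _ _
      have hpi : IntervalIntegrable (fun t => (p t : ℂ)) volume 0 (2 * π) :=
        (Complex.continuous_ofReal.comp hpc).intervalIntegrable _ _
      show (∫ t in (0 : ℝ)..(2 * π), (X t - (p t : ℂ))).re = 0
      rw [intervalIntegral.integral_sub hXi hpi, h1, h2, sub_self, Complex.zero_re]
    have hX2 : ∫ t in (0 : ℝ)..(2 * π), (X t * X t / (p t : ℂ)).re = 1 := by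
      have hc : Continuous fun t => X t * X t / (p t : ℂ) :=
        (hXc.mul hXc).div (Complex.continuous_ofReal.comp hpc) fun t =>
          Complex.ofReal_ne_zero.2 (hp0 t).ne'
      rw [hre hc, hpair _ _ 1 1 (by rw [mul_one]; exact hext1 a ha) (by rw [mul_one]; exact hext1 a ha)]
      simp
    have hpt : ∀ t, (2 * (X t).re) ^ 2 / p t =
        2 * (‖e t‖ ^ 2 / p t) + 4 * (e t).re + 2 * p t + 2 * (X t * X t / (p t : ℂ)).re := by
      intro t
      have : X t = e t + p t := by simp [e, X, cen]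
      rw [this, Complex.div_ofReal_re, ← Complex.normSq_eq_norm_sq]
      simp only [Complex.normSq_apply, Complex.mul_re, Complex.add_re, Complex.add_im,
        Complex.ofReal_re, Complex.ofReal_im]
      have := (hp0 t).ne'
      field_simp
      ring
    rw [intervalIntegral.integral_congr fun t _ => hpt t]
    have i1 : IntervalIntegrable (fun t => 2 * (‖e t‖ ^ 2 / p t)) volume 0 (2 * π) :=
      hrI (continuous_const.mul (hdivc (hec.norm.pow 2)))
    have i2 : IntervalIntegrable (fun t => 4 * (e t).re) volume 0 (2 * π) :=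
      hrI (continuous_const.mul (Complex.continuous_re.comp hec))
    have i3 : IntervalIntegrable (fun t => 2 * p t) volume 0 (2 * π) :=
      hrI (continuous_const.mul hpc)
    have i4 : IntervalIntegrable (fun t => 2 * (X t * X t / (p t : ℂ)).re) volume 0 (2 * π) :=
      hrI (continuous_const.mul (Complex.continuous_re.comp ((hXc.mul hXc).div
        (Complex.continuous_ofReal.comp hpc) fun t => Complex.ofReal_ne_zero.2 (hp0 t).ne')))
    rw [intervalIntegral.integral_add ((i1.add i2).add i3) i4,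
      intervalIntegral.integral_add (i1.add i2) i3, intervalIntegral.integral_add i1 i2]
    simp only [intervalIntegral.integral_const_mul]
    rw [he0, hmass, hX2]
    ring
  -- the cross terms
  have hcross : 0 ≤ ∫ t in (0 : ℝ)..(2 * π), (E₁ t * E₂ t / (p t : ℂ)).re := by
    have hc : Continuous fun t => E₁ t * E₂ t / (p t : ℂ) :=
      (hE₁c.mul hE₂c).div (Complex.continuous_ofReal.comp hpc) fun t =>
        Complex.ofReal_ne_zero.2 (hp0 t).ne'
    rw [hre hc, hpair _ _ _ _ (hext y x) (hext x y), ← inner_conj_symm y x, Complex.conj_mul']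
    rw [← Complex.ofReal_pow, Complex.ofReal_re]
    positivity
  -- positivity
  have hqf : ∀ (v : E) (t : ℝ), 0 ≤ (D.dσ t * phi B v v (D.σ t)).re := by
    intro v t
    set u := res B (D.σ t) v
    have hu : shift B (D.σ t) u = v := by
      rw [← mul_apply_eq_comp, shift_res (hσ t), one_apply_eq_self]
    rcases eq_or_ne u 0 with h0 | h0
    · simp [phi, show res B (D.σ t) v = 0 from h0]
    obtain ⟨w, hw, hwu⟩ := inner_mem_smul (B := B) h0
    have hvu : inner ℂ v u = ((‖u‖ ^ 2 : ℝ) : ℂ) * conj (D.σ t - w) := by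
      rw [← hu, shift_apply, inner_sub_left, inner_smul_left, ← inner_conj_symm (B u) u, hwu,
        map_mul, Complex.conj_ofReal, inner_self_eq_norm_sq_to_K, map_sub]
      push_cast
      simp
      ring
    have hs := D.side (subset_closure (hW hw)) t
    rw [phi, show inner ℂ v (res B (D.σ t) v) = inner ℂ v u from rfl, hvu]
    have : (D.dσ t * ((2 * π * I : ℂ)⁻¹ * (((‖u‖ ^ 2 : ℝ) : ℂ) * conj (D.σ t - w)))).re =
        ‖u‖ ^ 2 / (2 * π) * (conj (D.dσ t) * (w - D.σ t)).im := by
      rw [show (2 * π * I : ℂ)⁻¹ = ((1 / (2 * π) : ℝ) : ℂ) * -I by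
        push_cast; rw [mul_inv, Complex.inv_I]; ring]
      simp only [Complex.mul_re, Complex.mul_im, Complex.ofReal_re, Complex.ofReal_im,
        Complex.neg_re, Complex.neg_im, Complex.I_re, Complex.I_im, Complex.conj_re,
        Complex.conj_im, Complex.sub_re, Complex.sub_im]
      ring
    rw [this]
    exact mul_nonneg (by positivity) hs
  set n := fun t => E₁ t + conj (E₂ t) with hn
  have hn2 : ∀ t, ‖n t‖ ^ 2 ≤ (2 * (X₁ t).re) * (2 * (Y₁ t).re) := by
    intro t
    set N := ‖n t‖ ^ 2 with hNdef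
    have hquad : ∀ s : ℝ, 0 ≤ N * (2 * (Y₁ t).re) * (s * s) + 2 * N * s + 2 * (X₁ t).re := by
      intro s
      set lam : ℂ := (s : ℂ) * n t
      have h := hqf (x + lam • y) t
      have hexp : D.dσ t * phi B (x + lam • y) (x + lam • y) (D.σ t) =
          X₁ t + lam * E₂ t + conj lam * E₁ t + conj lam * lam * Y₁ t := by
        simp only [X₁, Y₁, E₁, E₂, phi, map_add, map_smul, inner_add_left, inner_add_right,
          inner_smul_left, inner_smul_right]
        ring
      rw [hexp] at h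
      have e1 : (X₁ t + lam * E₂ t + conj lam * E₁ t + conj lam * lam * Y₁ t).re =
          (X₁ t).re + s * N + s ^ 2 * N * (Y₁ t).re := by
        simp only [N, ← Complex.normSq_eq_norm_sq, lam, n, map_mul, Complex.conj_ofReal,
          Complex.normSq_apply, Complex.add_re, Complex.add_im, Complex.mul_re, Complex.mul_im,
          Complex.conj_re, Complex.conj_im, Complex.ofReal_re, Complex.ofReal_im]
        ring
      rw [e1] at h
      linarith
    have hd := discrim_le_zero hquad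
    rw [discrim] at hd
    rcases eq_or_lt_of_le (sq_nonneg ‖n t‖) with h | h
    · rw [hNdef, ← h]
      exact mul_nonneg (mul_nonneg two_pos.le (hqf x t)) (mul_nonneg two_pos.le (hqf y t))
    · nlinarith
  -- conclusion
  have hJ : J ≤ M ^ 2 * ∫ t in (0 : ℝ)..(2 * π), ‖E₁ t‖ ^ 2 / p t := by
    rw [← intervalIntegral.integral_const_mul]
    refine intervalIntegral.integral_mono_on (by positivity)
      (hrI (hdivc ((((P.continuous.comp D.continuous_σ)).mul hE₁c).norm.pow 2)))
      (hrI (continuous_const.mul (hdivc (hE₁c.norm.pow 2)))) fun t _ => ?_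
    rw [← mul_div_assoc]
    refine div_le_div_of_nonneg_right ?_ (hp0 t).le
    simp only [FE, norm_mul, mul_pow]
    exact mul_le_mul_of_nonneg_right (pow_le_pow_left₀ (norm_nonneg _)
      (hP _ (D.σ_mem_closure t)) 2) (sq_nonneg _)
  have hmain : (∫ t in (0 : ℝ)..(2 * π), ‖E₁ t‖ ^ 2 / p t) ≤
      2 * (1 + Ex / 2) + 2 * (1 + Ey / 2) := by
    have hpt : ∀ t, ‖E₁ t‖ ^ 2 / p t + 2 * (E₁ t * E₂ t / (p t : ℂ)).re ≤
        1 / 2 * ((2 * (X₁ t).re) ^ 2 / p t) + 1 / 2 * ((2 * (Y₁ t).re) ^ 2 / p t) := by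
      intro t
      have h1 : ‖E₁ t‖ ^ 2 + 2 * (E₁ t * E₂ t).re ≤ ‖n t‖ ^ 2 := by
        simp only [n, ← Complex.normSq_eq_norm_sq, Complex.normSq_apply, Complex.add_re,
          Complex.add_im, Complex.mul_re, Complex.conj_re, Complex.conj_im]
        nlinarith [sq_nonneg (E₂ t).re, sq_nonneg (E₂ t).im]
      have h2 : ‖E₁ t‖ ^ 2 + 2 * (E₁ t * E₂ t).re ≤
          1 / 2 * (2 * (X₁ t).re) ^ 2 + 1 / 2 * (2 * (Y₁ t).re) ^ 2 := by
        nlinarith [hn2 t, sq_nonneg ((X₁ t).re - (Y₁ t).re)]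
      rw [Complex.div_ofReal_re, mul_div_assoc', ← add_div, mul_div_assoc', mul_div_assoc',
        ← add_div]
      exact div_le_div_of_nonneg_right h2 (hp0 t).le
    have i1 : IntervalIntegrable (fun t => ‖E₁ t‖ ^ 2 / p t) volume 0 (2 * π) :=
      hrI (hdivc (hE₁c.norm.pow 2))
    have i2 : IntervalIntegrable (fun t => 2 * (E₁ t * E₂ t / (p t : ℂ)).re) volume 0 (2 * π) :=
      hrI (continuous_const.mul (Complex.continuous_re.comp ((hE₁c.mul hE₂c).div
        (Complex.continuous_ofReal.comp hpc) fun t => Complex.ofReal_ne_zero.2 (hp0 t).ne')))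
    have i3 : IntervalIntegrable (fun t => 1 / 2 * ((2 * (X₁ t).re) ^ 2 / p t)) volume 0 (2 * π) :=
      hrI (continuous_const.mul
        (hdivc ((continuous_const.mul (Complex.continuous_re.comp hX₁c)).pow 2)))
    have i4 : IntervalIntegrable (fun t => 1 / 2 * ((2 * (Y₁ t).re) ^ 2 / p t)) volume 0 (2 * π) :=
      hrI (continuous_const.mul
        (hdivc ((continuous_const.mul (Complex.continuous_re.comp hY₁c)).pow 2)))
    have h := intervalIntegral.integral_mono_on (by positivity) (i1.add i2) (i3.add i4)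
      fun t _ => hpt t
    rw [intervalIntegral.integral_add i1 i2, intervalIntegral.integral_add i3 i4] at h
    simp only [intervalIntegral.integral_const_mul] at h
    rw [hdiag x hx, hdiag y hy, ← hEx, ← hEy] at h
    linarith
  have hEx0 : 0 ≤ Ex :=
    intervalIntegral.integral_nonneg (by positivity) fun t _ => div_nonneg (sq_nonneg _) (hp0 t).le
  have hJpos : 0 < J := lt_of_lt_of_le (by positivity) hkx
  have h4 : ρ ^ 2 ≤ 4 * M ^ 2 := by
    have h5 : ρ ^ 2 * (∫ t in (0 : ℝ)..(2 * π), ‖E₁ t‖ ^ 2 / p t) ≤ 4 * J := by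
      nlinarith [mul_le_mul_of_nonneg_left hmain (sq_nonneg ρ)]
    by_contra hlt
    push Not at hlt
    nlinarith [mul_le_mul_of_nonneg_left hJ (sq_nonneg ρ), mul_le_mul_of_nonneg_left h5 (sq_nonneg M),
      mul_lt_mul_of_pos_right hlt hJpos]
  nlinarith

end SDom

end Vale.Agent.P123
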