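import Vale.Agent.P123.Approx

/-! Strictly convex `C³` domains approximate compact convex sets from outside. -/

noncomputable section

namespace Vale.Agent.P123

open Complex MeasureTheory Filter Set
open scoped ComplexConjugate Real Topology

namespace Dom

variable (D : Dom)

lemma im_side_eq (θ θ' : ℝ) :
    (conj (D.dσ θ) * (D.σ θ' - D.σ θ)).im =
      deriv D.radius θ * D.radius θ' * Real.sin (θ' - θ)
        - D.radius θ * D.radius θ' * Real.cos (θ' - θ) + D.radius θ ^ 2 := by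
  rw [dσ_eq, σ, σ, curveOf, curveOf, Real.sin_sub, Real.cos_sub]
  simp only [Complex.mul_im, Complex.mul_re, Complex.conj_re, Complex.conj_im, Complex.sub_re,
    Complex.sub_im, Complex.add_re, Complex.add_im, Complex.ofReal_re, Complex.ofReal_im,
    Complex.exp_ofReal_mul_I_re, Complex.exp_ofReal_mul_I_im, Complex.I_re, Complex.I_im,
    map_mul, map_add]
  nlinarith [Real.sin_sq_add_cos_sq θ]

/-- The reciprocal radius lies above its tangent sinusoid. -/
lemma inv_radius_support (θ θ' : ℝ) :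
    0 ≤ (D.radius θ')⁻¹ - (D.radius θ)⁻¹ * Real.cos (θ' - θ)
      - deriv (fun x => (D.radius x)⁻¹) θ * Real.sin (θ' - θ) := by
  have h := D.side (D.σ_mem_closure θ') θ
  rw [D.im_side_eq] at h
  have hd : deriv (fun x => (D.radius x)⁻¹) θ = -deriv D.radius θ / D.radius θ ^ 2 :=
    (((D.contDiff.differentiable one_ne_zero) θ).hasDerivAt.inv (D.pos θ).ne').deriv
  rw [hd]
  have h1 := D.pos θ
  have h2 := D.pos θ'
  have e : (D.radius θ')⁻¹ - (D.radius θ)⁻¹ * Real.cos (θ' - θ)
      - -deriv D.radius θ / D.radius θ ^ 2 * Real.sin (θ' - θ) =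
      (deriv D.radius θ * D.radius θ' * Real.sin (θ' - θ)
        - D.radius θ * D.radius θ' * Real.cos (θ' - θ) + D.radius θ ^ 2) /
        (D.radius θ ^ 2 * D.radius θ') := by
    field_simp
    ring
  rw [e]
  positivity

end Dom

/-- Second derivative of `radius * exp (θ I)`. -/
lemma im_curvature {r : ℝ → ℝ} (hr : ContDiff ℝ 2 r) (θ : ℝ) :
    (conj (deriv (curveOf r) θ) * deriv (deriv (curveOf r)) θ).im =
      2 * deriv r θ ^ 2 - r θ * deriv (deriv r) θ + r θ ^ 2 := by
  have hd : Differentiable ℝ r := hr.differentiable (by norm_num)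
  have hd' : Differentiable ℝ (deriv r) :=
    ((contDiff_succ_iff_deriv (n := 1)).1 hr).2.2.differentiable one_ne_zero
  have he : ∀ x : ℝ, HasDerivAt (fun t : ℝ => exp ((t : ℂ) * I)) (exp (x * I) * I) x := fun x => by
    simpa using (((hasDerivAt_id x).ofReal_comp).mul_const I).cexp
  have h1 : deriv (curveOf r) = fun x : ℝ =>
      (((deriv r x : ℝ) : ℂ) + (r x : ℂ) * I) * exp (x * I) := by
    funext x
    refine (((hd x).hasDerivAt.ofReal_comp.mul (he x)).congr_deriv ?_).deriv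
    ring
  have h2 : deriv (deriv (curveOf r)) θ =
      (((deriv (deriv r) θ - r θ : ℝ) : ℂ) + ((2 * deriv r θ : ℝ) : ℂ) * I) * exp (θ * I) := by
    rw [h1]
    refine ((((hd' θ).hasDerivAt.ofReal_comp.add ((hd θ).hasDerivAt.ofReal_comp.mul_const I)).mul
      (he θ)).congr_deriv ?_).deriv
    simp only [Pi.add_apply]
    push_cast
    linear_combination (r θ : ℂ) * exp (θ * I) * Complex.I_mul_I
  rw [h2, h1]
  have hu : conj (exp (θ * I)) * exp (θ * I) = 1 := by
    rw [← Complex.normSq_eq_conj_mul_self, Complex.normSq_eq_norm_sq, norm_exp_ofReal_mul_I]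
    norm_num
  rw [map_mul, mul_mul_mul_comm, hu, mul_one]
  simp
  ring

/-- S1. -/
theorem exists_sdom {S : Set ℂ} (hS : IsCompact S) (hc : Convex ℝ S) (h0 : (0 : ℂ) ∈ S)
    {ε : ℝ} (hε : 0 < ε) : ∃ D : SDom, S ⊆ D.Ω ∧ D.Ω ⊆ Metric.thickening ε S := by
  obtain ⟨D₀, hSD, hDT, hsm, hG⟩ := exists_dom_smooth hS hc h0 hε
  set ρ : ℝ → ℝ := fun x => (D₀.radius x)⁻¹
  have hρ0 : ∀ x, 0 < ρ x := fun x => inv_pos.2 (D₀.pos x)
  have hρc : ContDiff ℝ 3 ρ := hsm.inv fun x => (D₀.pos x).ne'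
  set G : ℂ → ℝ := fun z => ‖z‖ / D₀.radius z.arg
  have hGc : ContinuousOn G univ := hG.continuousOn isOpen_univ
  obtain ⟨z0, hz0, hmax⟩ := hS.exists_isMaxOn ⟨0, h0⟩ (hGc.mono (subset_univ _))
  have hm : G z0 < 1 := (div_lt_one (D₀.pos _)).2 (hSD hz0)
  obtain ⟨M, hM, hSM⟩ := hS.isBounded.subset_closedBall_lt 0 0
  set η : ℝ := (1 - G z0) / (2 * M)
  have hη : 0 < η := div_pos (by linarith) (by linarith)
  set g : ℝ → ℝ := fun x => ρ x + η
  have hg0 : ∀ x, 0 < g x := fun x => add_pos (hρ0 x) hη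
  have hgc : ContDiff ℝ 3 g := hρc.add contDiff_const
  set r : ℝ → ℝ := fun x => (g x)⁻¹
  have hrc : ContDiff ℝ 3 r := hgc.inv fun x => (hg0 x).ne'
  have hconv : Convex ℝ {z : ℂ | ‖z‖ < r z.arg} := by
    have hc2 : ConvexOn ℝ univ (fun z : ℂ => G z + η * ‖z‖) :=
      hG.add ((convexOn_norm convex_univ).smul hη.le)
    have : {z : ℂ | ‖z‖ < r z.arg} = {z ∈ univ | G z + η * ‖z‖ < 1} := by
      ext z
      simp only [mem_univ, true_and, mem_setOf_eq, r, ← one_div (g z.arg), lt_div_iff₀ (hg0 _)]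
      simp [g, ρ, G, mul_add, div_eq_mul_inv, mul_comm η]
    rw [this]
    exact hc2.convex_lt 1
  let D : Dom :=
    { radius := r
      pos := fun x => inv_pos.2 (hg0 x)
      periodic := fun x => by simp only [r, g, ρ, D₀.periodic x]
      contDiff := hrc.of_le (by norm_num)
      convex := hconv }
  have hρd : Differentiable ℝ ρ := hρc.differentiable (by norm_num)
  have hρd' : Differentiable ℝ (deriv ρ) :=
    ((contDiff_succ_iff_deriv (n := 2)).1 hρc).2.2.differentiable (by norm_num)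
  have hr' : ∀ x, HasDerivAt r (-deriv ρ x / g x ^ 2) x := fun x =>
    ((hρd x).hasDerivAt.add_const η).inv (hg0 x).ne'
  -- second-order condition
  have hρ2 : ∀ θ, 0 ≤ deriv (deriv ρ) θ + ρ θ := by
    intro θ
    set F : ℝ → ℝ := fun x => ρ x - ρ θ * Real.cos (x - θ) - deriv ρ θ * Real.sin (x - θ)
    have hF : ∀ x, HasDerivAt F
        (deriv ρ x + ρ θ * Real.sin (x - θ) - deriv ρ θ * Real.cos (x - θ)) x := fun x => by
      have hx : HasDerivAt (fun y => y - θ) 1 x := (hasDerivAt_id x).sub_const θ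
      refine (((hρd x).hasDerivAt.sub (hx.cos.const_mul (ρ θ))).sub
        (hx.sin.const_mul (deriv ρ θ))).congr_deriv ?_
      ring
    have hF1 : deriv F θ = 0 := by rw [(hF θ).deriv]; simp
    have hF2 : deriv (deriv F) θ = deriv (deriv ρ) θ + ρ θ := by
      rw [funext fun x => (hF x).deriv]
      have hx : HasDerivAt (fun y => y - θ) 1 θ := (hasDerivAt_id θ).sub_const θ
      refine (((hρd' θ).hasDerivAt.add (hx.sin.const_mul (ρ θ))).sub
        (hx.cos.const_mul (deriv ρ θ))).congr_deriv ?_ |>.deriv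
      simp
    by_contra hlt
    push Not at hlt
    have hmax : IsLocalMax F θ :=
      isLocalMax_of_deriv_deriv_neg (by rw [hF2]; exact hlt) hF1 (hF θ).continuousAt
    have hz : F θ = 0 := by simp [F]
    have hev : F =ᶠ[𝓝 θ] fun _ => 0 := hmax.mono fun x hx =>
      le_antisymm (hx.trans hz.le) (D₀.inv_radius_support θ x)
    have : deriv (deriv F) θ = 0 := by
      rw [(hev.deriv).deriv_eq]; simp
    rw [hF2] at this
    linarith
  refine ⟨⟨D, hrc, fun θ => ?_, fun θ θ' hne => ?_⟩, fun z hz => ?_, fun z hz => ?_⟩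
  · -- curvature
    show 0 < (conj (deriv (curveOf r) θ) * deriv (deriv (curveOf r)) θ).im
    rw [im_curvature (hrc.of_le (by norm_num)), (hr' θ).deriv]
    have hgd : HasDerivAt g (deriv ρ θ) θ := (hρd θ).hasDerivAt.add_const η
    have h2 : deriv (deriv r) θ =
        -deriv (deriv ρ) θ / g θ ^ 2 + 2 * deriv ρ θ ^ 2 / g θ ^ 3 := by
      rw [funext fun x => (hr' x).deriv]
      refine ((((hρd' θ).hasDerivAt.neg).div (hgd.pow 2) (pow_ne_zero 2 (hg0 θ).ne')).congr_deriv
        ?_).deriv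
      have := (hg0 θ).ne'
      simp only [Pi.neg_apply, Pi.pow_apply]
      field_simp
      ring
    rw [h2]
    have hg := hg0 θ
    have e : 2 * (-deriv ρ θ / g θ ^ 2) ^ 2
        - r θ * (-deriv (deriv ρ) θ / g θ ^ 2 + 2 * deriv ρ θ ^ 2 / g θ ^ 3) + r θ ^ 2 =
        (deriv (deriv ρ) θ + g θ) / g θ ^ 3 := by
      simp only [r]
      field_simp
      ring
    rw [e]
    exact div_pos (by linarith [hρ2 θ, show g θ = ρ θ + η from rfl]) (by positivity)
  · -- strictness
    show 0 < (conj (D.dσ θ) * (D.σ θ' - D.σ θ)).im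
    rw [D.im_side_eq]
    show 0 < deriv r θ * r θ' * Real.sin (θ' - θ) - r θ * r θ' * Real.cos (θ' - θ) + r θ ^ 2
    have hcos : Real.cos (θ' - θ) < 1 := by
      refine lt_of_le_of_ne (Real.cos_le_one _) fun h => hne ?_
      obtain ⟨n, hn⟩ := (Real.cos_eq_one_iff _).1 h
      show D.σ θ' = D.σ θ
      rw [show θ' = θ + n * (2 * π) by linarith]
      exact D.σ_periodic.int_mul n θ
    have h := D₀.inv_radius_support θ θ'
    rw [(hr' θ).deriv]
    have hg := hg0 θ
    have hg' := hg0 θ'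
    have e : -deriv ρ θ / g θ ^ 2 * r θ' * Real.sin (θ' - θ)
        - r θ * r θ' * Real.cos (θ' - θ) + r θ ^ 2 =
        ((ρ θ' - ρ θ * Real.cos (θ' - θ) - deriv ρ θ * Real.sin (θ' - θ))
          + η * (1 - Real.cos (θ' - θ))) / (g θ ^ 2 * g θ') := by
      simp only [r]
      field_simp
      simp only [g]
      ring
    rw [e]
    exact div_pos (add_pos_of_nonneg_of_pos h (mul_pos hη (by linarith))) (by positivity)
  · show ‖z‖ < r z.arg
    simp only [r, ← one_div (g z.arg), lt_div_iff₀ (hg0 _)]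
    have h1 : G z ≤ G z0 := hmax hz
    have h2 : η * ‖z‖ ≤ η * M :=
      mul_le_mul_of_nonneg_left (mem_closedBall_zero_iff.1 (hSM hz)) hη.le
    have h3 : η * M = (1 - G z0) / 2 := by simp only [η]; field_simp
    have h4 : ‖z‖ * g z.arg = G z + η * ‖z‖ := by
      simp [g, ρ, G, mul_add, div_eq_mul_inv, mul_comm η]
    rw [h4]; linarith
  · refine hDT (lt_of_lt_of_le (show ‖z‖ < r z.arg from hz) ?_)
    simp only [r]
    rw [inv_le_comm₀ (hg0 _) (D₀.pos _)]
    exact le_add_of_nonneg_right hη.le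

end Vale.Agent.P123
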