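import Mathlib
import Vale.Agent.P123.Smooth
import Vale.Agent.P123.Density
import Vale.Agent.P123.Contour
import Vale.Agent.P123.Psi

/-! Geometry and contour facts consumed by the weighted inequality. -/
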