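import Vale.Agent.P123.Tools
import Vale.Agent.P123.Boundary

/-! The weighted `L²` inequality behind the constant `2`. -/

noncomputable section

namespace Vale.Agent.P123

open Complex MeasureTheory Filter Set
open scoped ComplexConjugate Real Topology

/-- Parameter continuity of an interval integral, on an interval of parameters. -/
lemma continuousOn_param {a b c d : ℝ} (hab : a ≤ b) (hcd : c ≤ d) {F : ℝ → ℝ → ℂ}
    (hF : ContinuousOn (fun q : ℝ × ℝ => F q.1 q.2) (Icc a b ×ˢ Icc c d)) :
    ContinuousOn (fun r => ∫ t in c..d, F r t) (Icc a b) := by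
  set F' : ℝ → ℝ → ℂ := fun r t => F (projIcc a b hab r) (projIcc c d hcd t)
  have hc : Continuous (fun q : ℝ × ℝ => F' q.1 q.2) :=
    hF.comp_continuous (f := fun q : ℝ × ℝ =>
        ((projIcc a b hab q.1 : ℝ), (projIcc c d hcd q.2 : ℝ))) (by fun_prop)
      fun q => ⟨(projIcc a b hab q.1).2, (projIcc c d hcd q.2).2⟩
  refine (intervalIntegral.continuous_parametric_intervalIntegral_of_continuous' (f := F') hc c d).continuousOn.congr
    fun r hr => intervalIntegral.integral_congr fun t ht => ?_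
  rw [uIcc_of_le hcd] at ht
  simp [F', projIcc_of_mem hab hr, projIcc_of_mem hcd ht]

/-- A continuous function on `[1/2, 1]` that is constant on `[1/2, 1)` takes the same value at `1`. -/
lemma eq_at_one {g : ℝ → ℂ} (hg : ContinuousOn g (Icc (1 / 2) 1)) {c : ℂ}
    (h : ∀ r ∈ Ico (1 / 2 : ℝ) 1, g r = c) : g 1 = c := by
  have h1 : (1 : ℝ) ∈ closure (Ico (1 / 2 : ℝ) 1) := by
    rw [closure_Ico (by norm_num)]; exact ⟨by norm_num, le_rfl⟩
  have := (hg.mono Ico_subset_Icc_self 1) |> fun _ => hg 1 ⟨by norm_num, le_rfl⟩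
  have ht : Tendsto g (𝓝[Ico (1 / 2 : ℝ) 1] 1) (𝓝 (g 1)) := this.mono Ico_subset_Icc_self
  have : NeBot (𝓝[Ico (1 / 2 : ℝ) 1] (1 : ℝ)) := mem_closure_iff_nhdsWithin_neBot.1 h1
  exact tendsto_nhds_unique_of_eventuallyEq ht tendsto_const_nhds
    (by filter_upwards [self_mem_nhdsWithin] with r hr using h r hr)

namespace SDom

variable (D : SDom)

lemma measurable_kernel : Measurable fun q : ℝ × ℝ => D.kernel q.1 q.2 := by
  have hs := D.continuous_σ.measurable
  have hd := D.continuous_dσ.measurable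
  have : Measurable fun q : ℝ × ℝ => (D.dσ q.2 / (D.σ q.2 - D.σ q.1)).im :=
    Complex.continuous_im.measurable.comp
      ((hd.comp measurable_snd).div ((hs.comp measurable_snd).sub (hs.comp measurable_fst)))
  exact this.const_mul π⁻¹

/-- The invariant density makes the double-layer operator a contraction. -/
lemma jensen {p : ℝ → ℝ} (hpc : Continuous p) (hp0 : ∀ t, 0 < p t)
    (hfix : ∀ s, ∫ t in (0 : ℝ)..(2 * π), p t * D.kernel t s = p s)
    {v Kv : ℝ → ℂ} (hv : Continuous v) (hKc : Continuous Kv)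
    (hK : ∀ s, Kv s = ∫ t in (0 : ℝ)..(2 * π), v t * (D.kernel s t : ℂ)) :
    ∫ s in (0 : ℝ)..(2 * π), p s * ‖Kv s‖ ^ 2 ≤ ∫ t in (0 : ℝ)..(2 * π), p t * ‖v t‖ ^ 2 := by
  have h0 : (0 : ℝ) ≤ 2 * π := by positivity
  obtain ⟨B, hB⟩ := D.exists_kernel_bound
  have hpt : ∀ s, ‖Kv s‖ ^ 2 ≤ ∫ t in (0 : ℝ)..(2 * π), ‖v t‖ ^ 2 * D.kernel s t := by
    intro s
    have hk := D.kernel_integrable s
    have i1 : IntervalIntegrable (fun t => ‖v t‖ * D.kernel s t) volume 0 (2 * π) :=
      hk.continuousOn_mul hv.norm.continuousOn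
    have i2 : IntervalIntegrable (fun t => ‖v t‖ ^ 2 * D.kernel s t) volume 0 (2 * π) :=
      hk.continuousOn_mul (hv.norm.pow 2).continuousOn
    set c := ∫ t in (0 : ℝ)..(2 * π), ‖v t‖ * D.kernel s t
    have hc : ‖Kv s‖ ≤ c := by
      rw [hK]
      refine intervalIntegral.norm_integral_le_of_norm_le h0 (ae_of_all _ fun t _ => ?_) i1
      rw [norm_mul, Complex.norm_real, Real.norm_of_nonneg (D.kernel_nonneg _ _)]
    have hsq : 0 ≤ ∫ t in (0 : ℝ)..(2 * π), (‖v t‖ - c) ^ 2 * D.kernel s t :=
      intervalIntegral.integral_nonneg h0 fun t _ => mul_nonneg (sq_nonneg _) (D.kernel_nonneg _ _)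
    rw [intervalIntegral.integral_congr (g := fun t => ‖v t‖ ^ 2 * D.kernel s t -
        2 * c * (‖v t‖ * D.kernel s t) + c ^ 2 * D.kernel s t) fun t _ => by ring,
      intervalIntegral.integral_add (i2.sub (i1.const_mul _)) (hk.const_mul _),
      intervalIntegral.integral_sub i2 (i1.const_mul _), intervalIntegral.integral_const_mul,
      intervalIntegral.integral_const_mul, D.kernel_integral] at hsq
    nlinarith [norm_nonneg (Kv s)]
  set G : ℝ → ℝ → ℝ := fun s t => p s * (‖v t‖ ^ 2 * D.kernel s t)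
  have hGm : Measurable (Function.uncurry G) :=
    (hpc.measurable.comp measurable_fst).mul
      (((hv.norm.pow 2).measurable.comp measurable_snd).mul D.measurable_kernel)
  obtain ⟨C, hC⟩ := ((isCompact_Icc (a := (0:ℝ)) (b := 2 * π)).prod
    (isCompact_Icc (a := (0:ℝ)) (b := 2 * π))).exists_bound_of_continuousOn
      (((hpc.comp continuous_fst).mul ((hv.norm.pow 2).comp continuous_snd)).continuousOn)
  have hint : Integrable (Function.uncurry G)
      ((volume.restrict (Ioc 0 (2 * π))).prod (volume.restrict (Ioc 0 (2 * π)))) := by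
    refine Integrable.of_bound hGm.aestronglyMeasurable (C * B) ?_
    rw [Measure.prod_restrict, ae_restrict_iff' (measurableSet_Ioc.prod measurableSet_Ioc)]
    refine ae_of_all _ fun q hq => ?_
    have h1 := hC q ⟨Ioc_subset_Icc_self hq.1, Ioc_subset_Icc_self hq.2⟩
    rw [show Function.uncurry G q = (p q.1 * ‖v q.2‖ ^ 2) * D.kernel q.1 q.2 by
        simp only [Function.uncurry, G]; ring, norm_mul, Real.norm_of_nonneg (D.kernel_nonneg _ _)]
    exact mul_le_mul h1 (hB _ _) (D.kernel_nonneg _ _) ((norm_nonneg _).trans h1)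
  have hiL : IntervalIntegrable (fun s => p s * ‖Kv s‖ ^ 2) volume 0 (2 * π) :=
    (hpc.mul (hKc.norm.pow 2)).intervalIntegrable _ _
  have hiR : IntervalIntegrable (fun s => ∫ t in (0 : ℝ)..(2 * π), G s t) volume 0 (2 * π) := by
    rw [intervalIntegrable_iff_integrableOn_Ioc_of_le h0]
    simp only [intervalIntegral.integral_of_le h0]
    exact hint.integral_prod_left
  calc ∫ s in (0 : ℝ)..(2 * π), p s * ‖Kv s‖ ^ 2
      ≤ ∫ s in (0 : ℝ)..(2 * π), ∫ t in (0 : ℝ)..(2 * π), G s t := by
        refine intervalIntegral.integral_mono_on h0 hiL hiR fun s _ => ?_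
        simp only [G, intervalIntegral.integral_const_mul]
        exact mul_le_mul_of_nonneg_left (hpt s) (hp0 s).le
    _ = ∫ t in (0 : ℝ)..(2 * π), ∫ s in (0 : ℝ)..(2 * π), G s t := by
        simp only [intervalIntegral.integral_of_le h0]
        exact integral_integral_swap hint
    _ = _ := by
        refine intervalIntegral.integral_congr fun t _ => ?_
        show (∫ s in (0 : ℝ)..(2 * π), p s * (‖v t‖ ^ 2 * D.kernel s t)) = p t * ‖v t‖ ^ 2
        rw [← hfix t, ← intervalIntegral.integral_mul_const]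
        exact intervalIntegral.integral_congr fun s _ => by ring

/-- `∫ dσ * g = 0` for `g` analytic near the closed region. -/
lemma contour_zero {g : ℂ → ℂ} (hg : D.HolNear g) :
    ∫ t in (0 : ℝ)..(2 * π), D.dσ t * g (D.σ t) = 0 := by
  obtain ⟨U, hU, hsub, hd⟩ := hg
  have h := D.cauchy_eq (f := fun w => w * g w) ⟨U, hU, hsub, differentiableOn_id.mul hd⟩ D.zero_mem_Ω
  rw [Dom.cauchy, zero_mul, mul_eq_zero] at h
  rcases h with h | h
  · simp [Real.pi_ne_zero, Complex.I_ne_zero] at h
  rw [← h]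
  refine intervalIntegral.integral_congr fun t _ => ?_
  have := D.σ_ne_zero t
  show D.dσ t * g (D.σ t) = D.σ t * g (D.σ t) * (D.dσ t / (D.σ t - 0))
  rw [sub_zero]
  field_simp

lemma holNear_comp_smul {H : ℂ → ℂ} (hH : DifferentiableOn ℂ H D.Ω) {r : ℝ} (hr : 0 ≤ r)
    (hr1 : r < 1) : D.HolNear fun w => H ((r : ℂ) * w) := by
  refine ⟨{w | (r : ℂ) * w ∈ D.Ω}, D.isOpen_Ω.preimage (by fun_prop),
    fun w hw => D.smul_mem_Ω hw hr hr1, ?_⟩
  exact hH.comp ((differentiable_id.const_mul _).differentiableOn) fun w hw => hw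

lemma inv_smul_σ_mem {r : ℝ} (hr : 0 < r) (hr1 : r ≤ 1) (t : ℝ) :
    D.σ t / (r : ℂ) ∈ D.Ωᶜ := by
  intro hm
  have h1 : (r : ℂ) * (D.σ t / (r : ℂ)) = D.σ t := by
    rw [mul_comm, div_mul_cancel₀ _ (Complex.ofReal_ne_zero.2 hr.ne')]
  rcases hr1.eq_or_lt with h | h
  · rw [h, Complex.ofReal_one, div_one] at hm
    exact D.σ_notMem t hm
  · have := D.smul_mem_Ω (subset_closure hm) hr.le h
    rw [h1] at this
    exact D.σ_notMem t this

lemma inv_smul_σ_mem_Ext {r : ℝ} (hr : 0 < r) (hr1 : r < 1) (t : ℝ) :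
    D.σ t / (r : ℂ) ∈ D.Ext := by
  intro hm
  have := D.smul_mem_Ω hm hr.le hr1
  rw [mul_comm, div_mul_cancel₀ _ (Complex.ofReal_ne_zero.2 hr.ne')] at this
  exact D.σ_notMem t this

/-- The boundary function `X - p`, as used below. -/
def cen (p : ℝ → ℝ) (Φ : ℂ → ℂ) (t : ℝ) : ℂ := D.dσ t * Φ (D.σ t) - p t

/-- Key lower bound: adding `dσ` times an entire function to `ρ X` cannot cancel more than half of
the mass-free part of `X`. -/
theorem key {p : ℝ → ℝ} {L : NNReal} (hper : Function.Periodic p (2 * π))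
    (hL : LipschitzWith L p) (hp0 : ∀ t, 0 < p t)
    (hmass : (∫ t in (0 : ℝ)..(2 * π), p t) = 1)
    (hfix : ∀ s, ∫ t in (0 : ℝ)..(2 * π), p t * D.kernel t s = p s)
    {Ψ : ℂ → ℂ} (hΨ : D.ExtFun Ψ (2 * π * I)⁻¹) (hΨ0 : ∀ z ∈ D.Ωᶜ, Ψ z ≠ 0)
    (hΨb : ∀ t, D.dσ t * Ψ (D.σ t) = p t)
    {Φ : ℂ → ℂ} (hΦ : D.ExtFun Φ (2 * π * I)⁻¹)
    (hlip : ∃ L' : NNReal, LipschitzWith L' fun t => D.cen p Φ t / (p t : ℂ))
    {Q : ℂ → ℂ} (hQ : Differentiable ℂ Q) (ρ : ℝ) :
    ρ ^ 2 * (1 + (∫ t in (0 : ℝ)..(2 * π), ‖D.cen p Φ t‖ ^ 2 / p t) / 2) ≤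
      ∫ t in (0 : ℝ)..(2 * π),
        ‖D.dσ t * Q (D.σ t) + ρ * (D.dσ t * Φ (D.σ t))‖ ^ 2 / p t := by
  have hpc : Continuous p := hL.continuous
  have hpne : ∀ t, (p t : ℂ) ≠ 0 := fun t => Complex.ofReal_ne_zero.2 (hp0 t).ne'
  obtain ⟨hΨd, hΨc, hΨl⟩ := hΨ
  obtain ⟨hΦd, hΦc, hΦl⟩ := hΦ
  set Φ0 : ℂ → ℂ := fun z => Φ z - Ψ z with hΦ0
  have hΦ0e : D.ExtFun Φ0 0 := by
    refine ⟨hΦd.sub hΨd, hΦc.sub hΨc, ?_⟩
    have := hΦl.sub hΨl
    rw [sub_self] at this
    exact this.congr fun z => by simp [Φ0]; ring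
  have he : ∀ t, D.cen p Φ t = D.dσ t * Φ0 (D.σ t) := fun t => by
    simp only [cen, Φ0, ← hΨb t]; ring
  set e := D.cen p Φ
  set u : ℝ → ℂ := fun t => e t / (p t : ℂ) with hu
  obtain ⟨L', hL'⟩ := hlip
  have huc : Continuous u := hL'.continuous
  set v : ℝ → ℂ := fun t => conj (u t) with hv
  have hvc : Continuous v := Complex.continuous_conj.comp huc
  have hvL : LipschitzWith (1 * L') v := Complex.conjCLE.toContinuousLinearMap.lipschitz.weaken
    (by
      rw [← NNReal.coe_le_coe, coe_nnnorm]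
      exact (ContinuousLinearMap.opNorm_le_bound _ zero_le_one fun z => by simp).trans le_rfl)
    |>.comp hL'
  have hec : Continuous e := by
    have : e = fun t => u t * (p t : ℂ) := funext fun t => by simp [u, hpne t]
    rw [this]; exact huc.mul (Complex.continuous_ofReal.comp hpc)
  have heper : Function.Periodic e (2 * π) := fun t => by
    simp only [e, cen, D.dσ_periodic t, D.σ_periodic t, hper t]
  have huper : Function.Periodic u (2 * π) := fun t => by simp only [u, heper t, hper t]
  have hvper : Function.Periodic v (2 * π) := fun t => by simp only [v, huper t]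
  have hJv := D.toDom.jump_continuousOn hvL hvper
  have hJu := D.toDom.jump_continuousOn hL' huper
  have hsub : Icc (1 / 2 : ℝ) 1 ⊆ Icc (1 / 2) 2 := Icc_subset_Icc le_rfl (by norm_num)
  have hline : ∀ (w : ℝ → ℂ), ContinuousOn (fun q : ℝ × ℝ => D.jump w q.1 q.2)
      (Icc (1 / 2) 2 ×ˢ univ) → ∀ s, ContinuousOn (fun r => D.jump w r s) (Icc (1 / 2) 1) :=
    fun w hw s => hw.comp (f := fun r : ℝ => (r, s)) (by fun_prop) fun r hr => ⟨hsub hr, trivial⟩
  -- the Cauchy transform of `u` vanishes inside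
  have hCu : ∀ z ∈ D.Ω, D.cauchyP u z = 0 := by
    intro z hz
    have hne : ∀ w ∈ D.Ωᶜ, w - z ≠ 0 := fun w hw h => hw (by rwa [sub_eq_zero.1 h])
    have hsub' : D.Ext ⊆ D.Ωᶜ := compl_subset_compl.2 subset_closure
    have hF : D.ExtFun (fun w => Φ0 w / Ψ w / (w - z)) 0 := by
      refine ⟨(hΦ0e.1.div hΨd fun w hw => hΨ0 w (hsub' hw)).div
          ((differentiable_id.sub_const z).differentiableOn) fun w hw => hne w (hsub' hw),
        (hΦ0e.2.1.div hΨc hΨ0).div (continuousOn_id.sub continuousOn_const) hne, ?_⟩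
      have hI : ((2 * π * I : ℂ))⁻¹ ≠ 0 := by simp [Real.pi_ne_zero, Complex.I_ne_zero]
      have h1 := hΦ0e.2.2.div hΨl hI
      have h2 : Tendsto (fun w : ℂ => w / (w - z)) (Bornology.cobounded ℂ) (𝓝 1) := by
        have h3 : Tendsto (fun w : ℂ => z * (w - z)⁻¹) (Bornology.cobounded ℂ) (𝓝 (z * 0)) :=
          (tendsto_inv₀_cobounded.comp (tendsto_sub_const_cobounded z)).const_mul z
        rw [mul_zero] at h3
        have h4 := h3.const_add 1
        rw [add_zero] at h4
        refine h4.congr' ?_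
        filter_upwards [Bornology.isBounded_def.1 (Bornology.isBounded_singleton (x := z))]
          with w hw
        have : w - z ≠ 0 := sub_ne_zero.2 hw
        field_simp
        ring
      have := h1.mul h2
      rw [zero_div, zero_mul] at this
      refine this.congr' ?_
      filter_upwards [Bornology.isBounded_def.1 (Bornology.isBounded_singleton (x := (0:ℂ)))]
        with w hw
      have : w ≠ 0 := hw
      simp only [Pi.div_apply]
      rw [mul_div_mul_left _ _ this]
      ring
    have h := hF.contour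
    rw [mul_zero] at h
    rw [Dom.cauchyP]
    convert mul_zero ((2 * π * I : ℂ)⁻¹) using 2
    rw [← h]
    refine intervalIntegral.integral_congr fun t _ => ?_
    show u t * (D.dσ t / (D.σ t - z)) = D.dσ t * (Φ0 (D.σ t) / Ψ (D.σ t) / (D.σ t - z))
    simp only [u, he, ← hΨb t]
    rw [mul_div_mul_left _ _ (D.dσ_ne_zero t)]
    ring
  have hju : ∀ s, u s + D.jump u 1 s = 0 := fun s =>
    eq_at_one (g := fun r => u s + D.jump u r s) (continuousOn_const.add (hline u hJu s)) fun r hr => by
      rw [← D.toDom.cauchyP_eq_add_jump huc (by linarith [hr.1]) hr.2 s]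
      exact hCu _ (D.smul_σ_mem (by linarith [hr.1]) hr.2 s)
  set Kv : ℝ → ℂ := fun s => D.jump v 1 s
  have hKc : Continuous Kv :=
    hJv.comp_continuous (f := fun s : ℝ => ((1 : ℝ), s)) (by fun_prop)
      fun s => ⟨⟨by norm_num, by norm_num⟩, trivial⟩
  -- `jump v 1` is the double-layer operator applied to `v`
  have hKv : ∀ s, Kv s = ∫ t in (0 : ℝ)..(2 * π), v t * (D.kernel s t : ℂ) := by
    intro s
    set q : ℝ → ℂ := fun t => D.dσ t / (D.σ t - ((1 : ℝ) : ℂ) * D.σ s)
    have hint : ∀ (w : ℝ → ℂ) (M : NNReal), LipschitzWith M w → Function.Periodic w (2 * π) →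
        IntervalIntegrable (fun t => (w t - w s) * q t) volume 0 (2 * π) := by
      intro w M hw hwp
      exact D.toDom.jump_integrable hw hwp s
    have hk := D.kernel_integrable s
    have hkC : IntervalIntegrable (fun t => (D.kernel s t : ℂ)) volume 0 (2 * π) :=
      ⟨hk.1.ofReal, hk.2.ofReal⟩
    have h1 : Kv s + conj (D.jump u 1 s) =
        ∫ t in (0 : ℝ)..(2 * π), (v t - v s) * (D.kernel s t : ℂ) := by
      simp only [Kv, Dom.jump, map_mul, ← intervalIntegral.intervalIntegral_conj]
      have hc : conj ((2 * π * I : ℂ)⁻¹) = -(2 * π * I : ℂ)⁻¹ := by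
        simp [map_inv₀, Complex.conj_ofReal, Complex.conj_I, map_ofNat]
      rw [hc, neg_mul, ← sub_eq_add_neg, ← mul_sub, ← intervalIntegral.integral_sub,
        ← intervalIntegral.integral_const_mul]
      · refine intervalIntegral.integral_congr fun t _ => ?_
        show (2 * π * I : ℂ)⁻¹ * ((v t - v s) * q t - conj (u t - u s) * conj (q t)) = _
        have e1 : conj (u t - u s) = v t - v s := by simp [v]
        have e2 : q t - conj (q t) = 2 * π * I * (D.kernel s t : ℂ) := by
          rw [Complex.sub_conj]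
          simp only [q, Complex.ofReal_one, one_mul, Dom.kernel]
          push_cast
          field_simp
        rw [e1, ← mul_sub, e2]
        field_simp
      · exact hint v _ hvL hvper
      · refine ((hint v _ hvL hvper).norm.mono_fun' ?_ ?_)
        · exact (Complex.continuous_conj.measurable.comp
            ((huc.measurable.sub (measurable_const (a := u s))).mul
              (D.continuous_dσ.measurable.div
                (D.continuous_σ.measurable.sub (measurable_const (a := ((1 : ℝ) : ℂ) * D.σ s)))))).aestronglyMeasurable.congr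
            (ae_of_all _ fun t => by simp)
        · exact ae_of_all _ fun t => by simp [v, q, norm_mul, ← map_sub]
    have h2 : conj (D.jump u 1 s) = -v s := by
      rw [show D.jump u 1 s = -u s by linear_combination hju s, map_neg]
    rw [h2, intervalIntegral.integral_congr (g := fun t => v t * (D.kernel s t : ℂ) -
        v s * (D.kernel s t : ℂ)) fun t _ => by ring,
      intervalIntegral.integral_sub (hkC.continuousOn_mul hvc.continuousOn) (hkC.const_mul _),
      intervalIntegral.integral_const_mul, intervalIntegral.integral_ofReal, D.kernel_integral,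
      Complex.ofReal_one, mul_one] at h1
    linear_combination h1
  -- the interior function with boundary values `v + Kv`
  have hH : DifferentiableOn ℂ (D.cauchyP v) D.Ω := (D.differentiableOn_cauchy hvc).const_mul _
  set w : ℝ → ℂ := fun t => D.dσ t * Q (D.σ t)
  have hwc : Continuous w := D.continuous_dσ.mul (hQ.continuous.comp D.continuous_σ)
  have h2pi : (0 : ℝ) ≤ 2 * π := by positivity
  have hJv' : ContinuousOn (fun q : ℝ × ℝ => D.jump v q.1 q.2) (Icc (1 / 2) 1 ×ˢ Icc 0 (2 * π)) :=
    hJv.mono (prod_mono hsub (subset_univ _))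
  have hperp : ∫ t in (0 : ℝ)..(2 * π), w t * (v t + Kv t) = 0 := by
    refine eq_at_one (g := fun r => ∫ t in (0 : ℝ)..(2 * π), w t * (v t + D.jump v r t))
      (continuousOn_param (by norm_num) h2pi ?_) fun r hr => ?_
    · exact (hwc.comp continuous_snd).continuousOn.mul
        ((hvc.comp continuous_snd).continuousOn.add hJv')
    · have h := D.contour_zero (g := fun z => Q z * D.cauchyP v ((r : ℂ) * z)) (by
        obtain ⟨U, hU, hUs, hUd⟩ := D.holNear_comp_smul hH (by linarith [hr.1]) hr.2
        exact ⟨U, hU, hUs, hQ.differentiableOn.mul hUd⟩)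
      rw [← h]
      refine intervalIntegral.integral_congr fun t _ => ?_
      rw [← D.toDom.cauchyP_eq_add_jump hvc (by linarith [hr.1]) hr.2 t]
      simp only [w]; ring
  -- pairing with `e`
  have hpair : ∫ t in (0 : ℝ)..(2 * π), e t * (v t + Kv t) =
      ∫ t in (0 : ℝ)..(2 * π), v t * e t := by
    have hcR : ContinuousOn (fun r : ℝ => ∫ t in (0 : ℝ)..(2 * π),
        v t * D.dσ t * (Φ0 (D.σ t / (r : ℂ)) / (r : ℂ))) (Icc (1 / 2) 1) := by
      refine continuousOn_param (by norm_num) h2pi ?_
      refine ((hvc.mul D.continuous_dσ).comp continuous_snd).continuousOn.mul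
        (ContinuousOn.div ?_ (by fun_prop) fun q hq => ?_)
      · refine hΦ0e.2.1.comp ((D.continuous_σ.comp continuous_snd).continuousOn.div (by fun_prop)
          fun q hq => ?_) fun q hq => D.inv_smul_σ_mem (by linarith [hq.1.1]) hq.1.2 _
        exact Complex.ofReal_ne_zero.2 (by linarith [hq.1.1])
      · exact Complex.ofReal_ne_zero.2 (by linarith [hq.1.1])
    have hcL : ContinuousOn (fun r : ℝ => ∫ t in (0 : ℝ)..(2 * π), e t * (v t + D.jump v r t))
        (Icc (1 / 2) 1) :=
      continuousOn_param (by norm_num) h2pi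
        ((hec.comp continuous_snd).continuousOn.mul ((hvc.comp continuous_snd).continuousOn.add hJv'))
    have h1 := eq_at_one (hcL.sub hcR) (c := 0) fun r hr => by
      have hr0 : 0 < r := by linarith [hr.1]
      have hrc : (r : ℂ) ≠ 0 := Complex.ofReal_ne_zero.2 hr0.ne'
      rw [Pi.sub_apply, sub_eq_zero]
      set M : ℝ → ℝ → ℂ := fun s t => e s * ((2 * π * I : ℂ)⁻¹ *
        (v t * (D.dσ t / (D.σ t - (r : ℂ) * D.σ s))))
      have hM : Continuous (Function.uncurry M) :=
        (hec.comp continuous_fst).mul (continuous_const.mul ((hvc.comp continuous_snd).mul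
          ((D.continuous_dσ.comp continuous_snd).div
            ((D.continuous_σ.comp continuous_snd).sub
              (continuous_const.mul (D.continuous_σ.comp continuous_fst)))
            fun q => D.σ_sub_ne (D.smul_σ_mem hr0.le hr.2 _) _)))
      calc ∫ s in (0 : ℝ)..(2 * π), e s * (v s + D.jump v r s)
          = ∫ s in (0 : ℝ)..(2 * π), ∫ t in (0 : ℝ)..(2 * π), M s t := by
            refine intervalIntegral.integral_congr fun s _ => ?_
            simp only [M, intervalIntegral.integral_const_mul]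
            rw [← D.toDom.cauchyP_eq_add_jump hvc hr0.le hr.2 s]
            rfl
        _ = ∫ t in (0 : ℝ)..(2 * π), ∫ s in (0 : ℝ)..(2 * π), M s t := by
            simp only [intervalIntegral.integral_of_le h2pi]
            refine integral_integral_swap ?_
            rw [Measure.prod_restrict]
            exact (hM.continuousOn.integrableOn_compact
              (isCompact_Icc.prod isCompact_Icc)).mono_set
                (prod_mono Ioc_subset_Icc_self Ioc_subset_Icc_self)
        _ = _ := by
            refine intervalIntegral.integral_congr fun t _ => ?_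
            show (∫ s in (0 : ℝ)..(2 * π), M s t) =
              v t * D.dσ t * (Φ0 (D.σ t / (r : ℂ)) / (r : ℂ))
            have h := Dom.ExtFun.cauchy_outside (hF := hΦ0e) (hz := D.inv_smul_σ_mem_Ext hr0 hr.2 t)
            rw [Dom.cauchyP] at h
            rw [show v t * D.dσ t * (Φ0 (D.σ t / (r : ℂ)) / (r : ℂ)) =
                (-(v t * D.dσ t) / (r : ℂ)) * -(Φ0 (D.σ t / (r : ℂ))) by ring, ← h,
              ← mul_assoc, ← intervalIntegral.integral_const_mul]
            refine intervalIntegral.integral_congr fun s _ => ?_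
            simp only [M, he]
            have hne : D.σ t - (r : ℂ) * D.σ s ≠ 0 :=
              D.σ_sub_ne (D.smul_σ_mem hr0.le hr.2 _) _
            have e1 : D.σ s - D.σ t / (r : ℂ) = -(D.σ t - (r : ℂ) * D.σ s) / (r : ℂ) := by
              field_simp
              ring
            rw [e1]
            field_simp
    rw [Pi.sub_apply, sub_eq_zero] at h1
    simp only [Complex.ofReal_one, div_one] at h1
    rw [show (fun t => e t * (v t + Kv t)) = fun t => e t * (v t + D.jump v 1 t) from rfl, h1]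
    exact intervalIntegral.integral_congr fun t _ => by simp only [he]; ring
  -- scalar bookkeeping
  have hK2 := D.jensen hpc hp0 hfix hvc hKc hKv
  have hcI : ∀ {g : ℝ → ℂ}, Continuous g →
      IntervalIntegrable g volume 0 (2 * π) := fun h => h.intervalIntegrable _ _
  have hrI : ∀ {g : ℝ → ℝ}, Continuous g →
      IntervalIntegrable g volume 0 (2 * π) := fun h => h.intervalIntegrable _ _
  have hre : ∀ {g : ℝ → ℂ}, Continuous g →
      (∫ t in (0 : ℝ)..(2 * π), g t).re = ∫ t in (0 : ℝ)..(2 * π), (g t).re :=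
    fun h => (Complex.reCLM.intervalIntegral_comp_comm (hcI h)).symm
  have hcross : ∫ t in (0 : ℝ)..(2 * π), (e t * Kv t).re = 0 := by
    rw [← hre (g := fun t => e t * Kv t) (hec.mul hKc)]
    rw [intervalIntegral.integral_congr (g := fun t => e t * v t + e t * Kv t)
      fun t _ => by ring, intervalIntegral.integral_add (hcI (g := fun t => e t * v t) (hec.mul hvc))
        (hcI (g := fun t => e t * Kv t) (hec.mul hKc))] at hpair
    rw [intervalIntegral.integral_congr (f := fun t => v t * e t) (g := fun t => e t * v t)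
      fun t _ => by ring, add_eq_left] at hpair
    simp [hpair]
  have hwre : ∫ t in (0 : ℝ)..(2 * π), (w t * (v t + Kv t)).re = 0 := by
    rw [← hre (g := fun t => w t * (v t + Kv t)) (hwc.mul (hvc.add hKc)), hperp, Complex.zero_re]
  have hw0 : ∫ t in (0 : ℝ)..(2 * π), (w t).re = 0 := by
    have h := D.contour_zero (g := Q) ⟨univ, isOpen_univ, subset_univ _, hQ.differentiableOn⟩
    rw [← hre hwc]
    simp [w, h]
  have he0 : ∫ t in (0 : ℝ)..(2 * π), (e t).re = 0 := by
    have h := hΦ0e.contour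
    rw [mul_zero] at h
    rw [← hre hec]
    simp [he, h]
  have hsq : ∫ t in (0 : ℝ)..(2 * π), p t * ‖v t‖ ^ 2 =
      ∫ t in (0 : ℝ)..(2 * π), ‖e t‖ ^ 2 / p t :=
    intervalIntegral.integral_congr fun t _ => by
      simp only [v, u, RCLike.norm_conj, norm_div, Complex.norm_real, Real.norm_of_nonneg (hp0 t).le]
      have := (hp0 t).ne'
      field_simp
  have iK : IntervalIntegrable (fun t => p t * ‖Kv t‖ ^ 2) volume 0 (2 * π) :=
    hrI (hpc.mul (hKc.norm.pow 2))
  have iv : IntervalIntegrable (fun t => p t * ‖v t‖ ^ 2) volume 0 (2 * π) :=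
    hrI (hpc.mul (hvc.norm.pow 2))
  have iX : IntervalIntegrable (fun t => (e t * Kv t).re) volume 0 (2 * π) :=
    hrI (Complex.continuous_re.comp (hec.mul hKc))
  have ie : IntervalIntegrable (fun t => (e t).re) volume 0 (2 * π) :=
    hrI (Complex.continuous_re.comp hec)
  have iw : IntervalIntegrable (fun t => (w t).re) volume 0 (2 * π) :=
    hrI (Complex.continuous_re.comp hwc)
  have iwv : IntervalIntegrable (fun t => (w t * (v t + Kv t)).re) volume 0 (2 * π) :=
    hrI (Complex.continuous_re.comp (hwc.mul (hvc.add hKc)))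
  set lo : ℝ → ℝ := fun t => ρ ^ 2 * p t + ρ ^ 2 * (p t * ‖v t‖ ^ 2) + 2 * ρ * (w t).re +
    2 * ρ ^ 2 * (e t).re + ρ * (w t * (v t + Kv t)).re -
    ρ ^ 2 / 4 * (p t * ‖v t‖ ^ 2 + p t * ‖Kv t‖ ^ 2 - 2 * (e t * Kv t).re)
  have hle : ∀ t, lo t ≤ ‖w t + ρ * (D.dσ t * Φ (D.σ t))‖ ^ 2 / p t := by
    intro t
    have hX : D.dσ t * Φ (D.σ t) = e t + p t := by simp [e, cen]
    have hev : e t = (p t : ℂ) * conj (v t) := by simp [v, u, hpne t]; field_simp [hpne t]
    simp only [lo, hX, hev]
    rw [le_div_iff₀ (hp0 t), ← Complex.normSq_eq_norm_sq, ← Complex.normSq_eq_norm_sq,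
      ← Complex.normSq_eq_norm_sq]
    simp only [Complex.normSq_apply, Complex.add_re, Complex.add_im, Complex.mul_re, Complex.mul_im,
      Complex.ofReal_re, Complex.ofReal_im, Complex.conj_re, Complex.conj_im]
    nlinarith [sq_nonneg ((w t).re + ρ * p t / 2 * ((v t).re - (Kv t).re)),
      sq_nonneg ((w t).im - ρ * p t / 2 * ((v t).im - (Kv t).im))]
  have hlo : Continuous lo := by
    simp only [lo]; fun_prop
  calc ρ ^ 2 * (1 + (∫ t in (0 : ℝ)..(2 * π), ‖e t‖ ^ 2 / p t) / 2)
      ≤ ∫ t in (0 : ℝ)..(2 * π), lo t := by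
        have ip := hrI (g := p) hpc
        have key : ∫ t in (0 : ℝ)..(2 * π), lo t =
            ρ ^ 2 * (∫ t in (0 : ℝ)..(2 * π), p t) +
            ρ ^ 2 * (∫ t in (0 : ℝ)..(2 * π), p t * ‖v t‖ ^ 2) +
            2 * ρ * (∫ t in (0 : ℝ)..(2 * π), (w t).re) +
            2 * ρ ^ 2 * (∫ t in (0 : ℝ)..(2 * π), (e t).re) +
            ρ * (∫ t in (0 : ℝ)..(2 * π), (w t * (v t + Kv t)).re) -
            ρ ^ 2 / 4 * ((∫ t in (0 : ℝ)..(2 * π), p t * ‖v t‖ ^ 2) +
              (∫ t in (0 : ℝ)..(2 * π), p t * ‖Kv t‖ ^ 2) -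
              2 * (∫ t in (0 : ℝ)..(2 * π), (e t * Kv t).re)) := by
          simp only [lo]
          have a1 := ip.const_mul (ρ ^ 2)
          have a2 := a1.add (iv.const_mul (ρ ^ 2))
          have a3 := a2.add (iw.const_mul (2 * ρ))
          have a4 := a3.add (ie.const_mul (2 * ρ ^ 2))
          have a5 := a4.add (iwv.const_mul ρ)
          rw [intervalIntegral.integral_sub a5 (((iv.add iK).sub (iX.const_mul 2)).const_mul _),
            intervalIntegral.integral_add a4 (iwv.const_mul ρ),
            intervalIntegral.integral_add a3 (ie.const_mul (2 * ρ ^ 2)),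
            intervalIntegral.integral_add a2 (iw.const_mul (2 * ρ)),
            intervalIntegral.integral_add a1 (iv.const_mul (ρ ^ 2))]
          simp only [intervalIntegral.integral_const_mul]
          rw [intervalIntegral.integral_sub (iv.add iK) (iX.const_mul 2),
            intervalIntegral.integral_add iv iK, intervalIntegral.integral_const_mul]
        rw [key, hmass, hw0, he0, hwre, hcross, ← hsq]
        nlinarith [mul_le_mul_of_nonneg_left hK2 (sq_nonneg ρ)]
    _ ≤ _ := by
        refine intervalIntegral.integral_mono_on h2pi (hrI hlo) ?_ fun t _ => hle t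
        refine hrI (Continuous.div ?_ hpc fun t => (hp0 t).ne')
        have hXc : Continuous fun t => D.dσ t * Φ (D.σ t) :=
          D.continuous_dσ.mul (hΦc.comp_continuous D.continuous_σ fun t => D.σ_notMem t)
        exact ((hwc.add (continuous_const.mul hXc)).norm).pow 2

end SDom

end Vale.Agent.P123
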